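import Vale.Agent.P183L.Tab

/-! b1 -/

namespace Vale.Agent.P183L.Tab

theorem b1_0 : allR (blockChk (leK 1) Z1) 0 500 = true := by decide +kernel
theorem b1_1 : allR (blockChk (leK 1) Z1) 500 500 = true := by decide +kernel
theorem b1_2 : allR (blockChk (leK 1) Z1) 1000 500 = true := by decide +kernel
theorem b1_3 : allR (blockChk (leK 1) Z1) 1500 500 = true := by decide +kernel
theorem b1_4 : allR (blockChk (leK 1) Z1) 2000 500 = true := by decide +kernel
theorem b1_5 : allR (blockChk (leK 1) Z1) 2500 500 = true := by decide +kernel
theorem b1_6 : allR (blockChk (leK 1) Z1) 3000 500 = true := by decide +kernel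
theorem b1_7 : allR (blockChk (leK 1) Z1) 3500 500 = true := by decide +kernel
theorem b1_8 : allR (blockChk (leK 1) Z1) 4000 500 = true := by decide +kernel
theorem b1_9 : allR (blockChk (leK 1) Z1) 4500 500 = true := by decide +kernel
theorem b1_10 : allR (blockChk (leK 1) Z1) 5000 500 = true := by decide +kernel
theorem b1_11 : allR (blockChk (leK 1) Z1) 5500 500 = true := by decide +kernel
theorem b1_12 : allR (blockChk (leK 1) Z1) 6000 500 = true := by decide +kernel
theorem b1_13 : allR (blockChk (leK 1) Z1) 6500 500 = true := by decide +kernel
theorem b1_14 : allR (blockChk (leK 1) Z1) 7000 500 = true := by decide +kernel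
theorem b1_15 : allR (blockChk (leK 1) Z1) 7500 500 = true := by decide +kernel
theorem b1_16 : allR (blockChk (leK 1) Z1) 8000 500 = true := by decide +kernel
theorem b1_17 : allR (blockChk (leK 1) Z1) 8500 500 = true := by decide +kernel
theorem b1_18 : allR (blockChk (leK 1) Z1) 9000 500 = true := by decide +kernel
theorem b1_19 : allR (blockChk (leK 1) Z1) 9500 500 = true := by decide +kernel
theorem b1_20 : allR (blockChk (leK 1) Z1) 10000 500 = true := by decide +kernel
theorem b1_21 : allR (blockChk (leK 1) Z1) 10500 500 = true := by decide +kernel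
theorem b1_22 : allR (blockChk (leK 1) Z1) 11000 500 = true := by decide +kernel
theorem b1_23 : allR (blockChk (leK 1) Z1) 11500 500 = true := by decide +kernel
theorem b1_24 : allR (blockChk (leK 1) Z1) 12000 500 = true := by decide +kernel
theorem b1_25 : allR (blockChk (leK 1) Z1) 12500 500 = true := by decide +kernel
theorem b1_26 : allR (blockChk (leK 1) Z1) 13000 500 = true := by decide +kernel
theorem b1_27 : allR (blockChk (leK 1) Z1) 13500 500 = true := by decide +kernel
theorem b1_28 : allR (blockChk (leK 1) Z1) 14000 500 = true := by decide +kernel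
theorem b1_29 : allR (blockChk (leK 1) Z1) 14500 500 = true := by decide +kernel
theorem b1_30 : allR (blockChk (leK 1) Z1) 15000 500 = true := by decide +kernel
theorem b1_31 : allR (blockChk (leK 1) Z1) 15500 500 = true := by decide +kernel
theorem b1_32 : allR (blockChk (leK 1) Z1) 16000 500 = true := by decide +kernel
theorem b1_33 : allR (blockChk (leK 1) Z1) 16500 500 = true := by decide +kernel
theorem b1_34 : allR (blockChk (leK 1) Z1) 17000 500 = true := by decide +kernel
theorem b1_35 : allR (blockChk (leK 1) Z1) 17500 500 = true := by decide +kernel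
theorem b1_36 : allR (blockChk (leK 1) Z1) 18000 500 = true := by decide +kernel
theorem b1_37 : allR (blockChk (leK 1) Z1) 18500 500 = true := by decide +kernel
theorem b1_38 : allR (blockChk (leK 1) Z1) 19000 500 = true := by decide +kernel
theorem b1_39 : allR (blockChk (leK 1) Z1) 19500 500 = true := by decide +kernel
theorem b1_40 : allR (blockChk (leK 1) Z1) 20000 500 = true := by decide +kernel
theorem b1_41 : allR (blockChk (leK 1) Z1) 20500 500 = true := by decide +kernel
theorem b1_42 : allR (blockChk (leK 1) Z1) 21000 500 = true := by decide +kernel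
theorem b1_43 : allR (blockChk (leK 1) Z1) 21500 500 = true := by decide +kernel
theorem b1_44 : allR (blockChk (leK 1) Z1) 22000 500 = true := by decide +kernel
theorem b1_45 : allR (blockChk (leK 1) Z1) 22500 500 = true := by decide +kernel
theorem b1_46 : allR (blockChk (leK 1) Z1) 23000 500 = true := by decide +kernel
theorem b1_47 : allR (blockChk (leK 1) Z1) 23500 500 = true := by decide +kernel
theorem b1_48 : allR (blockChk (leK 1) Z1) 24000 500 = true := by decide +kernel
theorem b1_49 : allR (blockChk (leK 1) Z1) 24500 500 = true := by decide +kernel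
theorem b1_50 : allR (blockChk (leK 1) Z1) 25000 500 = true := by decide +kernel
theorem b1_51 : allR (blockChk (leK 1) Z1) 25500 500 = true := by decide +kernel
theorem b1_52 : allR (blockChk (leK 1) Z1) 26000 500 = true := by decide +kernel
theorem b1_53 : allR (blockChk (leK 1) Z1) 26500 500 = true := by decide +kernel
theorem b1_54 : allR (blockChk (leK 1) Z1) 27000 500 = true := by decide +kernel
theorem b1_55 : allR (blockChk (leK 1) Z1) 27500 500 = true := by decide +kernel
theorem b1_56 : allR (blockChk (leK 1) Z1) 28000 500 = true := by decide +kernel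
theorem b1_57 : allR (blockChk (leK 1) Z1) 28500 500 = true := by decide +kernel
theorem b1_58 : allR (blockChk (leK 1) Z1) 29000 500 = true := by decide +kernel
theorem b1_59 : allR (blockChk (leK 1) Z1) 29500 500 = true := by decide +kernel
theorem b1_60 : allR (blockChk (leK 1) Z1) 30000 500 = true := by decide +kernel
theorem b1_61 : allR (blockChk (leK 1) Z1) 30500 500 = true := by decide +kernel
theorem b1_62 : allR (blockChk (leK 1) Z1) 31000 500 = true := by decide +kernel
theorem b1_63 : allR (blockChk (leK 1) Z1) 31500 500 = true := by decide +kernel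
theorem b1_64 : allR (blockChk (leK 1) Z1) 32000 500 = true := by decide +kernel
theorem b1_65 : allR (blockChk (leK 1) Z1) 32500 500 = true := by decide +kernel
theorem b1_66 : allR (blockChk (leK 1) Z1) 33000 500 = true := by decide +kernel
theorem b1_67 : allR (blockChk (leK 1) Z1) 33500 500 = true := by decide +kernel
theorem b1_68 : allR (blockChk (leK 1) Z1) 34000 500 = true := by decide +kernel
theorem b1_69 : allR (blockChk (leK 1) Z1) 34500 500 = true := by decide +kernel
theorem b1_70 : allR (blockChk (leK 1) Z1) 35000 500 = true := by decide +kernel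
theorem b1_71 : allR (blockChk (leK 1) Z1) 35500 500 = true := by decide +kernel
theorem b1_72 : allR (blockChk (leK 1) Z1) 36000 500 = true := by decide +kernel
theorem b1_73 : allR (blockChk (leK 1) Z1) 36500 500 = true := by decide +kernel
theorem b1_74 : allR (blockChk (leK 1) Z1) 37000 500 = true := by decide +kernel
theorem b1_75 : allR (blockChk (leK 1) Z1) 37500 500 = true := by decide +kernel
theorem b1_76 : allR (blockChk (leK 1) Z1) 38000 500 = true := by decide +kernel
theorem b1_77 : allR (blockChk (leK 1) Z1) 38500 500 = true := by decide +kernel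
theorem b1_78 : allR (blockChk (leK 1) Z1) 39000 500 = true := by decide +kernel
theorem b1_79 : allR (blockChk (leK 1) Z1) 39500 500 = true := by decide +kernel
theorem b1_80 : allR (blockChk (leK 1) Z1) 40000 500 = true := by decide +kernel
theorem b1_81 : allR (blockChk (leK 1) Z1) 40500 500 = true := by decide +kernel
theorem b1_82 : allR (blockChk (leK 1) Z1) 41000 500 = true := by decide +kernel
theorem b1_83 : allR (blockChk (leK 1) Z1) 41500 500 = true := by decide +kernel
theorem b1_84 : allR (blockChk (leK 1) Z1) 42000 500 = true := by decide +kernel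
theorem b1_85 : allR (blockChk (leK 1) Z1) 42500 500 = true := by decide +kernel
theorem b1_86 : allR (blockChk (leK 1) Z1) 43000 500 = true := by decide +kernel
theorem b1_87 : allR (blockChk (leK 1) Z1) 43500 180 = true := by decide +kernel

end Vale.Agent.P183L.Tab
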