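import Vale.Agent.P183L.Tab

/-! b2 -/

namespace Vale.Agent.P183L.Tab

theorem b2_0 : allR (blockChk (leK 2) Z2) 0 500 = true := by decide +kernel
theorem b2_1 : allR (blockChk (leK 2) Z2) 500 500 = true := by decide +kernel
theorem b2_2 : allR (blockChk (leK 2) Z2) 1000 500 = true := by decide +kernel
theorem b2_3 : allR (blockChk (leK 2) Z2) 1500 500 = true := by decide +kernel
theorem b2_4 : allR (blockChk (leK 2) Z2) 2000 500 = true := by decide +kernel
theorem b2_5 : allR (blockChk (leK 2) Z2) 2500 500 = true := by decide +kernel
theorem b2_6 : allR (blockChk (leK 2) Z2) 3000 500 = true := by decide +kernel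
theorem b2_7 : allR (blockChk (leK 2) Z2) 3500 500 = true := by decide +kernel
theorem b2_8 : allR (blockChk (leK 2) Z2) 4000 500 = true := by decide +kernel
theorem b2_9 : allR (blockChk (leK 2) Z2) 4500 500 = true := by decide +kernel
theorem b2_10 : allR (blockChk (leK 2) Z2) 5000 500 = true := by decide +kernel
theorem b2_11 : allR (blockChk (leK 2) Z2) 5500 500 = true := by decide +kernel
theorem b2_12 : allR (blockChk (leK 2) Z2) 6000 500 = true := by decide +kernel
theorem b2_13 : allR (blockChk (leK 2) Z2) 6500 500 = true := by decide +kernel
theorem b2_14 : allR (blockChk (leK 2) Z2) 7000 500 = true := by decide +kernel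
theorem b2_15 : allR (blockChk (leK 2) Z2) 7500 500 = true := by decide +kernel
theorem b2_16 : allR (blockChk (leK 2) Z2) 8000 500 = true := by decide +kernel
theorem b2_17 : allR (blockChk (leK 2) Z2) 8500 500 = true := by decide +kernel
theorem b2_18 : allR (blockChk (leK 2) Z2) 9000 500 = true := by decide +kernel
theorem b2_19 : allR (blockChk (leK 2) Z2) 9500 500 = true := by decide +kernel
theorem b2_20 : allR (blockChk (leK 2) Z2) 10000 500 = true := by decide +kernel
theorem b2_21 : allR (blockChk (leK 2) Z2) 10500 500 = true := by decide +kernel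
theorem b2_22 : allR (blockChk (leK 2) Z2) 11000 500 = true := by decide +kernel
theorem b2_23 : allR (blockChk (leK 2) Z2) 11500 500 = true := by decide +kernel
theorem b2_24 : allR (blockChk (leK 2) Z2) 12000 500 = true := by decide +kernel
theorem b2_25 : allR (blockChk (leK 2) Z2) 12500 500 = true := by decide +kernel
theorem b2_26 : allR (blockChk (leK 2) Z2) 13000 500 = true := by decide +kernel
theorem b2_27 : allR (blockChk (leK 2) Z2) 13500 500 = true := by decide +kernel
theorem b2_28 : allR (blockChk (leK 2) Z2) 14000 500 = true := by decide +kernel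
theorem b2_29 : allR (blockChk (leK 2) Z2) 14500 500 = true := by decide +kernel
theorem b2_30 : allR (blockChk (leK 2) Z2) 15000 500 = true := by decide +kernel
theorem b2_31 : allR (blockChk (leK 2) Z2) 15500 500 = true := by decide +kernel
theorem b2_32 : allR (blockChk (leK 2) Z2) 16000 500 = true := by decide +kernel
theorem b2_33 : allR (blockChk (leK 2) Z2) 16500 500 = true := by decide +kernel
theorem b2_34 : allR (blockChk (leK 2) Z2) 17000 500 = true := by decide +kernel
theorem b2_35 : allR (blockChk (leK 2) Z2) 17500 500 = true := by decide +kernel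
theorem b2_36 : allR (blockChk (leK 2) Z2) 18000 500 = true := by decide +kernel
theorem b2_37 : allR (blockChk (leK 2) Z2) 18500 500 = true := by decide +kernel
theorem b2_38 : allR (blockChk (leK 2) Z2) 19000 500 = true := by decide +kernel
theorem b2_39 : allR (blockChk (leK 2) Z2) 19500 500 = true := by decide +kernel
theorem b2_40 : allR (blockChk (leK 2) Z2) 20000 500 = true := by decide +kernel
theorem b2_41 : allR (blockChk (leK 2) Z2) 20500 500 = true := by decide +kernel
theorem b2_42 : allR (blockChk (leK 2) Z2) 21000 500 = true := by decide +kernel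
theorem b2_43 : allR (blockChk (leK 2) Z2) 21500 500 = true := by decide +kernel
theorem b2_44 : allR (blockChk (leK 2) Z2) 22000 500 = true := by decide +kernel
theorem b2_45 : allR (blockChk (leK 2) Z2) 22500 500 = true := by decide +kernel
theorem b2_46 : allR (blockChk (leK 2) Z2) 23000 500 = true := by decide +kernel
theorem b2_47 : allR (blockChk (leK 2) Z2) 23500 500 = true := by decide +kernel
theorem b2_48 : allR (blockChk (leK 2) Z2) 24000 500 = true := by decide +kernel
theorem b2_49 : allR (blockChk (leK 2) Z2) 24500 500 = true := by decide +kernel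
theorem b2_50 : allR (blockChk (leK 2) Z2) 25000 500 = true := by decide +kernel
theorem b2_51 : allR (blockChk (leK 2) Z2) 25500 500 = true := by decide +kernel
theorem b2_52 : allR (blockChk (leK 2) Z2) 26000 500 = true := by decide +kernel
theorem b2_53 : allR (blockChk (leK 2) Z2) 26500 500 = true := by decide +kernel
theorem b2_54 : allR (blockChk (leK 2) Z2) 27000 500 = true := by decide +kernel
theorem b2_55 : allR (blockChk (leK 2) Z2) 27500 500 = true := by decide +kernel
theorem b2_56 : allR (blockChk (leK 2) Z2) 28000 500 = true := by decide +kernel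
theorem b2_57 : allR (blockChk (leK 2) Z2) 28500 500 = true := by decide +kernel
theorem b2_58 : allR (blockChk (leK 2) Z2) 29000 500 = true := by decide +kernel
theorem b2_59 : allR (blockChk (leK 2) Z2) 29500 500 = true := by decide +kernel
theorem b2_60 : allR (blockChk (leK 2) Z2) 30000 500 = true := by decide +kernel
theorem b2_61 : allR (blockChk (leK 2) Z2) 30500 500 = true := by decide +kernel
theorem b2_62 : allR (blockChk (leK 2) Z2) 31000 500 = true := by decide +kernel
theorem b2_63 : allR (blockChk (leK 2) Z2) 31500 500 = true := by decide +kernel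
theorem b2_64 : allR (blockChk (leK 2) Z2) 32000 500 = true := by decide +kernel
theorem b2_65 : allR (blockChk (leK 2) Z2) 32500 500 = true := by decide +kernel
theorem b2_66 : allR (blockChk (leK 2) Z2) 33000 500 = true := by decide +kernel
theorem b2_67 : allR (blockChk (leK 2) Z2) 33500 500 = true := by decide +kernel
theorem b2_68 : allR (blockChk (leK 2) Z2) 34000 500 = true := by decide +kernel
theorem b2_69 : allR (blockChk (leK 2) Z2) 34500 500 = true := by decide +kernel
theorem b2_70 : allR (blockChk (leK 2) Z2) 35000 500 = true := by decide +kernel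
theorem b2_71 : allR (blockChk (leK 2) Z2) 35500 500 = true := by decide +kernel
theorem b2_72 : allR (blockChk (leK 2) Z2) 36000 500 = true := by decide +kernel
theorem b2_73 : allR (blockChk (leK 2) Z2) 36500 500 = true := by decide +kernel
theorem b2_74 : allR (blockChk (leK 2) Z2) 37000 500 = true := by decide +kernel
theorem b2_75 : allR (blockChk (leK 2) Z2) 37500 500 = true := by decide +kernel
theorem b2_76 : allR (blockChk (leK 2) Z2) 38000 500 = true := by decide +kernel
theorem b2_77 : allR (blockChk (leK 2) Z2) 38500 500 = true := by decide +kernel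
theorem b2_78 : allR (blockChk (leK 2) Z2) 39000 500 = true := by decide +kernel
theorem b2_79 : allR (blockChk (leK 2) Z2) 39500 500 = true := by decide +kernel
theorem b2_80 : allR (blockChk (leK 2) Z2) 40000 500 = true := by decide +kernel
theorem b2_81 : allR (blockChk (leK 2) Z2) 40500 500 = true := by decide +kernel
theorem b2_82 : allR (blockChk (leK 2) Z2) 41000 500 = true := by decide +kernel
theorem b2_83 : allR (blockChk (leK 2) Z2) 41500 500 = true := by decide +kernel
theorem b2_84 : allR (blockChk (leK 2) Z2) 42000 500 = true := by decide +kernel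
theorem b2_85 : allR (blockChk (leK 2) Z2) 42500 500 = true := by decide +kernel
theorem b2_86 : allR (blockChk (leK 2) Z2) 43000 500 = true := by decide +kernel
theorem b2_87 : allR (blockChk (leK 2) Z2) 43500 180 = true := by decide +kernel

end Vale.Agent.P183L.Tab
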