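import Vale.Agent.P183L.Tab

/-! b4 -/

namespace Vale.Agent.P183L.Tab

theorem b4_0 : allR (blockChk (leK 4) Z4) 0 500 = true := by decide +kernel
theorem b4_1 : allR (blockChk (leK 4) Z4) 500 500 = true := by decide +kernel
theorem b4_2 : allR (blockChk (leK 4) Z4) 1000 500 = true := by decide +kernel
theorem b4_3 : allR (blockChk (leK 4) Z4) 1500 500 = true := by decide +kernel
theorem b4_4 : allR (blockChk (leK 4) Z4) 2000 500 = true := by decide +kernel
theorem b4_5 : allR (blockChk (leK 4) Z4) 2500 500 = true := by decide +kernel
theorem b4_6 : allR (blockChk (leK 4) Z4) 3000 500 = true := by decide +kernel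
theorem b4_7 : allR (blockChk (leK 4) Z4) 3500 500 = true := by decide +kernel
theorem b4_8 : allR (blockChk (leK 4) Z4) 4000 500 = true := by decide +kernel
theorem b4_9 : allR (blockChk (leK 4) Z4) 4500 500 = true := by decide +kernel
theorem b4_10 : allR (blockChk (leK 4) Z4) 5000 500 = true := by decide +kernel
theorem b4_11 : allR (blockChk (leK 4) Z4) 5500 500 = true := by decide +kernel
theorem b4_12 : allR (blockChk (leK 4) Z4) 6000 500 = true := by decide +kernel
theorem b4_13 : allR (blockChk (leK 4) Z4) 6500 500 = true := by decide +kernel
theorem b4_14 : allR (blockChk (leK 4) Z4) 7000 500 = true := by decide +kernel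
theorem b4_15 : allR (blockChk (leK 4) Z4) 7500 500 = true := by decide +kernel
theorem b4_16 : allR (blockChk (leK 4) Z4) 8000 500 = true := by decide +kernel
theorem b4_17 : allR (blockChk (leK 4) Z4) 8500 500 = true := by decide +kernel
theorem b4_18 : allR (blockChk (leK 4) Z4) 9000 500 = true := by decide +kernel
theorem b4_19 : allR (blockChk (leK 4) Z4) 9500 500 = true := by decide +kernel
theorem b4_20 : allR (blockChk (leK 4) Z4) 10000 500 = true := by decide +kernel
theorem b4_21 : allR (blockChk (leK 4) Z4) 10500 500 = true := by decide +kernel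
theorem b4_22 : allR (blockChk (leK 4) Z4) 11000 500 = true := by decide +kernel
theorem b4_23 : allR (blockChk (leK 4) Z4) 11500 500 = true := by decide +kernel
theorem b4_24 : allR (blockChk (leK 4) Z4) 12000 500 = true := by decide +kernel
theorem b4_25 : allR (blockChk (leK 4) Z4) 12500 500 = true := by decide +kernel
theorem b4_26 : allR (blockChk (leK 4) Z4) 13000 500 = true := by decide +kernel
theorem b4_27 : allR (blockChk (leK 4) Z4) 13500 500 = true := by decide +kernel
theorem b4_28 : allR (blockChk (leK 4) Z4) 14000 500 = true := by decide +kernel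
theorem b4_29 : allR (blockChk (leK 4) Z4) 14500 500 = true := by decide +kernel
theorem b4_30 : allR (blockChk (leK 4) Z4) 15000 500 = true := by decide +kernel
theorem b4_31 : allR (blockChk (leK 4) Z4) 15500 500 = true := by decide +kernel
theorem b4_32 : allR (blockChk (leK 4) Z4) 16000 500 = true := by decide +kernel
theorem b4_33 : allR (blockChk (leK 4) Z4) 16500 500 = true := by decide +kernel
theorem b4_34 : allR (blockChk (leK 4) Z4) 17000 500 = true := by decide +kernel
theorem b4_35 : allR (blockChk (leK 4) Z4) 17500 500 = true := by decide +kernel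
theorem b4_36 : allR (blockChk (leK 4) Z4) 18000 500 = true := by decide +kernel
theorem b4_37 : allR (blockChk (leK 4) Z4) 18500 500 = true := by decide +kernel
theorem b4_38 : allR (blockChk (leK 4) Z4) 19000 500 = true := by decide +kernel
theorem b4_39 : allR (blockChk (leK 4) Z4) 19500 500 = true := by decide +kernel
theorem b4_40 : allR (blockChk (leK 4) Z4) 20000 500 = true := by decide +kernel
theorem b4_41 : allR (blockChk (leK 4) Z4) 20500 500 = true := by decide +kernel
theorem b4_42 : allR (blockChk (leK 4) Z4) 21000 500 = true := by decide +kernel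
theorem b4_43 : allR (blockChk (leK 4) Z4) 21500 500 = true := by decide +kernel
theorem b4_44 : allR (blockChk (leK 4) Z4) 22000 500 = true := by decide +kernel
theorem b4_45 : allR (blockChk (leK 4) Z4) 22500 500 = true := by decide +kernel
theorem b4_46 : allR (blockChk (leK 4) Z4) 23000 500 = true := by decide +kernel
theorem b4_47 : allR (blockChk (leK 4) Z4) 23500 500 = true := by decide +kernel
theorem b4_48 : allR (blockChk (leK 4) Z4) 24000 500 = true := by decide +kernel
theorem b4_49 : allR (blockChk (leK 4) Z4) 24500 500 = true := by decide +kernel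
theorem b4_50 : allR (blockChk (leK 4) Z4) 25000 500 = true := by decide +kernel
theorem b4_51 : allR (blockChk (leK 4) Z4) 25500 500 = true := by decide +kernel
theorem b4_52 : allR (blockChk (leK 4) Z4) 26000 500 = true := by decide +kernel
theorem b4_53 : allR (blockChk (leK 4) Z4) 26500 500 = true := by decide +kernel
theorem b4_54 : allR (blockChk (leK 4) Z4) 27000 500 = true := by decide +kernel
theorem b4_55 : allR (blockChk (leK 4) Z4) 27500 500 = true := by decide +kernel
theorem b4_56 : allR (blockChk (leK 4) Z4) 28000 500 = true := by decide +kernel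
theorem b4_57 : allR (blockChk (leK 4) Z4) 28500 500 = true := by decide +kernel
theorem b4_58 : allR (blockChk (leK 4) Z4) 29000 500 = true := by decide +kernel
theorem b4_59 : allR (blockChk (leK 4) Z4) 29500 500 = true := by decide +kernel
theorem b4_60 : allR (blockChk (leK 4) Z4) 30000 500 = true := by decide +kernel
theorem b4_61 : allR (blockChk (leK 4) Z4) 30500 500 = true := by decide +kernel
theorem b4_62 : allR (blockChk (leK 4) Z4) 31000 500 = true := by decide +kernel
theorem b4_63 : allR (blockChk (leK 4) Z4) 31500 500 = true := by decide +kernel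
theorem b4_64 : allR (blockChk (leK 4) Z4) 32000 500 = true := by decide +kernel
theorem b4_65 : allR (blockChk (leK 4) Z4) 32500 500 = true := by decide +kernel
theorem b4_66 : allR (blockChk (leK 4) Z4) 33000 500 = true := by decide +kernel
theorem b4_67 : allR (blockChk (leK 4) Z4) 33500 500 = true := by decide +kernel
theorem b4_68 : allR (blockChk (leK 4) Z4) 34000 500 = true := by decide +kernel
theorem b4_69 : allR (blockChk (leK 4) Z4) 34500 500 = true := by decide +kernel
theorem b4_70 : allR (blockChk (leK 4) Z4) 35000 500 = true := by decide +kernel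
theorem b4_71 : allR (blockChk (leK 4) Z4) 35500 500 = true := by decide +kernel
theorem b4_72 : allR (blockChk (leK 4) Z4) 36000 500 = true := by decide +kernel
theorem b4_73 : allR (blockChk (leK 4) Z4) 36500 500 = true := by decide +kernel
theorem b4_74 : allR (blockChk (leK 4) Z4) 37000 500 = true := by decide +kernel
theorem b4_75 : allR (blockChk (leK 4) Z4) 37500 500 = true := by decide +kernel
theorem b4_76 : allR (blockChk (leK 4) Z4) 38000 500 = true := by decide +kernel
theorem b4_77 : allR (blockChk (leK 4) Z4) 38500 500 = true := by decide +kernel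
theorem b4_78 : allR (blockChk (leK 4) Z4) 39000 500 = true := by decide +kernel
theorem b4_79 : allR (blockChk (leK 4) Z4) 39500 500 = true := by decide +kernel
theorem b4_80 : allR (blockChk (leK 4) Z4) 40000 500 = true := by decide +kernel
theorem b4_81 : allR (blockChk (leK 4) Z4) 40500 500 = true := by decide +kernel
theorem b4_82 : allR (blockChk (leK 4) Z4) 41000 500 = true := by decide +kernel
theorem b4_83 : allR (blockChk (leK 4) Z4) 41500 500 = true := by decide +kernel
theorem b4_84 : allR (blockChk (leK 4) Z4) 42000 500 = true := by decide +kernel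
theorem b4_85 : allR (blockChk (leK 4) Z4) 42500 500 = true := by decide +kernel
theorem b4_86 : allR (blockChk (leK 4) Z4) 43000 500 = true := by decide +kernel
theorem b4_87 : allR (blockChk (leK 4) Z4) 43500 180 = true := by decide +kernel

end Vale.Agent.P183L.Tab
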