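import Vale.Agent.P183L.Tab

/-! b5 -/

namespace Vale.Agent.P183L.Tab

theorem b5_0 : allR (blockChk (leK 5) Z5) 0 500 = true := by decide +kernel
theorem b5_1 : allR (blockChk (leK 5) Z5) 500 500 = true := by decide +kernel
theorem b5_2 : allR (blockChk (leK 5) Z5) 1000 500 = true := by decide +kernel
theorem b5_3 : allR (blockChk (leK 5) Z5) 1500 500 = true := by decide +kernel
theorem b5_4 : allR (blockChk (leK 5) Z5) 2000 500 = true := by decide +kernel
theorem b5_5 : allR (blockChk (leK 5) Z5) 2500 500 = true := by decide +kernel
theorem b5_6 : allR (blockChk (leK 5) Z5) 3000 500 = true := by decide +kernel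
theorem b5_7 : allR (blockChk (leK 5) Z5) 3500 500 = true := by decide +kernel
theorem b5_8 : allR (blockChk (leK 5) Z5) 4000 500 = true := by decide +kernel
theorem b5_9 : allR (blockChk (leK 5) Z5) 4500 500 = true := by decide +kernel
theorem b5_10 : allR (blockChk (leK 5) Z5) 5000 500 = true := by decide +kernel
theorem b5_11 : allR (blockChk (leK 5) Z5) 5500 500 = true := by decide +kernel
theorem b5_12 : allR (blockChk (leK 5) Z5) 6000 500 = true := by decide +kernel
theorem b5_13 : allR (blockChk (leK 5) Z5) 6500 500 = true := by decide +kernel
theorem b5_14 : allR (blockChk (leK 5) Z5) 7000 500 = true := by decide +kernel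
theorem b5_15 : allR (blockChk (leK 5) Z5) 7500 500 = true := by decide +kernel
theorem b5_16 : allR (blockChk (leK 5) Z5) 8000 500 = true := by decide +kernel
theorem b5_17 : allR (blockChk (leK 5) Z5) 8500 500 = true := by decide +kernel
theorem b5_18 : allR (blockChk (leK 5) Z5) 9000 500 = true := by decide +kernel
theorem b5_19 : allR (blockChk (leK 5) Z5) 9500 500 = true := by decide +kernel
theorem b5_20 : allR (blockChk (leK 5) Z5) 10000 500 = true := by decide +kernel
theorem b5_21 : allR (blockChk (leK 5) Z5) 10500 500 = true := by decide +kernel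
theorem b5_22 : allR (blockChk (leK 5) Z5) 11000 500 = true := by decide +kernel
theorem b5_23 : allR (blockChk (leK 5) Z5) 11500 500 = true := by decide +kernel
theorem b5_24 : allR (blockChk (leK 5) Z5) 12000 500 = true := by decide +kernel
theorem b5_25 : allR (blockChk (leK 5) Z5) 12500 500 = true := by decide +kernel
theorem b5_26 : allR (blockChk (leK 5) Z5) 13000 500 = true := by decide +kernel
theorem b5_27 : allR (blockChk (leK 5) Z5) 13500 500 = true := by decide +kernel
theorem b5_28 : allR (blockChk (leK 5) Z5) 14000 500 = true := by decide +kernel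
theorem b5_29 : allR (blockChk (leK 5) Z5) 14500 500 = true := by decide +kernel
theorem b5_30 : allR (blockChk (leK 5) Z5) 15000 500 = true := by decide +kernel
theorem b5_31 : allR (blockChk (leK 5) Z5) 15500 500 = true := by decide +kernel
theorem b5_32 : allR (blockChk (leK 5) Z5) 16000 500 = true := by decide +kernel
theorem b5_33 : allR (blockChk (leK 5) Z5) 16500 500 = true := by decide +kernel
theorem b5_34 : allR (blockChk (leK 5) Z5) 17000 500 = true := by decide +kernel
theorem b5_35 : allR (blockChk (leK 5) Z5) 17500 500 = true := by decide +kernel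
theorem b5_36 : allR (blockChk (leK 5) Z5) 18000 500 = true := by decide +kernel
theorem b5_37 : allR (blockChk (leK 5) Z5) 18500 500 = true := by decide +kernel
theorem b5_38 : allR (blockChk (leK 5) Z5) 19000 500 = true := by decide +kernel
theorem b5_39 : allR (blockChk (leK 5) Z5) 19500 500 = true := by decide +kernel
theorem b5_40 : allR (blockChk (leK 5) Z5) 20000 500 = true := by decide +kernel
theorem b5_41 : allR (blockChk (leK 5) Z5) 20500 500 = true := by decide +kernel
theorem b5_42 : allR (blockChk (leK 5) Z5) 21000 500 = true := by decide +kernel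
theorem b5_43 : allR (blockChk (leK 5) Z5) 21500 500 = true := by decide +kernel
theorem b5_44 : allR (blockChk (leK 5) Z5) 22000 500 = true := by decide +kernel
theorem b5_45 : allR (blockChk (leK 5) Z5) 22500 500 = true := by decide +kernel
theorem b5_46 : allR (blockChk (leK 5) Z5) 23000 500 = true := by decide +kernel
theorem b5_47 : allR (blockChk (leK 5) Z5) 23500 500 = true := by decide +kernel
theorem b5_48 : allR (blockChk (leK 5) Z5) 24000 500 = true := by decide +kernel
theorem b5_49 : allR (blockChk (leK 5) Z5) 24500 500 = true := by decide +kernel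
theorem b5_50 : allR (blockChk (leK 5) Z5) 25000 500 = true := by decide +kernel
theorem b5_51 : allR (blockChk (leK 5) Z5) 25500 500 = true := by decide +kernel
theorem b5_52 : allR (blockChk (leK 5) Z5) 26000 500 = true := by decide +kernel
theorem b5_53 : allR (blockChk (leK 5) Z5) 26500 500 = true := by decide +kernel
theorem b5_54 : allR (blockChk (leK 5) Z5) 27000 500 = true := by decide +kernel
theorem b5_55 : allR (blockChk (leK 5) Z5) 27500 500 = true := by decide +kernel
theorem b5_56 : allR (blockChk (leK 5) Z5) 28000 500 = true := by decide +kernel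
theorem b5_57 : allR (blockChk (leK 5) Z5) 28500 500 = true := by decide +kernel
theorem b5_58 : allR (blockChk (leK 5) Z5) 29000 500 = true := by decide +kernel
theorem b5_59 : allR (blockChk (leK 5) Z5) 29500 500 = true := by decide +kernel
theorem b5_60 : allR (blockChk (leK 5) Z5) 30000 500 = true := by decide +kernel
theorem b5_61 : allR (blockChk (leK 5) Z5) 30500 500 = true := by decide +kernel
theorem b5_62 : allR (blockChk (leK 5) Z5) 31000 500 = true := by decide +kernel
theorem b5_63 : allR (blockChk (leK 5) Z5) 31500 500 = true := by decide +kernel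
theorem b5_64 : allR (blockChk (leK 5) Z5) 32000 500 = true := by decide +kernel
theorem b5_65 : allR (blockChk (leK 5) Z5) 32500 500 = true := by decide +kernel
theorem b5_66 : allR (blockChk (leK 5) Z5) 33000 500 = true := by decide +kernel
theorem b5_67 : allR (blockChk (leK 5) Z5) 33500 500 = true := by decide +kernel
theorem b5_68 : allR (blockChk (leK 5) Z5) 34000 500 = true := by decide +kernel
theorem b5_69 : allR (blockChk (leK 5) Z5) 34500 500 = true := by decide +kernel
theorem b5_70 : allR (blockChk (leK 5) Z5) 35000 500 = true := by decide +kernel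
theorem b5_71 : allR (blockChk (leK 5) Z5) 35500 500 = true := by decide +kernel
theorem b5_72 : allR (blockChk (leK 5) Z5) 36000 500 = true := by decide +kernel
theorem b5_73 : allR (blockChk (leK 5) Z5) 36500 500 = true := by decide +kernel
theorem b5_74 : allR (blockChk (leK 5) Z5) 37000 500 = true := by decide +kernel
theorem b5_75 : allR (blockChk (leK 5) Z5) 37500 500 = true := by decide +kernel
theorem b5_76 : allR (blockChk (leK 5) Z5) 38000 500 = true := by decide +kernel
theorem b5_77 : allR (blockChk (leK 5) Z5) 38500 500 = true := by decide +kernel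
theorem b5_78 : allR (blockChk (leK 5) Z5) 39000 500 = true := by decide +kernel
theorem b5_79 : allR (blockChk (leK 5) Z5) 39500 500 = true := by decide +kernel
theorem b5_80 : allR (blockChk (leK 5) Z5) 40000 500 = true := by decide +kernel
theorem b5_81 : allR (blockChk (leK 5) Z5) 40500 500 = true := by decide +kernel
theorem b5_82 : allR (blockChk (leK 5) Z5) 41000 500 = true := by decide +kernel
theorem b5_83 : allR (blockChk (leK 5) Z5) 41500 500 = true := by decide +kernel
theorem b5_84 : allR (blockChk (leK 5) Z5) 42000 500 = true := by decide +kernel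
theorem b5_85 : allR (blockChk (leK 5) Z5) 42500 500 = true := by decide +kernel
theorem b5_86 : allR (blockChk (leK 5) Z5) 43000 500 = true := by decide +kernel
theorem b5_87 : allR (blockChk (leK 5) Z5) 43500 180 = true := by decide +kernel

end Vale.Agent.P183L.Tab
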