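import Vale.Agent.P183L.Tab

/-! c2_0 -/

namespace Vale.Agent.P183L.Tab

theorem c2_0_0 : allR (compatChk t0 l2) 0 100 = true := by decide +kernel
theorem c2_0_1 : allR (compatChk t0 l2) 100 100 = true := by decide +kernel
theorem c2_0_2 : allR (compatChk t0 l2) 200 100 = true := by decide +kernel
theorem c2_0_3 : allR (compatChk t0 l2) 300 100 = true := by decide +kernel
theorem c2_0_4 : allR (compatChk t0 l2) 400 100 = true := by decide +kernel
theorem c2_0_5 : allR (compatChk t0 l2) 500 100 = true := by decide +kernel
theorem c2_0_6 : allR (compatChk t0 l2) 600 100 = true := by decide +kernel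
theorem c2_0_7 : allR (compatChk t0 l2) 700 100 = true := by decide +kernel
theorem c2_0_8 : allR (compatChk t0 l2) 800 100 = true := by decide +kernel
theorem c2_0_9 : allR (compatChk t0 l2) 900 100 = true := by decide +kernel
theorem c2_0_10 : allR (compatChk t0 l2) 1000 100 = true := by decide +kernel
theorem c2_0_11 : allR (compatChk t0 l2) 1100 100 = true := by decide +kernel
theorem c2_0_12 : allR (compatChk t0 l2) 1200 100 = true := by decide +kernel
theorem c2_0_13 : allR (compatChk t0 l2) 1300 100 = true := by decide +kernel
theorem c2_0_14 : allR (compatChk t0 l2) 1400 100 = true := by decide +kernel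
theorem c2_0_15 : allR (compatChk t0 l2) 1500 100 = true := by decide +kernel
theorem c2_0_16 : allR (compatChk t0 l2) 1600 100 = true := by decide +kernel
theorem c2_0_17 : allR (compatChk t0 l2) 1700 100 = true := by decide +kernel
theorem c2_0_18 : allR (compatChk t0 l2) 1800 100 = true := by decide +kernel
theorem c2_0_19 : allR (compatChk t0 l2) 1900 100 = true := by decide +kernel
theorem c2_0_20 : allR (compatChk t0 l2) 2000 100 = true := by decide +kernel
theorem c2_0_21 : allR (compatChk t0 l2) 2100 100 = true := by decide +kernel
theorem c2_0_22 : allR (compatChk t0 l2) 2200 100 = true := by decide +kernel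
theorem c2_0_23 : allR (compatChk t0 l2) 2300 100 = true := by decide +kernel
theorem c2_0_24 : allR (compatChk t0 l2) 2400 100 = true := by decide +kernel
theorem c2_0_25 : allR (compatChk t0 l2) 2500 100 = true := by decide +kernel
theorem c2_0_26 : allR (compatChk t0 l2) 2600 100 = true := by decide +kernel
theorem c2_0_27 : allR (compatChk t0 l2) 2700 100 = true := by decide +kernel
theorem c2_0_28 : allR (compatChk t0 l2) 2800 100 = true := by decide +kernel
theorem c2_0_29 : allR (compatChk t0 l2) 2900 100 = true := by decide +kernel
theorem c2_0_30 : allR (compatChk t0 l2) 3000 100 = true := by decide +kernel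
theorem c2_0_31 : allR (compatChk t0 l2) 3100 100 = true := by decide +kernel
theorem c2_0_32 : allR (compatChk t0 l2) 3200 100 = true := by decide +kernel
theorem c2_0_33 : allR (compatChk t0 l2) 3300 100 = true := by decide +kernel
theorem c2_0_34 : allR (compatChk t0 l2) 3400 100 = true := by decide +kernel
theorem c2_0_35 : allR (compatChk t0 l2) 3500 100 = true := by decide +kernel
theorem c2_0_36 : allR (compatChk t0 l2) 3600 100 = true := by decide +kernel
theorem c2_0_37 : allR (compatChk t0 l2) 3700 100 = true := by decide +kernel
theorem c2_0_38 : allR (compatChk t0 l2) 3800 100 = true := by decide +kernel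
theorem c2_0_39 : allR (compatChk t0 l2) 3900 100 = true := by decide +kernel
theorem c2_0_40 : allR (compatChk t0 l2) 4000 100 = true := by decide +kernel
theorem c2_0_41 : allR (compatChk t0 l2) 4100 100 = true := by decide +kernel
theorem c2_0_42 : allR (compatChk t0 l2) 4200 100 = true := by decide +kernel
theorem c2_0_43 : allR (compatChk t0 l2) 4300 100 = true := by decide +kernel
theorem c2_0_44 : allR (compatChk t0 l2) 4400 100 = true := by decide +kernel
theorem c2_0_45 : allR (compatChk t0 l2) 4500 100 = true := by decide +kernel
theorem c2_0_46 : allR (compatChk t0 l2) 4600 100 = true := by decide +kernel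
theorem c2_0_47 : allR (compatChk t0 l2) 4700 100 = true := by decide +kernel
theorem c2_0_48 : allR (compatChk t0 l2) 4800 100 = true := by decide +kernel
theorem c2_0_49 : allR (compatChk t0 l2) 4900 100 = true := by decide +kernel
theorem c2_0_50 : allR (compatChk t0 l2) 5000 100 = true := by decide +kernel
theorem c2_0_51 : allR (compatChk t0 l2) 5100 100 = true := by decide +kernel
theorem c2_0_52 : allR (compatChk t0 l2) 5200 100 = true := by decide +kernel
theorem c2_0_53 : allR (compatChk t0 l2) 5300 100 = true := by decide +kernel
theorem c2_0_54 : allR (compatChk t0 l2) 5400 100 = true := by decide +kernel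
theorem c2_0_55 : allR (compatChk t0 l2) 5500 100 = true := by decide +kernel
theorem c2_0_56 : allR (compatChk t0 l2) 5600 100 = true := by decide +kernel
theorem c2_0_57 : allR (compatChk t0 l2) 5700 100 = true := by decide +kernel
theorem c2_0_58 : allR (compatChk t0 l2) 5800 100 = true := by decide +kernel
theorem c2_0_59 : allR (compatChk t0 l2) 5900 100 = true := by decide +kernel
theorem c2_0_60 : allR (compatChk t0 l2) 6000 100 = true := by decide +kernel
theorem c2_0_61 : allR (compatChk t0 l2) 6100 100 = true := by decide +kernel
theorem c2_0_62 : allR (compatChk t0 l2) 6200 100 = true := by decide +kernel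
theorem c2_0_63 : allR (compatChk t0 l2) 6300 100 = true := by decide +kernel
theorem c2_0_64 : allR (compatChk t0 l2) 6400 100 = true := by decide +kernel
theorem c2_0_65 : allR (compatChk t0 l2) 6500 100 = true := by decide +kernel
theorem c2_0_66 : allR (compatChk t0 l2) 6600 100 = true := by decide +kernel
theorem c2_0_67 : allR (compatChk t0 l2) 6700 100 = true := by decide +kernel
theorem c2_0_68 : allR (compatChk t0 l2) 6800 100 = true := by decide +kernel
theorem c2_0_69 : allR (compatChk t0 l2) 6900 100 = true := by decide +kernel
theorem c2_0_70 : allR (compatChk t0 l2) 7000 100 = true := by decide +kernel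
theorem c2_0_71 : allR (compatChk t0 l2) 7100 100 = true := by decide +kernel
theorem c2_0_72 : allR (compatChk t0 l2) 7200 100 = true := by decide +kernel
theorem c2_0_73 : allR (compatChk t0 l2) 7300 100 = true := by decide +kernel
theorem c2_0_74 : allR (compatChk t0 l2) 7400 100 = true := by decide +kernel
theorem c2_0_75 : allR (compatChk t0 l2) 7500 100 = true := by decide +kernel
theorem c2_0_76 : allR (compatChk t0 l2) 7600 100 = true := by decide +kernel
theorem c2_0_77 : allR (compatChk t0 l2) 7700 100 = true := by decide +kernel
theorem c2_0_78 : allR (compatChk t0 l2) 7800 100 = true := by decide +kernel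
theorem c2_0_79 : allR (compatChk t0 l2) 7900 100 = true := by decide +kernel
theorem c2_0_80 : allR (compatChk t0 l2) 8000 100 = true := by decide +kernel
theorem c2_0_81 : allR (compatChk t0 l2) 8100 100 = true := by decide +kernel
theorem c2_0_82 : allR (compatChk t0 l2) 8200 100 = true := by decide +kernel
theorem c2_0_83 : allR (compatChk t0 l2) 8300 100 = true := by decide +kernel
theorem c2_0_84 : allR (compatChk t0 l2) 8400 100 = true := by decide +kernel
theorem c2_0_85 : allR (compatChk t0 l2) 8500 100 = true := by decide +kernel
theorem c2_0_86 : allR (compatChk t0 l2) 8600 100 = true := by decide +kernel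
theorem c2_0_87 : allR (compatChk t0 l2) 8700 100 = true := by decide +kernel
theorem c2_0_88 : allR (compatChk t0 l2) 8800 100 = true := by decide +kernel
theorem c2_0_89 : allR (compatChk t0 l2) 8900 100 = true := by decide +kernel
theorem c2_0_90 : allR (compatChk t0 l2) 9000 100 = true := by decide +kernel
theorem c2_0_91 : allR (compatChk t0 l2) 9100 100 = true := by decide +kernel
theorem c2_0_92 : allR (compatChk t0 l2) 9200 100 = true := by decide +kernel
theorem c2_0_93 : allR (compatChk t0 l2) 9300 100 = true := by decide +kernel
theorem c2_0_94 : allR (compatChk t0 l2) 9400 100 = true := by decide +kernel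
theorem c2_0_95 : allR (compatChk t0 l2) 9500 100 = true := by decide +kernel
theorem c2_0_96 : allR (compatChk t0 l2) 9600 100 = true := by decide +kernel
theorem c2_0_97 : allR (compatChk t0 l2) 9700 100 = true := by decide +kernel
theorem c2_0_98 : allR (compatChk t0 l2) 9800 100 = true := by decide +kernel
theorem c2_0_99 : allR (compatChk t0 l2) 9900 100 = true := by decide +kernel
theorem c2_0_100 : allR (compatChk t0 l2) 10000 100 = true := by decide +kernel
theorem c2_0_101 : allR (compatChk t0 l2) 10100 100 = true := by decide +kernel
theorem c2_0_102 : allR (compatChk t0 l2) 10200 100 = true := by decide +kernel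
theorem c2_0_103 : allR (compatChk t0 l2) 10300 100 = true := by decide +kernel
theorem c2_0_104 : allR (compatChk t0 l2) 10400 100 = true := by decide +kernel
theorem c2_0_105 : allR (compatChk t0 l2) 10500 100 = true := by decide +kernel
theorem c2_0_106 : allR (compatChk t0 l2) 10600 100 = true := by decide +kernel
theorem c2_0_107 : allR (compatChk t0 l2) 10700 100 = true := by decide +kernel
theorem c2_0_108 : allR (compatChk t0 l2) 10800 100 = true := by decide +kernel
theorem c2_0_109 : allR (compatChk t0 l2) 10900 100 = true := by decide +kernel
theorem c2_0_110 : allR (compatChk t0 l2) 11000 100 = true := by decide +kernel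
theorem c2_0_111 : allR (compatChk t0 l2) 11100 100 = true := by decide +kernel
theorem c2_0_112 : allR (compatChk t0 l2) 11200 100 = true := by decide +kernel
theorem c2_0_113 : allR (compatChk t0 l2) 11300 100 = true := by decide +kernel
theorem c2_0_114 : allR (compatChk t0 l2) 11400 100 = true := by decide +kernel
theorem c2_0_115 : allR (compatChk t0 l2) 11500 100 = true := by decide +kernel
theorem c2_0_116 : allR (compatChk t0 l2) 11600 100 = true := by decide +kernel
theorem c2_0_117 : allR (compatChk t0 l2) 11700 100 = true := by decide +kernel
theorem c2_0_118 : allR (compatChk t0 l2) 11800 100 = true := by decide +kernel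
theorem c2_0_119 : allR (compatChk t0 l2) 11900 100 = true := by decide +kernel
theorem c2_0_120 : allR (compatChk t0 l2) 12000 100 = true := by decide +kernel
theorem c2_0_121 : allR (compatChk t0 l2) 12100 100 = true := by decide +kernel
theorem c2_0_122 : allR (compatChk t0 l2) 12200 100 = true := by decide +kernel
theorem c2_0_123 : allR (compatChk t0 l2) 12300 100 = true := by decide +kernel
theorem c2_0_124 : allR (compatChk t0 l2) 12400 100 = true := by decide +kernel
theorem c2_0_125 : allR (compatChk t0 l2) 12500 100 = true := by decide +kernel
theorem c2_0_126 : allR (compatChk t0 l2) 12600 100 = true := by decide +kernel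
theorem c2_0_127 : allR (compatChk t0 l2) 12700 100 = true := by decide +kernel
theorem c2_0_128 : allR (compatChk t0 l2) 12800 100 = true := by decide +kernel
theorem c2_0_129 : allR (compatChk t0 l2) 12900 100 = true := by decide +kernel
theorem c2_0_130 : allR (compatChk t0 l2) 13000 100 = true := by decide +kernel
theorem c2_0_131 : allR (compatChk t0 l2) 13100 100 = true := by decide +kernel
theorem c2_0_132 : allR (compatChk t0 l2) 13200 100 = true := by decide +kernel
theorem c2_0_133 : allR (compatChk t0 l2) 13300 100 = true := by decide +kernel
theorem c2_0_134 : allR (compatChk t0 l2) 13400 100 = true := by decide +kernel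
theorem c2_0_135 : allR (compatChk t0 l2) 13500 100 = true := by decide +kernel
theorem c2_0_136 : allR (compatChk t0 l2) 13600 100 = true := by decide +kernel
theorem c2_0_137 : allR (compatChk t0 l2) 13700 100 = true := by decide +kernel
theorem c2_0_138 : allR (compatChk t0 l2) 13800 100 = true := by decide +kernel
theorem c2_0_139 : allR (compatChk t0 l2) 13900 100 = true := by decide +kernel
theorem c2_0_140 : allR (compatChk t0 l2) 14000 100 = true := by decide +kernel
theorem c2_0_141 : allR (compatChk t0 l2) 14100 100 = true := by decide +kernel
theorem c2_0_142 : allR (compatChk t0 l2) 14200 100 = true := by decide +kernel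
theorem c2_0_143 : allR (compatChk t0 l2) 14300 100 = true := by decide +kernel
theorem c2_0_144 : allR (compatChk t0 l2) 14400 100 = true := by decide +kernel
theorem c2_0_145 : allR (compatChk t0 l2) 14500 100 = true := by decide +kernel
theorem c2_0_146 : allR (compatChk t0 l2) 14600 100 = true := by decide +kernel
theorem c2_0_147 : allR (compatChk t0 l2) 14700 100 = true := by decide +kernel
theorem c2_0_148 : allR (compatChk t0 l2) 14800 100 = true := by decide +kernel
theorem c2_0_149 : allR (compatChk t0 l2) 14900 100 = true := by decide +kernel
theorem c2_0_150 : allR (compatChk t0 l2) 15000 100 = true := by decide +kernel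
theorem c2_0_151 : allR (compatChk t0 l2) 15100 100 = true := by decide +kernel
theorem c2_0_152 : allR (compatChk t0 l2) 15200 100 = true := by decide +kernel
theorem c2_0_153 : allR (compatChk t0 l2) 15300 100 = true := by decide +kernel
theorem c2_0_154 : allR (compatChk t0 l2) 15400 100 = true := by decide +kernel
theorem c2_0_155 : allR (compatChk t0 l2) 15500 100 = true := by decide +kernel
theorem c2_0_156 : allR (compatChk t0 l2) 15600 100 = true := by decide +kernel
theorem c2_0_157 : allR (compatChk t0 l2) 15700 100 = true := by decide +kernel
theorem c2_0_158 : allR (compatChk t0 l2) 15800 100 = true := by decide +kernel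
theorem c2_0_159 : allR (compatChk t0 l2) 15900 100 = true := by decide +kernel
theorem c2_0_160 : allR (compatChk t0 l2) 16000 100 = true := by decide +kernel
theorem c2_0_161 : allR (compatChk t0 l2) 16100 100 = true := by decide +kernel
theorem c2_0_162 : allR (compatChk t0 l2) 16200 100 = true := by decide +kernel
theorem c2_0_163 : allR (compatChk t0 l2) 16300 100 = true := by decide +kernel
theorem c2_0_164 : allR (compatChk t0 l2) 16400 100 = true := by decide +kernel
theorem c2_0_165 : allR (compatChk t0 l2) 16500 100 = true := by decide +kernel
theorem c2_0_166 : allR (compatChk t0 l2) 16600 100 = true := by decide +kernel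
theorem c2_0_167 : allR (compatChk t0 l2) 16700 100 = true := by decide +kernel
theorem c2_0_168 : allR (compatChk t0 l2) 16800 100 = true := by decide +kernel
theorem c2_0_169 : allR (compatChk t0 l2) 16900 100 = true := by decide +kernel
theorem c2_0_170 : allR (compatChk t0 l2) 17000 100 = true := by decide +kernel
theorem c2_0_171 : allR (compatChk t0 l2) 17100 100 = true := by decide +kernel
theorem c2_0_172 : allR (compatChk t0 l2) 17200 100 = true := by decide +kernel
theorem c2_0_173 : allR (compatChk t0 l2) 17300 100 = true := by decide +kernel
theorem c2_0_174 : allR (compatChk t0 l2) 17400 100 = true := by decide +kernel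
theorem c2_0_175 : allR (compatChk t0 l2) 17500 100 = true := by decide +kernel
theorem c2_0_176 : allR (compatChk t0 l2) 17600 100 = true := by decide +kernel
theorem c2_0_177 : allR (compatChk t0 l2) 17700 100 = true := by decide +kernel
theorem c2_0_178 : allR (compatChk t0 l2) 17800 100 = true := by decide +kernel
theorem c2_0_179 : allR (compatChk t0 l2) 17900 100 = true := by decide +kernel
theorem c2_0_180 : allR (compatChk t0 l2) 18000 100 = true := by decide +kernel
theorem c2_0_181 : allR (compatChk t0 l2) 18100 100 = true := by decide +kernel
theorem c2_0_182 : allR (compatChk t0 l2) 18200 100 = true := by decide +kernel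
theorem c2_0_183 : allR (compatChk t0 l2) 18300 100 = true := by decide +kernel
theorem c2_0_184 : allR (compatChk t0 l2) 18400 100 = true := by decide +kernel
theorem c2_0_185 : allR (compatChk t0 l2) 18500 100 = true := by decide +kernel
theorem c2_0_186 : allR (compatChk t0 l2) 18600 100 = true := by decide +kernel
theorem c2_0_187 : allR (compatChk t0 l2) 18700 100 = true := by decide +kernel
theorem c2_0_188 : allR (compatChk t0 l2) 18800 100 = true := by decide +kernel
theorem c2_0_189 : allR (compatChk t0 l2) 18900 100 = true := by decide +kernel
theorem c2_0_190 : allR (compatChk t0 l2) 19000 100 = true := by decide +kernel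
theorem c2_0_191 : allR (compatChk t0 l2) 19100 100 = true := by decide +kernel
theorem c2_0_192 : allR (compatChk t0 l2) 19200 100 = true := by decide +kernel
theorem c2_0_193 : allR (compatChk t0 l2) 19300 100 = true := by decide +kernel
theorem c2_0_194 : allR (compatChk t0 l2) 19400 100 = true := by decide +kernel
theorem c2_0_195 : allR (compatChk t0 l2) 19500 100 = true := by decide +kernel
theorem c2_0_196 : allR (compatChk t0 l2) 19600 100 = true := by decide +kernel
theorem c2_0_197 : allR (compatChk t0 l2) 19700 100 = true := by decide +kernel
theorem c2_0_198 : allR (compatChk t0 l2) 19800 100 = true := by decide +kernel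
theorem c2_0_199 : allR (compatChk t0 l2) 19900 100 = true := by decide +kernel
theorem c2_0_200 : allR (compatChk t0 l2) 20000 100 = true := by decide +kernel
theorem c2_0_201 : allR (compatChk t0 l2) 20100 100 = true := by decide +kernel
theorem c2_0_202 : allR (compatChk t0 l2) 20200 100 = true := by decide +kernel
theorem c2_0_203 : allR (compatChk t0 l2) 20300 100 = true := by decide +kernel
theorem c2_0_204 : allR (compatChk t0 l2) 20400 100 = true := by decide +kernel
theorem c2_0_205 : allR (compatChk t0 l2) 20500 100 = true := by decide +kernel
theorem c2_0_206 : allR (compatChk t0 l2) 20600 100 = true := by decide +kernel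
theorem c2_0_207 : allR (compatChk t0 l2) 20700 100 = true := by decide +kernel
theorem c2_0_208 : allR (compatChk t0 l2) 20800 100 = true := by decide +kernel
theorem c2_0_209 : allR (compatChk t0 l2) 20900 100 = true := by decide +kernel
theorem c2_0_210 : allR (compatChk t0 l2) 21000 100 = true := by decide +kernel
theorem c2_0_211 : allR (compatChk t0 l2) 21100 100 = true := by decide +kernel
theorem c2_0_212 : allR (compatChk t0 l2) 21200 100 = true := by decide +kernel
theorem c2_0_213 : allR (compatChk t0 l2) 21300 100 = true := by decide +kernel
theorem c2_0_214 : allR (compatChk t0 l2) 21400 100 = true := by decide +kernel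
theorem c2_0_215 : allR (compatChk t0 l2) 21500 100 = true := by decide +kernel
theorem c2_0_216 : allR (compatChk t0 l2) 21600 100 = true := by decide +kernel
theorem c2_0_217 : allR (compatChk t0 l2) 21700 100 = true := by decide +kernel
theorem c2_0_218 : allR (compatChk t0 l2) 21800 100 = true := by decide +kernel

end Vale.Agent.P183L.Tab
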