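import Vale.Agent.P183L.Tab

/-! c5_1 -/

namespace Vale.Agent.P183L.Tab

theorem c5_1_0 : allR (compatChk t1 l5) 0 100 = true := by decide +kernel
theorem c5_1_1 : allR (compatChk t1 l5) 100 100 = true := by decide +kernel
theorem c5_1_2 : allR (compatChk t1 l5) 200 100 = true := by decide +kernel
theorem c5_1_3 : allR (compatChk t1 l5) 300 100 = true := by decide +kernel
theorem c5_1_4 : allR (compatChk t1 l5) 400 100 = true := by decide +kernel
theorem c5_1_5 : allR (compatChk t1 l5) 500 100 = true := by decide +kernel
theorem c5_1_6 : allR (compatChk t1 l5) 600 100 = true := by decide +kernel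
theorem c5_1_7 : allR (compatChk t1 l5) 700 100 = true := by decide +kernel
theorem c5_1_8 : allR (compatChk t1 l5) 800 100 = true := by decide +kernel
theorem c5_1_9 : allR (compatChk t1 l5) 900 100 = true := by decide +kernel
theorem c5_1_10 : allR (compatChk t1 l5) 1000 100 = true := by decide +kernel
theorem c5_1_11 : allR (compatChk t1 l5) 1100 100 = true := by decide +kernel
theorem c5_1_12 : allR (compatChk t1 l5) 1200 100 = true := by decide +kernel
theorem c5_1_13 : allR (compatChk t1 l5) 1300 100 = true := by decide +kernel
theorem c5_1_14 : allR (compatChk t1 l5) 1400 100 = true := by decide +kernel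
theorem c5_1_15 : allR (compatChk t1 l5) 1500 100 = true := by decide +kernel
theorem c5_1_16 : allR (compatChk t1 l5) 1600 100 = true := by decide +kernel
theorem c5_1_17 : allR (compatChk t1 l5) 1700 100 = true := by decide +kernel
theorem c5_1_18 : allR (compatChk t1 l5) 1800 100 = true := by decide +kernel
theorem c5_1_19 : allR (compatChk t1 l5) 1900 100 = true := by decide +kernel
theorem c5_1_20 : allR (compatChk t1 l5) 2000 100 = true := by decide +kernel
theorem c5_1_21 : allR (compatChk t1 l5) 2100 100 = true := by decide +kernel
theorem c5_1_22 : allR (compatChk t1 l5) 2200 100 = true := by decide +kernel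
theorem c5_1_23 : allR (compatChk t1 l5) 2300 100 = true := by decide +kernel
theorem c5_1_24 : allR (compatChk t1 l5) 2400 100 = true := by decide +kernel
theorem c5_1_25 : allR (compatChk t1 l5) 2500 100 = true := by decide +kernel
theorem c5_1_26 : allR (compatChk t1 l5) 2600 100 = true := by decide +kernel
theorem c5_1_27 : allR (compatChk t1 l5) 2700 100 = true := by decide +kernel
theorem c5_1_28 : allR (compatChk t1 l5) 2800 100 = true := by decide +kernel
theorem c5_1_29 : allR (compatChk t1 l5) 2900 100 = true := by decide +kernel
theorem c5_1_30 : allR (compatChk t1 l5) 3000 100 = true := by decide +kernel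
theorem c5_1_31 : allR (compatChk t1 l5) 3100 100 = true := by decide +kernel
theorem c5_1_32 : allR (compatChk t1 l5) 3200 100 = true := by decide +kernel
theorem c5_1_33 : allR (compatChk t1 l5) 3300 100 = true := by decide +kernel
theorem c5_1_34 : allR (compatChk t1 l5) 3400 100 = true := by decide +kernel
theorem c5_1_35 : allR (compatChk t1 l5) 3500 100 = true := by decide +kernel
theorem c5_1_36 : allR (compatChk t1 l5) 3600 100 = true := by decide +kernel
theorem c5_1_37 : allR (compatChk t1 l5) 3700 100 = true := by decide +kernel
theorem c5_1_38 : allR (compatChk t1 l5) 3800 100 = true := by decide +kernel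
theorem c5_1_39 : allR (compatChk t1 l5) 3900 100 = true := by decide +kernel
theorem c5_1_40 : allR (compatChk t1 l5) 4000 100 = true := by decide +kernel
theorem c5_1_41 : allR (compatChk t1 l5) 4100 100 = true := by decide +kernel
theorem c5_1_42 : allR (compatChk t1 l5) 4200 100 = true := by decide +kernel
theorem c5_1_43 : allR (compatChk t1 l5) 4300 100 = true := by decide +kernel
theorem c5_1_44 : allR (compatChk t1 l5) 4400 100 = true := by decide +kernel
theorem c5_1_45 : allR (compatChk t1 l5) 4500 100 = true := by decide +kernel
theorem c5_1_46 : allR (compatChk t1 l5) 4600 100 = true := by decide +kernel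
theorem c5_1_47 : allR (compatChk t1 l5) 4700 100 = true := by decide +kernel
theorem c5_1_48 : allR (compatChk t1 l5) 4800 100 = true := by decide +kernel
theorem c5_1_49 : allR (compatChk t1 l5) 4900 100 = true := by decide +kernel
theorem c5_1_50 : allR (compatChk t1 l5) 5000 100 = true := by decide +kernel
theorem c5_1_51 : allR (compatChk t1 l5) 5100 100 = true := by decide +kernel
theorem c5_1_52 : allR (compatChk t1 l5) 5200 100 = true := by decide +kernel
theorem c5_1_53 : allR (compatChk t1 l5) 5300 100 = true := by decide +kernel
theorem c5_1_54 : allR (compatChk t1 l5) 5400 100 = true := by decide +kernel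
theorem c5_1_55 : allR (compatChk t1 l5) 5500 100 = true := by decide +kernel
theorem c5_1_56 : allR (compatChk t1 l5) 5600 100 = true := by decide +kernel
theorem c5_1_57 : allR (compatChk t1 l5) 5700 100 = true := by decide +kernel
theorem c5_1_58 : allR (compatChk t1 l5) 5800 100 = true := by decide +kernel
theorem c5_1_59 : allR (compatChk t1 l5) 5900 100 = true := by decide +kernel
theorem c5_1_60 : allR (compatChk t1 l5) 6000 100 = true := by decide +kernel
theorem c5_1_61 : allR (compatChk t1 l5) 6100 100 = true := by decide +kernel
theorem c5_1_62 : allR (compatChk t1 l5) 6200 100 = true := by decide +kernel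
theorem c5_1_63 : allR (compatChk t1 l5) 6300 100 = true := by decide +kernel
theorem c5_1_64 : allR (compatChk t1 l5) 6400 100 = true := by decide +kernel
theorem c5_1_65 : allR (compatChk t1 l5) 6500 100 = true := by decide +kernel
theorem c5_1_66 : allR (compatChk t1 l5) 6600 100 = true := by decide +kernel
theorem c5_1_67 : allR (compatChk t1 l5) 6700 100 = true := by decide +kernel
theorem c5_1_68 : allR (compatChk t1 l5) 6800 100 = true := by decide +kernel
theorem c5_1_69 : allR (compatChk t1 l5) 6900 100 = true := by decide +kernel
theorem c5_1_70 : allR (compatChk t1 l5) 7000 100 = true := by decide +kernel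
theorem c5_1_71 : allR (compatChk t1 l5) 7100 100 = true := by decide +kernel
theorem c5_1_72 : allR (compatChk t1 l5) 7200 100 = true := by decide +kernel
theorem c5_1_73 : allR (compatChk t1 l5) 7300 100 = true := by decide +kernel
theorem c5_1_74 : allR (compatChk t1 l5) 7400 100 = true := by decide +kernel
theorem c5_1_75 : allR (compatChk t1 l5) 7500 100 = true := by decide +kernel
theorem c5_1_76 : allR (compatChk t1 l5) 7600 100 = true := by decide +kernel
theorem c5_1_77 : allR (compatChk t1 l5) 7700 100 = true := by decide +kernel
theorem c5_1_78 : allR (compatChk t1 l5) 7800 100 = true := by decide +kernel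
theorem c5_1_79 : allR (compatChk t1 l5) 7900 100 = true := by decide +kernel
theorem c5_1_80 : allR (compatChk t1 l5) 8000 100 = true := by decide +kernel
theorem c5_1_81 : allR (compatChk t1 l5) 8100 100 = true := by decide +kernel
theorem c5_1_82 : allR (compatChk t1 l5) 8200 100 = true := by decide +kernel
theorem c5_1_83 : allR (compatChk t1 l5) 8300 100 = true := by decide +kernel
theorem c5_1_84 : allR (compatChk t1 l5) 8400 100 = true := by decide +kernel
theorem c5_1_85 : allR (compatChk t1 l5) 8500 100 = true := by decide +kernel
theorem c5_1_86 : allR (compatChk t1 l5) 8600 100 = true := by decide +kernel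
theorem c5_1_87 : allR (compatChk t1 l5) 8700 100 = true := by decide +kernel
theorem c5_1_88 : allR (compatChk t1 l5) 8800 100 = true := by decide +kernel
theorem c5_1_89 : allR (compatChk t1 l5) 8900 100 = true := by decide +kernel
theorem c5_1_90 : allR (compatChk t1 l5) 9000 100 = true := by decide +kernel
theorem c5_1_91 : allR (compatChk t1 l5) 9100 100 = true := by decide +kernel
theorem c5_1_92 : allR (compatChk t1 l5) 9200 100 = true := by decide +kernel
theorem c5_1_93 : allR (compatChk t1 l5) 9300 100 = true := by decide +kernel
theorem c5_1_94 : allR (compatChk t1 l5) 9400 100 = true := by decide +kernel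
theorem c5_1_95 : allR (compatChk t1 l5) 9500 100 = true := by decide +kernel
theorem c5_1_96 : allR (compatChk t1 l5) 9600 100 = true := by decide +kernel
theorem c5_1_97 : allR (compatChk t1 l5) 9700 100 = true := by decide +kernel
theorem c5_1_98 : allR (compatChk t1 l5) 9800 100 = true := by decide +kernel
theorem c5_1_99 : allR (compatChk t1 l5) 9900 100 = true := by decide +kernel
theorem c5_1_100 : allR (compatChk t1 l5) 10000 100 = true := by decide +kernel
theorem c5_1_101 : allR (compatChk t1 l5) 10100 100 = true := by decide +kernel
theorem c5_1_102 : allR (compatChk t1 l5) 10200 100 = true := by decide +kernel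
theorem c5_1_103 : allR (compatChk t1 l5) 10300 100 = true := by decide +kernel
theorem c5_1_104 : allR (compatChk t1 l5) 10400 100 = true := by decide +kernel
theorem c5_1_105 : allR (compatChk t1 l5) 10500 100 = true := by decide +kernel
theorem c5_1_106 : allR (compatChk t1 l5) 10600 100 = true := by decide +kernel
theorem c5_1_107 : allR (compatChk t1 l5) 10700 100 = true := by decide +kernel
theorem c5_1_108 : allR (compatChk t1 l5) 10800 100 = true := by decide +kernel
theorem c5_1_109 : allR (compatChk t1 l5) 10900 100 = true := by decide +kernel
theorem c5_1_110 : allR (compatChk t1 l5) 11000 100 = true := by decide +kernel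
theorem c5_1_111 : allR (compatChk t1 l5) 11100 100 = true := by decide +kernel
theorem c5_1_112 : allR (compatChk t1 l5) 11200 100 = true := by decide +kernel
theorem c5_1_113 : allR (compatChk t1 l5) 11300 100 = true := by decide +kernel
theorem c5_1_114 : allR (compatChk t1 l5) 11400 100 = true := by decide +kernel
theorem c5_1_115 : allR (compatChk t1 l5) 11500 100 = true := by decide +kernel
theorem c5_1_116 : allR (compatChk t1 l5) 11600 100 = true := by decide +kernel
theorem c5_1_117 : allR (compatChk t1 l5) 11700 100 = true := by decide +kernel
theorem c5_1_118 : allR (compatChk t1 l5) 11800 100 = true := by decide +kernel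
theorem c5_1_119 : allR (compatChk t1 l5) 11900 100 = true := by decide +kernel
theorem c5_1_120 : allR (compatChk t1 l5) 12000 100 = true := by decide +kernel
theorem c5_1_121 : allR (compatChk t1 l5) 12100 100 = true := by decide +kernel
theorem c5_1_122 : allR (compatChk t1 l5) 12200 100 = true := by decide +kernel
theorem c5_1_123 : allR (compatChk t1 l5) 12300 100 = true := by decide +kernel
theorem c5_1_124 : allR (compatChk t1 l5) 12400 100 = true := by decide +kernel
theorem c5_1_125 : allR (compatChk t1 l5) 12500 100 = true := by decide +kernel
theorem c5_1_126 : allR (compatChk t1 l5) 12600 100 = true := by decide +kernel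
theorem c5_1_127 : allR (compatChk t1 l5) 12700 100 = true := by decide +kernel
theorem c5_1_128 : allR (compatChk t1 l5) 12800 100 = true := by decide +kernel
theorem c5_1_129 : allR (compatChk t1 l5) 12900 100 = true := by decide +kernel
theorem c5_1_130 : allR (compatChk t1 l5) 13000 100 = true := by decide +kernel
theorem c5_1_131 : allR (compatChk t1 l5) 13100 100 = true := by decide +kernel
theorem c5_1_132 : allR (compatChk t1 l5) 13200 100 = true := by decide +kernel
theorem c5_1_133 : allR (compatChk t1 l5) 13300 100 = true := by decide +kernel
theorem c5_1_134 : allR (compatChk t1 l5) 13400 100 = true := by decide +kernel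
theorem c5_1_135 : allR (compatChk t1 l5) 13500 100 = true := by decide +kernel
theorem c5_1_136 : allR (compatChk t1 l5) 13600 100 = true := by decide +kernel
theorem c5_1_137 : allR (compatChk t1 l5) 13700 100 = true := by decide +kernel
theorem c5_1_138 : allR (compatChk t1 l5) 13800 100 = true := by decide +kernel
theorem c5_1_139 : allR (compatChk t1 l5) 13900 100 = true := by decide +kernel
theorem c5_1_140 : allR (compatChk t1 l5) 14000 100 = true := by decide +kernel
theorem c5_1_141 : allR (compatChk t1 l5) 14100 100 = true := by decide +kernel
theorem c5_1_142 : allR (compatChk t1 l5) 14200 100 = true := by decide +kernel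
theorem c5_1_143 : allR (compatChk t1 l5) 14300 100 = true := by decide +kernel
theorem c5_1_144 : allR (compatChk t1 l5) 14400 100 = true := by decide +kernel
theorem c5_1_145 : allR (compatChk t1 l5) 14500 100 = true := by decide +kernel
theorem c5_1_146 : allR (compatChk t1 l5) 14600 100 = true := by decide +kernel
theorem c5_1_147 : allR (compatChk t1 l5) 14700 100 = true := by decide +kernel
theorem c5_1_148 : allR (compatChk t1 l5) 14800 100 = true := by decide +kernel
theorem c5_1_149 : allR (compatChk t1 l5) 14900 100 = true := by decide +kernel
theorem c5_1_150 : allR (compatChk t1 l5) 15000 100 = true := by decide +kernel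
theorem c5_1_151 : allR (compatChk t1 l5) 15100 100 = true := by decide +kernel
theorem c5_1_152 : allR (compatChk t1 l5) 15200 100 = true := by decide +kernel
theorem c5_1_153 : allR (compatChk t1 l5) 15300 100 = true := by decide +kernel
theorem c5_1_154 : allR (compatChk t1 l5) 15400 100 = true := by decide +kernel
theorem c5_1_155 : allR (compatChk t1 l5) 15500 100 = true := by decide +kernel
theorem c5_1_156 : allR (compatChk t1 l5) 15600 100 = true := by decide +kernel
theorem c5_1_157 : allR (compatChk t1 l5) 15700 100 = true := by decide +kernel
theorem c5_1_158 : allR (compatChk t1 l5) 15800 100 = true := by decide +kernel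
theorem c5_1_159 : allR (compatChk t1 l5) 15900 100 = true := by decide +kernel
theorem c5_1_160 : allR (compatChk t1 l5) 16000 100 = true := by decide +kernel
theorem c5_1_161 : allR (compatChk t1 l5) 16100 100 = true := by decide +kernel
theorem c5_1_162 : allR (compatChk t1 l5) 16200 100 = true := by decide +kernel
theorem c5_1_163 : allR (compatChk t1 l5) 16300 100 = true := by decide +kernel
theorem c5_1_164 : allR (compatChk t1 l5) 16400 100 = true := by decide +kernel
theorem c5_1_165 : allR (compatChk t1 l5) 16500 100 = true := by decide +kernel
theorem c5_1_166 : allR (compatChk t1 l5) 16600 100 = true := by decide +kernel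
theorem c5_1_167 : allR (compatChk t1 l5) 16700 100 = true := by decide +kernel
theorem c5_1_168 : allR (compatChk t1 l5) 16800 100 = true := by decide +kernel
theorem c5_1_169 : allR (compatChk t1 l5) 16900 100 = true := by decide +kernel
theorem c5_1_170 : allR (compatChk t1 l5) 17000 100 = true := by decide +kernel
theorem c5_1_171 : allR (compatChk t1 l5) 17100 100 = true := by decide +kernel
theorem c5_1_172 : allR (compatChk t1 l5) 17200 100 = true := by decide +kernel
theorem c5_1_173 : allR (compatChk t1 l5) 17300 100 = true := by decide +kernel
theorem c5_1_174 : allR (compatChk t1 l5) 17400 100 = true := by decide +kernel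
theorem c5_1_175 : allR (compatChk t1 l5) 17500 100 = true := by decide +kernel
theorem c5_1_176 : allR (compatChk t1 l5) 17600 100 = true := by decide +kernel
theorem c5_1_177 : allR (compatChk t1 l5) 17700 100 = true := by decide +kernel
theorem c5_1_178 : allR (compatChk t1 l5) 17800 100 = true := by decide +kernel
theorem c5_1_179 : allR (compatChk t1 l5) 17900 100 = true := by decide +kernel
theorem c5_1_180 : allR (compatChk t1 l5) 18000 100 = true := by decide +kernel
theorem c5_1_181 : allR (compatChk t1 l5) 18100 100 = true := by decide +kernel
theorem c5_1_182 : allR (compatChk t1 l5) 18200 100 = true := by decide +kernel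
theorem c5_1_183 : allR (compatChk t1 l5) 18300 100 = true := by decide +kernel
theorem c5_1_184 : allR (compatChk t1 l5) 18400 100 = true := by decide +kernel
theorem c5_1_185 : allR (compatChk t1 l5) 18500 100 = true := by decide +kernel
theorem c5_1_186 : allR (compatChk t1 l5) 18600 100 = true := by decide +kernel
theorem c5_1_187 : allR (compatChk t1 l5) 18700 100 = true := by decide +kernel
theorem c5_1_188 : allR (compatChk t1 l5) 18800 100 = true := by decide +kernel
theorem c5_1_189 : allR (compatChk t1 l5) 18900 100 = true := by decide +kernel
theorem c5_1_190 : allR (compatChk t1 l5) 19000 100 = true := by decide +kernel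
theorem c5_1_191 : allR (compatChk t1 l5) 19100 100 = true := by decide +kernel
theorem c5_1_192 : allR (compatChk t1 l5) 19200 100 = true := by decide +kernel
theorem c5_1_193 : allR (compatChk t1 l5) 19300 100 = true := by decide +kernel
theorem c5_1_194 : allR (compatChk t1 l5) 19400 100 = true := by decide +kernel
theorem c5_1_195 : allR (compatChk t1 l5) 19500 100 = true := by decide +kernel
theorem c5_1_196 : allR (compatChk t1 l5) 19600 100 = true := by decide +kernel
theorem c5_1_197 : allR (compatChk t1 l5) 19700 100 = true := by decide +kernel
theorem c5_1_198 : allR (compatChk t1 l5) 19800 100 = true := by decide +kernel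
theorem c5_1_199 : allR (compatChk t1 l5) 19900 100 = true := by decide +kernel
theorem c5_1_200 : allR (compatChk t1 l5) 20000 100 = true := by decide +kernel
theorem c5_1_201 : allR (compatChk t1 l5) 20100 100 = true := by decide +kernel
theorem c5_1_202 : allR (compatChk t1 l5) 20200 100 = true := by decide +kernel
theorem c5_1_203 : allR (compatChk t1 l5) 20300 100 = true := by decide +kernel
theorem c5_1_204 : allR (compatChk t1 l5) 20400 100 = true := by decide +kernel
theorem c5_1_205 : allR (compatChk t1 l5) 20500 100 = true := by decide +kernel
theorem c5_1_206 : allR (compatChk t1 l5) 20600 100 = true := by decide +kernel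
theorem c5_1_207 : allR (compatChk t1 l5) 20700 100 = true := by decide +kernel
theorem c5_1_208 : allR (compatChk t1 l5) 20800 100 = true := by decide +kernel
theorem c5_1_209 : allR (compatChk t1 l5) 20900 100 = true := by decide +kernel
theorem c5_1_210 : allR (compatChk t1 l5) 21000 100 = true := by decide +kernel
theorem c5_1_211 : allR (compatChk t1 l5) 21100 100 = true := by decide +kernel
theorem c5_1_212 : allR (compatChk t1 l5) 21200 100 = true := by decide +kernel
theorem c5_1_213 : allR (compatChk t1 l5) 21300 100 = true := by decide +kernel
theorem c5_1_214 : allR (compatChk t1 l5) 21400 100 = true := by decide +kernel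
theorem c5_1_215 : allR (compatChk t1 l5) 21500 100 = true := by decide +kernel
theorem c5_1_216 : allR (compatChk t1 l5) 21600 100 = true := by decide +kernel
theorem c5_1_217 : allR (compatChk t1 l5) 21700 100 = true := by decide +kernel
theorem c5_1_218 : allR (compatChk t1 l5) 21800 100 = true := by decide +kernel

end Vale.Agent.P183L.Tab
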