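import Vale.Agent.P183L.Tab

/-! c5_1 -/

namespace Vale.Agent.P183L.Tab

theorem c5_1_219 : allR (compatChk t1 l5) 21900 100 = true := by decide +kernel
theorem c5_1_220 : allR (compatChk t1 l5) 22000 100 = true := by decide +kernel
theorem c5_1_221 : allR (compatChk t1 l5) 22100 100 = true := by decide +kernel
theorem c5_1_222 : allR (compatChk t1 l5) 22200 100 = true := by decide +kernel
theorem c5_1_223 : allR (compatChk t1 l5) 22300 100 = true := by decide +kernel
theorem c5_1_224 : allR (compatChk t1 l5) 22400 100 = true := by decide +kernel
theorem c5_1_225 : allR (compatChk t1 l5) 22500 100 = true := by decide +kernel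
theorem c5_1_226 : allR (compatChk t1 l5) 22600 100 = true := by decide +kernel
theorem c5_1_227 : allR (compatChk t1 l5) 22700 100 = true := by decide +kernel
theorem c5_1_228 : allR (compatChk t1 l5) 22800 100 = true := by decide +kernel
theorem c5_1_229 : allR (compatChk t1 l5) 22900 100 = true := by decide +kernel
theorem c5_1_230 : allR (compatChk t1 l5) 23000 100 = true := by decide +kernel
theorem c5_1_231 : allR (compatChk t1 l5) 23100 100 = true := by decide +kernel
theorem c5_1_232 : allR (compatChk t1 l5) 23200 100 = true := by decide +kernel
theorem c5_1_233 : allR (compatChk t1 l5) 23300 100 = true := by decide +kernel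
theorem c5_1_234 : allR (compatChk t1 l5) 23400 100 = true := by decide +kernel
theorem c5_1_235 : allR (compatChk t1 l5) 23500 100 = true := by decide +kernel
theorem c5_1_236 : allR (compatChk t1 l5) 23600 100 = true := by decide +kernel
theorem c5_1_237 : allR (compatChk t1 l5) 23700 100 = true := by decide +kernel
theorem c5_1_238 : allR (compatChk t1 l5) 23800 100 = true := by decide +kernel
theorem c5_1_239 : allR (compatChk t1 l5) 23900 100 = true := by decide +kernel
theorem c5_1_240 : allR (compatChk t1 l5) 24000 100 = true := by decide +kernel
theorem c5_1_241 : allR (compatChk t1 l5) 24100 100 = true := by decide +kernel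
theorem c5_1_242 : allR (compatChk t1 l5) 24200 100 = true := by decide +kernel
theorem c5_1_243 : allR (compatChk t1 l5) 24300 100 = true := by decide +kernel
theorem c5_1_244 : allR (compatChk t1 l5) 24400 100 = true := by decide +kernel
theorem c5_1_245 : allR (compatChk t1 l5) 24500 100 = true := by decide +kernel
theorem c5_1_246 : allR (compatChk t1 l5) 24600 100 = true := by decide +kernel
theorem c5_1_247 : allR (compatChk t1 l5) 24700 100 = true := by decide +kernel
theorem c5_1_248 : allR (compatChk t1 l5) 24800 100 = true := by decide +kernel
theorem c5_1_249 : allR (compatChk t1 l5) 24900 100 = true := by decide +kernel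
theorem c5_1_250 : allR (compatChk t1 l5) 25000 100 = true := by decide +kernel
theorem c5_1_251 : allR (compatChk t1 l5) 25100 100 = true := by decide +kernel
theorem c5_1_252 : allR (compatChk t1 l5) 25200 100 = true := by decide +kernel
theorem c5_1_253 : allR (compatChk t1 l5) 25300 100 = true := by decide +kernel
theorem c5_1_254 : allR (compatChk t1 l5) 25400 100 = true := by decide +kernel
theorem c5_1_255 : allR (compatChk t1 l5) 25500 100 = true := by decide +kernel
theorem c5_1_256 : allR (compatChk t1 l5) 25600 100 = true := by decide +kernel
theorem c5_1_257 : allR (compatChk t1 l5) 25700 100 = true := by decide +kernel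
theorem c5_1_258 : allR (compatChk t1 l5) 25800 100 = true := by decide +kernel
theorem c5_1_259 : allR (compatChk t1 l5) 25900 100 = true := by decide +kernel
theorem c5_1_260 : allR (compatChk t1 l5) 26000 100 = true := by decide +kernel
theorem c5_1_261 : allR (compatChk t1 l5) 26100 100 = true := by decide +kernel
theorem c5_1_262 : allR (compatChk t1 l5) 26200 100 = true := by decide +kernel
theorem c5_1_263 : allR (compatChk t1 l5) 26300 100 = true := by decide +kernel
theorem c5_1_264 : allR (compatChk t1 l5) 26400 100 = true := by decide +kernel
theorem c5_1_265 : allR (compatChk t1 l5) 26500 100 = true := by decide +kernel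
theorem c5_1_266 : allR (compatChk t1 l5) 26600 100 = true := by decide +kernel
theorem c5_1_267 : allR (compatChk t1 l5) 26700 100 = true := by decide +kernel
theorem c5_1_268 : allR (compatChk t1 l5) 26800 100 = true := by decide +kernel
theorem c5_1_269 : allR (compatChk t1 l5) 26900 100 = true := by decide +kernel
theorem c5_1_270 : allR (compatChk t1 l5) 27000 100 = true := by decide +kernel
theorem c5_1_271 : allR (compatChk t1 l5) 27100 100 = true := by decide +kernel
theorem c5_1_272 : allR (compatChk t1 l5) 27200 100 = true := by decide +kernel
theorem c5_1_273 : allR (compatChk t1 l5) 27300 100 = true := by decide +kernel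
theorem c5_1_274 : allR (compatChk t1 l5) 27400 100 = true := by decide +kernel
theorem c5_1_275 : allR (compatChk t1 l5) 27500 100 = true := by decide +kernel
theorem c5_1_276 : allR (compatChk t1 l5) 27600 100 = true := by decide +kernel
theorem c5_1_277 : allR (compatChk t1 l5) 27700 100 = true := by decide +kernel
theorem c5_1_278 : allR (compatChk t1 l5) 27800 100 = true := by decide +kernel
theorem c5_1_279 : allR (compatChk t1 l5) 27900 100 = true := by decide +kernel
theorem c5_1_280 : allR (compatChk t1 l5) 28000 100 = true := by decide +kernel
theorem c5_1_281 : allR (compatChk t1 l5) 28100 100 = true := by decide +kernel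
theorem c5_1_282 : allR (compatChk t1 l5) 28200 100 = true := by decide +kernel
theorem c5_1_283 : allR (compatChk t1 l5) 28300 100 = true := by decide +kernel
theorem c5_1_284 : allR (compatChk t1 l5) 28400 100 = true := by decide +kernel
theorem c5_1_285 : allR (compatChk t1 l5) 28500 100 = true := by decide +kernel
theorem c5_1_286 : allR (compatChk t1 l5) 28600 100 = true := by decide +kernel
theorem c5_1_287 : allR (compatChk t1 l5) 28700 100 = true := by decide +kernel
theorem c5_1_288 : allR (compatChk t1 l5) 28800 100 = true := by decide +kernel
theorem c5_1_289 : allR (compatChk t1 l5) 28900 100 = true := by decide +kernel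
theorem c5_1_290 : allR (compatChk t1 l5) 29000 100 = true := by decide +kernel
theorem c5_1_291 : allR (compatChk t1 l5) 29100 100 = true := by decide +kernel
theorem c5_1_292 : allR (compatChk t1 l5) 29200 100 = true := by decide +kernel
theorem c5_1_293 : allR (compatChk t1 l5) 29300 100 = true := by decide +kernel
theorem c5_1_294 : allR (compatChk t1 l5) 29400 100 = true := by decide +kernel
theorem c5_1_295 : allR (compatChk t1 l5) 29500 100 = true := by decide +kernel
theorem c5_1_296 : allR (compatChk t1 l5) 29600 100 = true := by decide +kernel
theorem c5_1_297 : allR (compatChk t1 l5) 29700 100 = true := by decide +kernel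
theorem c5_1_298 : allR (compatChk t1 l5) 29800 100 = true := by decide +kernel
theorem c5_1_299 : allR (compatChk t1 l5) 29900 100 = true := by decide +kernel
theorem c5_1_300 : allR (compatChk t1 l5) 30000 100 = true := by decide +kernel
theorem c5_1_301 : allR (compatChk t1 l5) 30100 100 = true := by decide +kernel
theorem c5_1_302 : allR (compatChk t1 l5) 30200 100 = true := by decide +kernel
theorem c5_1_303 : allR (compatChk t1 l5) 30300 100 = true := by decide +kernel
theorem c5_1_304 : allR (compatChk t1 l5) 30400 100 = true := by decide +kernel
theorem c5_1_305 : allR (compatChk t1 l5) 30500 100 = true := by decide +kernel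
theorem c5_1_306 : allR (compatChk t1 l5) 30600 100 = true := by decide +kernel
theorem c5_1_307 : allR (compatChk t1 l5) 30700 100 = true := by decide +kernel
theorem c5_1_308 : allR (compatChk t1 l5) 30800 100 = true := by decide +kernel
theorem c5_1_309 : allR (compatChk t1 l5) 30900 100 = true := by decide +kernel
theorem c5_1_310 : allR (compatChk t1 l5) 31000 100 = true := by decide +kernel
theorem c5_1_311 : allR (compatChk t1 l5) 31100 100 = true := by decide +kernel
theorem c5_1_312 : allR (compatChk t1 l5) 31200 100 = true := by decide +kernel
theorem c5_1_313 : allR (compatChk t1 l5) 31300 100 = true := by decide +kernel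
theorem c5_1_314 : allR (compatChk t1 l5) 31400 100 = true := by decide +kernel
theorem c5_1_315 : allR (compatChk t1 l5) 31500 100 = true := by decide +kernel
theorem c5_1_316 : allR (compatChk t1 l5) 31600 100 = true := by decide +kernel
theorem c5_1_317 : allR (compatChk t1 l5) 31700 100 = true := by decide +kernel
theorem c5_1_318 : allR (compatChk t1 l5) 31800 100 = true := by decide +kernel
theorem c5_1_319 : allR (compatChk t1 l5) 31900 100 = true := by decide +kernel
theorem c5_1_320 : allR (compatChk t1 l5) 32000 100 = true := by decide +kernel
theorem c5_1_321 : allR (compatChk t1 l5) 32100 100 = true := by decide +kernel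
theorem c5_1_322 : allR (compatChk t1 l5) 32200 100 = true := by decide +kernel
theorem c5_1_323 : allR (compatChk t1 l5) 32300 100 = true := by decide +kernel
theorem c5_1_324 : allR (compatChk t1 l5) 32400 100 = true := by decide +kernel
theorem c5_1_325 : allR (compatChk t1 l5) 32500 100 = true := by decide +kernel
theorem c5_1_326 : allR (compatChk t1 l5) 32600 100 = true := by decide +kernel
theorem c5_1_327 : allR (compatChk t1 l5) 32700 100 = true := by decide +kernel
theorem c5_1_328 : allR (compatChk t1 l5) 32800 100 = true := by decide +kernel
theorem c5_1_329 : allR (compatChk t1 l5) 32900 100 = true := by decide +kernel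
theorem c5_1_330 : allR (compatChk t1 l5) 33000 100 = true := by decide +kernel
theorem c5_1_331 : allR (compatChk t1 l5) 33100 100 = true := by decide +kernel
theorem c5_1_332 : allR (compatChk t1 l5) 33200 100 = true := by decide +kernel
theorem c5_1_333 : allR (compatChk t1 l5) 33300 100 = true := by decide +kernel
theorem c5_1_334 : allR (compatChk t1 l5) 33400 100 = true := by decide +kernel
theorem c5_1_335 : allR (compatChk t1 l5) 33500 100 = true := by decide +kernel
theorem c5_1_336 : allR (compatChk t1 l5) 33600 100 = true := by decide +kernel
theorem c5_1_337 : allR (compatChk t1 l5) 33700 100 = true := by decide +kernel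
theorem c5_1_338 : allR (compatChk t1 l5) 33800 100 = true := by decide +kernel
theorem c5_1_339 : allR (compatChk t1 l5) 33900 100 = true := by decide +kernel
theorem c5_1_340 : allR (compatChk t1 l5) 34000 100 = true := by decide +kernel
theorem c5_1_341 : allR (compatChk t1 l5) 34100 100 = true := by decide +kernel
theorem c5_1_342 : allR (compatChk t1 l5) 34200 100 = true := by decide +kernel
theorem c5_1_343 : allR (compatChk t1 l5) 34300 100 = true := by decide +kernel
theorem c5_1_344 : allR (compatChk t1 l5) 34400 100 = true := by decide +kernel
theorem c5_1_345 : allR (compatChk t1 l5) 34500 100 = true := by decide +kernel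
theorem c5_1_346 : allR (compatChk t1 l5) 34600 100 = true := by decide +kernel
theorem c5_1_347 : allR (compatChk t1 l5) 34700 100 = true := by decide +kernel
theorem c5_1_348 : allR (compatChk t1 l5) 34800 100 = true := by decide +kernel
theorem c5_1_349 : allR (compatChk t1 l5) 34900 100 = true := by decide +kernel
theorem c5_1_350 : allR (compatChk t1 l5) 35000 100 = true := by decide +kernel
theorem c5_1_351 : allR (compatChk t1 l5) 35100 100 = true := by decide +kernel
theorem c5_1_352 : allR (compatChk t1 l5) 35200 100 = true := by decide +kernel
theorem c5_1_353 : allR (compatChk t1 l5) 35300 100 = true := by decide +kernel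
theorem c5_1_354 : allR (compatChk t1 l5) 35400 100 = true := by decide +kernel
theorem c5_1_355 : allR (compatChk t1 l5) 35500 100 = true := by decide +kernel
theorem c5_1_356 : allR (compatChk t1 l5) 35600 100 = true := by decide +kernel
theorem c5_1_357 : allR (compatChk t1 l5) 35700 100 = true := by decide +kernel
theorem c5_1_358 : allR (compatChk t1 l5) 35800 100 = true := by decide +kernel
theorem c5_1_359 : allR (compatChk t1 l5) 35900 100 = true := by decide +kernel
theorem c5_1_360 : allR (compatChk t1 l5) 36000 100 = true := by decide +kernel
theorem c5_1_361 : allR (compatChk t1 l5) 36100 100 = true := by decide +kernel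
theorem c5_1_362 : allR (compatChk t1 l5) 36200 100 = true := by decide +kernel
theorem c5_1_363 : allR (compatChk t1 l5) 36300 100 = true := by decide +kernel
theorem c5_1_364 : allR (compatChk t1 l5) 36400 100 = true := by decide +kernel
theorem c5_1_365 : allR (compatChk t1 l5) 36500 100 = true := by decide +kernel
theorem c5_1_366 : allR (compatChk t1 l5) 36600 100 = true := by decide +kernel
theorem c5_1_367 : allR (compatChk t1 l5) 36700 100 = true := by decide +kernel
theorem c5_1_368 : allR (compatChk t1 l5) 36800 100 = true := by decide +kernel
theorem c5_1_369 : allR (compatChk t1 l5) 36900 100 = true := by decide +kernel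
theorem c5_1_370 : allR (compatChk t1 l5) 37000 100 = true := by decide +kernel
theorem c5_1_371 : allR (compatChk t1 l5) 37100 100 = true := by decide +kernel
theorem c5_1_372 : allR (compatChk t1 l5) 37200 100 = true := by decide +kernel
theorem c5_1_373 : allR (compatChk t1 l5) 37300 100 = true := by decide +kernel
theorem c5_1_374 : allR (compatChk t1 l5) 37400 100 = true := by decide +kernel
theorem c5_1_375 : allR (compatChk t1 l5) 37500 100 = true := by decide +kernel
theorem c5_1_376 : allR (compatChk t1 l5) 37600 100 = true := by decide +kernel
theorem c5_1_377 : allR (compatChk t1 l5) 37700 100 = true := by decide +kernel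
theorem c5_1_378 : allR (compatChk t1 l5) 37800 100 = true := by decide +kernel
theorem c5_1_379 : allR (compatChk t1 l5) 37900 100 = true := by decide +kernel
theorem c5_1_380 : allR (compatChk t1 l5) 38000 100 = true := by decide +kernel
theorem c5_1_381 : allR (compatChk t1 l5) 38100 100 = true := by decide +kernel
theorem c5_1_382 : allR (compatChk t1 l5) 38200 100 = true := by decide +kernel
theorem c5_1_383 : allR (compatChk t1 l5) 38300 100 = true := by decide +kernel
theorem c5_1_384 : allR (compatChk t1 l5) 38400 100 = true := by decide +kernel
theorem c5_1_385 : allR (compatChk t1 l5) 38500 100 = true := by decide +kernel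
theorem c5_1_386 : allR (compatChk t1 l5) 38600 100 = true := by decide +kernel
theorem c5_1_387 : allR (compatChk t1 l5) 38700 100 = true := by decide +kernel
theorem c5_1_388 : allR (compatChk t1 l5) 38800 100 = true := by decide +kernel
theorem c5_1_389 : allR (compatChk t1 l5) 38900 100 = true := by decide +kernel
theorem c5_1_390 : allR (compatChk t1 l5) 39000 100 = true := by decide +kernel
theorem c5_1_391 : allR (compatChk t1 l5) 39100 100 = true := by decide +kernel
theorem c5_1_392 : allR (compatChk t1 l5) 39200 100 = true := by decide +kernel
theorem c5_1_393 : allR (compatChk t1 l5) 39300 100 = true := by decide +kernel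
theorem c5_1_394 : allR (compatChk t1 l5) 39400 100 = true := by decide +kernel
theorem c5_1_395 : allR (compatChk t1 l5) 39500 100 = true := by decide +kernel
theorem c5_1_396 : allR (compatChk t1 l5) 39600 100 = true := by decide +kernel
theorem c5_1_397 : allR (compatChk t1 l5) 39700 100 = true := by decide +kernel
theorem c5_1_398 : allR (compatChk t1 l5) 39800 100 = true := by decide +kernel
theorem c5_1_399 : allR (compatChk t1 l5) 39900 100 = true := by decide +kernel
theorem c5_1_400 : allR (compatChk t1 l5) 40000 100 = true := by decide +kernel
theorem c5_1_401 : allR (compatChk t1 l5) 40100 100 = true := by decide +kernel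
theorem c5_1_402 : allR (compatChk t1 l5) 40200 100 = true := by decide +kernel
theorem c5_1_403 : allR (compatChk t1 l5) 40300 100 = true := by decide +kernel
theorem c5_1_404 : allR (compatChk t1 l5) 40400 100 = true := by decide +kernel
theorem c5_1_405 : allR (compatChk t1 l5) 40500 100 = true := by decide +kernel
theorem c5_1_406 : allR (compatChk t1 l5) 40600 100 = true := by decide +kernel
theorem c5_1_407 : allR (compatChk t1 l5) 40700 100 = true := by decide +kernel
theorem c5_1_408 : allR (compatChk t1 l5) 40800 100 = true := by decide +kernel
theorem c5_1_409 : allR (compatChk t1 l5) 40900 100 = true := by decide +kernel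
theorem c5_1_410 : allR (compatChk t1 l5) 41000 100 = true := by decide +kernel
theorem c5_1_411 : allR (compatChk t1 l5) 41100 100 = true := by decide +kernel
theorem c5_1_412 : allR (compatChk t1 l5) 41200 100 = true := by decide +kernel
theorem c5_1_413 : allR (compatChk t1 l5) 41300 100 = true := by decide +kernel
theorem c5_1_414 : allR (compatChk t1 l5) 41400 100 = true := by decide +kernel
theorem c5_1_415 : allR (compatChk t1 l5) 41500 100 = true := by decide +kernel
theorem c5_1_416 : allR (compatChk t1 l5) 41600 100 = true := by decide +kernel
theorem c5_1_417 : allR (compatChk t1 l5) 41700 100 = true := by decide +kernel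
theorem c5_1_418 : allR (compatChk t1 l5) 41800 100 = true := by decide +kernel
theorem c5_1_419 : allR (compatChk t1 l5) 41900 100 = true := by decide +kernel
theorem c5_1_420 : allR (compatChk t1 l5) 42000 100 = true := by decide +kernel
theorem c5_1_421 : allR (compatChk t1 l5) 42100 100 = true := by decide +kernel
theorem c5_1_422 : allR (compatChk t1 l5) 42200 100 = true := by decide +kernel
theorem c5_1_423 : allR (compatChk t1 l5) 42300 100 = true := by decide +kernel
theorem c5_1_424 : allR (compatChk t1 l5) 42400 100 = true := by decide +kernel
theorem c5_1_425 : allR (compatChk t1 l5) 42500 100 = true := by decide +kernel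
theorem c5_1_426 : allR (compatChk t1 l5) 42600 100 = true := by decide +kernel
theorem c5_1_427 : allR (compatChk t1 l5) 42700 100 = true := by decide +kernel
theorem c5_1_428 : allR (compatChk t1 l5) 42800 100 = true := by decide +kernel
theorem c5_1_429 : allR (compatChk t1 l5) 42900 100 = true := by decide +kernel
theorem c5_1_430 : allR (compatChk t1 l5) 43000 100 = true := by decide +kernel
theorem c5_1_431 : allR (compatChk t1 l5) 43100 100 = true := by decide +kernel
theorem c5_1_432 : allR (compatChk t1 l5) 43200 100 = true := by decide +kernel
theorem c5_1_433 : allR (compatChk t1 l5) 43300 100 = true := by decide +kernel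
theorem c5_1_434 : allR (compatChk t1 l5) 43400 100 = true := by decide +kernel
theorem c5_1_435 : allR (compatChk t1 l5) 43500 100 = true := by decide +kernel
theorem c5_1_436 : allR (compatChk t1 l5) 43600 80 = true := by decide +kernel

end Vale.Agent.P183L.Tab
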