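import Vale.Agent.P183L.Tab

/-! c5_2 -/

namespace Vale.Agent.P183L.Tab

theorem c5_2_0 : allR (compatChk t2 l5) 0 100 = true := by decide +kernel
theorem c5_2_1 : allR (compatChk t2 l5) 100 100 = true := by decide +kernel
theorem c5_2_2 : allR (compatChk t2 l5) 200 100 = true := by decide +kernel
theorem c5_2_3 : allR (compatChk t2 l5) 300 100 = true := by decide +kernel
theorem c5_2_4 : allR (compatChk t2 l5) 400 100 = true := by decide +kernel
theorem c5_2_5 : allR (compatChk t2 l5) 500 100 = true := by decide +kernel
theorem c5_2_6 : allR (compatChk t2 l5) 600 100 = true := by decide +kernel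
theorem c5_2_7 : allR (compatChk t2 l5) 700 100 = true := by decide +kernel
theorem c5_2_8 : allR (compatChk t2 l5) 800 100 = true := by decide +kernel
theorem c5_2_9 : allR (compatChk t2 l5) 900 100 = true := by decide +kernel
theorem c5_2_10 : allR (compatChk t2 l5) 1000 100 = true := by decide +kernel
theorem c5_2_11 : allR (compatChk t2 l5) 1100 100 = true := by decide +kernel
theorem c5_2_12 : allR (compatChk t2 l5) 1200 100 = true := by decide +kernel
theorem c5_2_13 : allR (compatChk t2 l5) 1300 100 = true := by decide +kernel
theorem c5_2_14 : allR (compatChk t2 l5) 1400 100 = true := by decide +kernel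
theorem c5_2_15 : allR (compatChk t2 l5) 1500 100 = true := by decide +kernel
theorem c5_2_16 : allR (compatChk t2 l5) 1600 100 = true := by decide +kernel
theorem c5_2_17 : allR (compatChk t2 l5) 1700 100 = true := by decide +kernel
theorem c5_2_18 : allR (compatChk t2 l5) 1800 100 = true := by decide +kernel
theorem c5_2_19 : allR (compatChk t2 l5) 1900 100 = true := by decide +kernel
theorem c5_2_20 : allR (compatChk t2 l5) 2000 100 = true := by decide +kernel
theorem c5_2_21 : allR (compatChk t2 l5) 2100 100 = true := by decide +kernel
theorem c5_2_22 : allR (compatChk t2 l5) 2200 100 = true := by decide +kernel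
theorem c5_2_23 : allR (compatChk t2 l5) 2300 100 = true := by decide +kernel
theorem c5_2_24 : allR (compatChk t2 l5) 2400 100 = true := by decide +kernel
theorem c5_2_25 : allR (compatChk t2 l5) 2500 100 = true := by decide +kernel
theorem c5_2_26 : allR (compatChk t2 l5) 2600 100 = true := by decide +kernel
theorem c5_2_27 : allR (compatChk t2 l5) 2700 100 = true := by decide +kernel
theorem c5_2_28 : allR (compatChk t2 l5) 2800 100 = true := by decide +kernel
theorem c5_2_29 : allR (compatChk t2 l5) 2900 100 = true := by decide +kernel
theorem c5_2_30 : allR (compatChk t2 l5) 3000 100 = true := by decide +kernel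
theorem c5_2_31 : allR (compatChk t2 l5) 3100 100 = true := by decide +kernel
theorem c5_2_32 : allR (compatChk t2 l5) 3200 100 = true := by decide +kernel
theorem c5_2_33 : allR (compatChk t2 l5) 3300 100 = true := by decide +kernel
theorem c5_2_34 : allR (compatChk t2 l5) 3400 100 = true := by decide +kernel
theorem c5_2_35 : allR (compatChk t2 l5) 3500 100 = true := by decide +kernel
theorem c5_2_36 : allR (compatChk t2 l5) 3600 100 = true := by decide +kernel
theorem c5_2_37 : allR (compatChk t2 l5) 3700 100 = true := by decide +kernel
theorem c5_2_38 : allR (compatChk t2 l5) 3800 100 = true := by decide +kernel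
theorem c5_2_39 : allR (compatChk t2 l5) 3900 100 = true := by decide +kernel
theorem c5_2_40 : allR (compatChk t2 l5) 4000 100 = true := by decide +kernel
theorem c5_2_41 : allR (compatChk t2 l5) 4100 100 = true := by decide +kernel
theorem c5_2_42 : allR (compatChk t2 l5) 4200 100 = true := by decide +kernel
theorem c5_2_43 : allR (compatChk t2 l5) 4300 100 = true := by decide +kernel
theorem c5_2_44 : allR (compatChk t2 l5) 4400 100 = true := by decide +kernel
theorem c5_2_45 : allR (compatChk t2 l5) 4500 100 = true := by decide +kernel
theorem c5_2_46 : allR (compatChk t2 l5) 4600 100 = true := by decide +kernel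
theorem c5_2_47 : allR (compatChk t2 l5) 4700 100 = true := by decide +kernel
theorem c5_2_48 : allR (compatChk t2 l5) 4800 100 = true := by decide +kernel
theorem c5_2_49 : allR (compatChk t2 l5) 4900 100 = true := by decide +kernel
theorem c5_2_50 : allR (compatChk t2 l5) 5000 100 = true := by decide +kernel
theorem c5_2_51 : allR (compatChk t2 l5) 5100 100 = true := by decide +kernel
theorem c5_2_52 : allR (compatChk t2 l5) 5200 100 = true := by decide +kernel
theorem c5_2_53 : allR (compatChk t2 l5) 5300 100 = true := by decide +kernel
theorem c5_2_54 : allR (compatChk t2 l5) 5400 100 = true := by decide +kernel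
theorem c5_2_55 : allR (compatChk t2 l5) 5500 100 = true := by decide +kernel
theorem c5_2_56 : allR (compatChk t2 l5) 5600 100 = true := by decide +kernel
theorem c5_2_57 : allR (compatChk t2 l5) 5700 100 = true := by decide +kernel
theorem c5_2_58 : allR (compatChk t2 l5) 5800 100 = true := by decide +kernel
theorem c5_2_59 : allR (compatChk t2 l5) 5900 100 = true := by decide +kernel
theorem c5_2_60 : allR (compatChk t2 l5) 6000 100 = true := by decide +kernel
theorem c5_2_61 : allR (compatChk t2 l5) 6100 100 = true := by decide +kernel
theorem c5_2_62 : allR (compatChk t2 l5) 6200 100 = true := by decide +kernel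
theorem c5_2_63 : allR (compatChk t2 l5) 6300 100 = true := by decide +kernel
theorem c5_2_64 : allR (compatChk t2 l5) 6400 100 = true := by decide +kernel
theorem c5_2_65 : allR (compatChk t2 l5) 6500 100 = true := by decide +kernel
theorem c5_2_66 : allR (compatChk t2 l5) 6600 100 = true := by decide +kernel
theorem c5_2_67 : allR (compatChk t2 l5) 6700 100 = true := by decide +kernel
theorem c5_2_68 : allR (compatChk t2 l5) 6800 100 = true := by decide +kernel
theorem c5_2_69 : allR (compatChk t2 l5) 6900 100 = true := by decide +kernel
theorem c5_2_70 : allR (compatChk t2 l5) 7000 100 = true := by decide +kernel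
theorem c5_2_71 : allR (compatChk t2 l5) 7100 100 = true := by decide +kernel
theorem c5_2_72 : allR (compatChk t2 l5) 7200 100 = true := by decide +kernel
theorem c5_2_73 : allR (compatChk t2 l5) 7300 100 = true := by decide +kernel
theorem c5_2_74 : allR (compatChk t2 l5) 7400 100 = true := by decide +kernel
theorem c5_2_75 : allR (compatChk t2 l5) 7500 100 = true := by decide +kernel
theorem c5_2_76 : allR (compatChk t2 l5) 7600 100 = true := by decide +kernel
theorem c5_2_77 : allR (compatChk t2 l5) 7700 100 = true := by decide +kernel
theorem c5_2_78 : allR (compatChk t2 l5) 7800 100 = true := by decide +kernel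
theorem c5_2_79 : allR (compatChk t2 l5) 7900 100 = true := by decide +kernel
theorem c5_2_80 : allR (compatChk t2 l5) 8000 100 = true := by decide +kernel
theorem c5_2_81 : allR (compatChk t2 l5) 8100 100 = true := by decide +kernel
theorem c5_2_82 : allR (compatChk t2 l5) 8200 100 = true := by decide +kernel
theorem c5_2_83 : allR (compatChk t2 l5) 8300 100 = true := by decide +kernel
theorem c5_2_84 : allR (compatChk t2 l5) 8400 100 = true := by decide +kernel
theorem c5_2_85 : allR (compatChk t2 l5) 8500 100 = true := by decide +kernel
theorem c5_2_86 : allR (compatChk t2 l5) 8600 100 = true := by decide +kernel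
theorem c5_2_87 : allR (compatChk t2 l5) 8700 100 = true := by decide +kernel
theorem c5_2_88 : allR (compatChk t2 l5) 8800 100 = true := by decide +kernel
theorem c5_2_89 : allR (compatChk t2 l5) 8900 100 = true := by decide +kernel
theorem c5_2_90 : allR (compatChk t2 l5) 9000 100 = true := by decide +kernel
theorem c5_2_91 : allR (compatChk t2 l5) 9100 100 = true := by decide +kernel
theorem c5_2_92 : allR (compatChk t2 l5) 9200 100 = true := by decide +kernel
theorem c5_2_93 : allR (compatChk t2 l5) 9300 100 = true := by decide +kernel
theorem c5_2_94 : allR (compatChk t2 l5) 9400 100 = true := by decide +kernel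
theorem c5_2_95 : allR (compatChk t2 l5) 9500 100 = true := by decide +kernel
theorem c5_2_96 : allR (compatChk t2 l5) 9600 100 = true := by decide +kernel
theorem c5_2_97 : allR (compatChk t2 l5) 9700 100 = true := by decide +kernel
theorem c5_2_98 : allR (compatChk t2 l5) 9800 100 = true := by decide +kernel
theorem c5_2_99 : allR (compatChk t2 l5) 9900 100 = true := by decide +kernel
theorem c5_2_100 : allR (compatChk t2 l5) 10000 100 = true := by decide +kernel
theorem c5_2_101 : allR (compatChk t2 l5) 10100 100 = true := by decide +kernel
theorem c5_2_102 : allR (compatChk t2 l5) 10200 100 = true := by decide +kernel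
theorem c5_2_103 : allR (compatChk t2 l5) 10300 100 = true := by decide +kernel
theorem c5_2_104 : allR (compatChk t2 l5) 10400 100 = true := by decide +kernel
theorem c5_2_105 : allR (compatChk t2 l5) 10500 100 = true := by decide +kernel
theorem c5_2_106 : allR (compatChk t2 l5) 10600 100 = true := by decide +kernel
theorem c5_2_107 : allR (compatChk t2 l5) 10700 100 = true := by decide +kernel
theorem c5_2_108 : allR (compatChk t2 l5) 10800 100 = true := by decide +kernel
theorem c5_2_109 : allR (compatChk t2 l5) 10900 100 = true := by decide +kernel
theorem c5_2_110 : allR (compatChk t2 l5) 11000 100 = true := by decide +kernel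
theorem c5_2_111 : allR (compatChk t2 l5) 11100 100 = true := by decide +kernel
theorem c5_2_112 : allR (compatChk t2 l5) 11200 100 = true := by decide +kernel
theorem c5_2_113 : allR (compatChk t2 l5) 11300 100 = true := by decide +kernel
theorem c5_2_114 : allR (compatChk t2 l5) 11400 100 = true := by decide +kernel
theorem c5_2_115 : allR (compatChk t2 l5) 11500 100 = true := by decide +kernel
theorem c5_2_116 : allR (compatChk t2 l5) 11600 100 = true := by decide +kernel
theorem c5_2_117 : allR (compatChk t2 l5) 11700 100 = true := by decide +kernel
theorem c5_2_118 : allR (compatChk t2 l5) 11800 100 = true := by decide +kernel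
theorem c5_2_119 : allR (compatChk t2 l5) 11900 100 = true := by decide +kernel
theorem c5_2_120 : allR (compatChk t2 l5) 12000 100 = true := by decide +kernel
theorem c5_2_121 : allR (compatChk t2 l5) 12100 100 = true := by decide +kernel
theorem c5_2_122 : allR (compatChk t2 l5) 12200 100 = true := by decide +kernel
theorem c5_2_123 : allR (compatChk t2 l5) 12300 100 = true := by decide +kernel
theorem c5_2_124 : allR (compatChk t2 l5) 12400 100 = true := by decide +kernel
theorem c5_2_125 : allR (compatChk t2 l5) 12500 100 = true := by decide +kernel
theorem c5_2_126 : allR (compatChk t2 l5) 12600 100 = true := by decide +kernel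
theorem c5_2_127 : allR (compatChk t2 l5) 12700 100 = true := by decide +kernel
theorem c5_2_128 : allR (compatChk t2 l5) 12800 100 = true := by decide +kernel
theorem c5_2_129 : allR (compatChk t2 l5) 12900 100 = true := by decide +kernel
theorem c5_2_130 : allR (compatChk t2 l5) 13000 100 = true := by decide +kernel
theorem c5_2_131 : allR (compatChk t2 l5) 13100 100 = true := by decide +kernel
theorem c5_2_132 : allR (compatChk t2 l5) 13200 100 = true := by decide +kernel
theorem c5_2_133 : allR (compatChk t2 l5) 13300 100 = true := by decide +kernel
theorem c5_2_134 : allR (compatChk t2 l5) 13400 100 = true := by decide +kernel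
theorem c5_2_135 : allR (compatChk t2 l5) 13500 100 = true := by decide +kernel
theorem c5_2_136 : allR (compatChk t2 l5) 13600 100 = true := by decide +kernel
theorem c5_2_137 : allR (compatChk t2 l5) 13700 100 = true := by decide +kernel
theorem c5_2_138 : allR (compatChk t2 l5) 13800 100 = true := by decide +kernel
theorem c5_2_139 : allR (compatChk t2 l5) 13900 100 = true := by decide +kernel
theorem c5_2_140 : allR (compatChk t2 l5) 14000 100 = true := by decide +kernel
theorem c5_2_141 : allR (compatChk t2 l5) 14100 100 = true := by decide +kernel
theorem c5_2_142 : allR (compatChk t2 l5) 14200 100 = true := by decide +kernel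
theorem c5_2_143 : allR (compatChk t2 l5) 14300 100 = true := by decide +kernel
theorem c5_2_144 : allR (compatChk t2 l5) 14400 100 = true := by decide +kernel
theorem c5_2_145 : allR (compatChk t2 l5) 14500 100 = true := by decide +kernel
theorem c5_2_146 : allR (compatChk t2 l5) 14600 100 = true := by decide +kernel
theorem c5_2_147 : allR (compatChk t2 l5) 14700 100 = true := by decide +kernel
theorem c5_2_148 : allR (compatChk t2 l5) 14800 100 = true := by decide +kernel
theorem c5_2_149 : allR (compatChk t2 l5) 14900 100 = true := by decide +kernel
theorem c5_2_150 : allR (compatChk t2 l5) 15000 100 = true := by decide +kernel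
theorem c5_2_151 : allR (compatChk t2 l5) 15100 100 = true := by decide +kernel
theorem c5_2_152 : allR (compatChk t2 l5) 15200 100 = true := by decide +kernel
theorem c5_2_153 : allR (compatChk t2 l5) 15300 100 = true := by decide +kernel
theorem c5_2_154 : allR (compatChk t2 l5) 15400 100 = true := by decide +kernel
theorem c5_2_155 : allR (compatChk t2 l5) 15500 100 = true := by decide +kernel
theorem c5_2_156 : allR (compatChk t2 l5) 15600 100 = true := by decide +kernel
theorem c5_2_157 : allR (compatChk t2 l5) 15700 100 = true := by decide +kernel
theorem c5_2_158 : allR (compatChk t2 l5) 15800 100 = true := by decide +kernel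
theorem c5_2_159 : allR (compatChk t2 l5) 15900 100 = true := by decide +kernel
theorem c5_2_160 : allR (compatChk t2 l5) 16000 100 = true := by decide +kernel
theorem c5_2_161 : allR (compatChk t2 l5) 16100 100 = true := by decide +kernel
theorem c5_2_162 : allR (compatChk t2 l5) 16200 100 = true := by decide +kernel
theorem c5_2_163 : allR (compatChk t2 l5) 16300 100 = true := by decide +kernel
theorem c5_2_164 : allR (compatChk t2 l5) 16400 100 = true := by decide +kernel
theorem c5_2_165 : allR (compatChk t2 l5) 16500 100 = true := by decide +kernel
theorem c5_2_166 : allR (compatChk t2 l5) 16600 100 = true := by decide +kernel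
theorem c5_2_167 : allR (compatChk t2 l5) 16700 100 = true := by decide +kernel
theorem c5_2_168 : allR (compatChk t2 l5) 16800 100 = true := by decide +kernel
theorem c5_2_169 : allR (compatChk t2 l5) 16900 100 = true := by decide +kernel
theorem c5_2_170 : allR (compatChk t2 l5) 17000 100 = true := by decide +kernel
theorem c5_2_171 : allR (compatChk t2 l5) 17100 100 = true := by decide +kernel
theorem c5_2_172 : allR (compatChk t2 l5) 17200 100 = true := by decide +kernel
theorem c5_2_173 : allR (compatChk t2 l5) 17300 100 = true := by decide +kernel
theorem c5_2_174 : allR (compatChk t2 l5) 17400 100 = true := by decide +kernel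
theorem c5_2_175 : allR (compatChk t2 l5) 17500 100 = true := by decide +kernel
theorem c5_2_176 : allR (compatChk t2 l5) 17600 100 = true := by decide +kernel
theorem c5_2_177 : allR (compatChk t2 l5) 17700 100 = true := by decide +kernel
theorem c5_2_178 : allR (compatChk t2 l5) 17800 100 = true := by decide +kernel
theorem c5_2_179 : allR (compatChk t2 l5) 17900 100 = true := by decide +kernel
theorem c5_2_180 : allR (compatChk t2 l5) 18000 100 = true := by decide +kernel
theorem c5_2_181 : allR (compatChk t2 l5) 18100 100 = true := by decide +kernel
theorem c5_2_182 : allR (compatChk t2 l5) 18200 100 = true := by decide +kernel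
theorem c5_2_183 : allR (compatChk t2 l5) 18300 100 = true := by decide +kernel
theorem c5_2_184 : allR (compatChk t2 l5) 18400 100 = true := by decide +kernel
theorem c5_2_185 : allR (compatChk t2 l5) 18500 100 = true := by decide +kernel
theorem c5_2_186 : allR (compatChk t2 l5) 18600 100 = true := by decide +kernel
theorem c5_2_187 : allR (compatChk t2 l5) 18700 100 = true := by decide +kernel
theorem c5_2_188 : allR (compatChk t2 l5) 18800 100 = true := by decide +kernel
theorem c5_2_189 : allR (compatChk t2 l5) 18900 100 = true := by decide +kernel
theorem c5_2_190 : allR (compatChk t2 l5) 19000 100 = true := by decide +kernel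
theorem c5_2_191 : allR (compatChk t2 l5) 19100 100 = true := by decide +kernel
theorem c5_2_192 : allR (compatChk t2 l5) 19200 100 = true := by decide +kernel
theorem c5_2_193 : allR (compatChk t2 l5) 19300 100 = true := by decide +kernel
theorem c5_2_194 : allR (compatChk t2 l5) 19400 100 = true := by decide +kernel
theorem c5_2_195 : allR (compatChk t2 l5) 19500 100 = true := by decide +kernel
theorem c5_2_196 : allR (compatChk t2 l5) 19600 100 = true := by decide +kernel
theorem c5_2_197 : allR (compatChk t2 l5) 19700 100 = true := by decide +kernel
theorem c5_2_198 : allR (compatChk t2 l5) 19800 100 = true := by decide +kernel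
theorem c5_2_199 : allR (compatChk t2 l5) 19900 100 = true := by decide +kernel
theorem c5_2_200 : allR (compatChk t2 l5) 20000 100 = true := by decide +kernel
theorem c5_2_201 : allR (compatChk t2 l5) 20100 100 = true := by decide +kernel
theorem c5_2_202 : allR (compatChk t2 l5) 20200 100 = true := by decide +kernel
theorem c5_2_203 : allR (compatChk t2 l5) 20300 100 = true := by decide +kernel
theorem c5_2_204 : allR (compatChk t2 l5) 20400 100 = true := by decide +kernel
theorem c5_2_205 : allR (compatChk t2 l5) 20500 100 = true := by decide +kernel
theorem c5_2_206 : allR (compatChk t2 l5) 20600 100 = true := by decide +kernel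
theorem c5_2_207 : allR (compatChk t2 l5) 20700 100 = true := by decide +kernel
theorem c5_2_208 : allR (compatChk t2 l5) 20800 100 = true := by decide +kernel
theorem c5_2_209 : allR (compatChk t2 l5) 20900 100 = true := by decide +kernel
theorem c5_2_210 : allR (compatChk t2 l5) 21000 100 = true := by decide +kernel
theorem c5_2_211 : allR (compatChk t2 l5) 21100 100 = true := by decide +kernel
theorem c5_2_212 : allR (compatChk t2 l5) 21200 100 = true := by decide +kernel
theorem c5_2_213 : allR (compatChk t2 l5) 21300 100 = true := by decide +kernel
theorem c5_2_214 : allR (compatChk t2 l5) 21400 100 = true := by decide +kernel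
theorem c5_2_215 : allR (compatChk t2 l5) 21500 100 = true := by decide +kernel
theorem c5_2_216 : allR (compatChk t2 l5) 21600 100 = true := by decide +kernel
theorem c5_2_217 : allR (compatChk t2 l5) 21700 100 = true := by decide +kernel
theorem c5_2_218 : allR (compatChk t2 l5) 21800 100 = true := by decide +kernel

end Vale.Agent.P183L.Tab
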