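import Vale.Agent.P183L.Tab

/-! c5_2 -/

namespace Vale.Agent.P183L.Tab

theorem c5_2_219 : allR (compatChk t2 l5) 21900 100 = true := by decide +kernel
theorem c5_2_220 : allR (compatChk t2 l5) 22000 100 = true := by decide +kernel
theorem c5_2_221 : allR (compatChk t2 l5) 22100 100 = true := by decide +kernel
theorem c5_2_222 : allR (compatChk t2 l5) 22200 100 = true := by decide +kernel
theorem c5_2_223 : allR (compatChk t2 l5) 22300 100 = true := by decide +kernel
theorem c5_2_224 : allR (compatChk t2 l5) 22400 100 = true := by decide +kernel
theorem c5_2_225 : allR (compatChk t2 l5) 22500 100 = true := by decide +kernel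
theorem c5_2_226 : allR (compatChk t2 l5) 22600 100 = true := by decide +kernel
theorem c5_2_227 : allR (compatChk t2 l5) 22700 100 = true := by decide +kernel
theorem c5_2_228 : allR (compatChk t2 l5) 22800 100 = true := by decide +kernel
theorem c5_2_229 : allR (compatChk t2 l5) 22900 100 = true := by decide +kernel
theorem c5_2_230 : allR (compatChk t2 l5) 23000 100 = true := by decide +kernel
theorem c5_2_231 : allR (compatChk t2 l5) 23100 100 = true := by decide +kernel
theorem c5_2_232 : allR (compatChk t2 l5) 23200 100 = true := by decide +kernel
theorem c5_2_233 : allR (compatChk t2 l5) 23300 100 = true := by decide +kernel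
theorem c5_2_234 : allR (compatChk t2 l5) 23400 100 = true := by decide +kernel
theorem c5_2_235 : allR (compatChk t2 l5) 23500 100 = true := by decide +kernel
theorem c5_2_236 : allR (compatChk t2 l5) 23600 100 = true := by decide +kernel
theorem c5_2_237 : allR (compatChk t2 l5) 23700 100 = true := by decide +kernel
theorem c5_2_238 : allR (compatChk t2 l5) 23800 100 = true := by decide +kernel
theorem c5_2_239 : allR (compatChk t2 l5) 23900 100 = true := by decide +kernel
theorem c5_2_240 : allR (compatChk t2 l5) 24000 100 = true := by decide +kernel
theorem c5_2_241 : allR (compatChk t2 l5) 24100 100 = true := by decide +kernel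
theorem c5_2_242 : allR (compatChk t2 l5) 24200 100 = true := by decide +kernel
theorem c5_2_243 : allR (compatChk t2 l5) 24300 100 = true := by decide +kernel
theorem c5_2_244 : allR (compatChk t2 l5) 24400 100 = true := by decide +kernel
theorem c5_2_245 : allR (compatChk t2 l5) 24500 100 = true := by decide +kernel
theorem c5_2_246 : allR (compatChk t2 l5) 24600 100 = true := by decide +kernel
theorem c5_2_247 : allR (compatChk t2 l5) 24700 100 = true := by decide +kernel
theorem c5_2_248 : allR (compatChk t2 l5) 24800 100 = true := by decide +kernel
theorem c5_2_249 : allR (compatChk t2 l5) 24900 100 = true := by decide +kernel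
theorem c5_2_250 : allR (compatChk t2 l5) 25000 100 = true := by decide +kernel
theorem c5_2_251 : allR (compatChk t2 l5) 25100 100 = true := by decide +kernel
theorem c5_2_252 : allR (compatChk t2 l5) 25200 100 = true := by decide +kernel
theorem c5_2_253 : allR (compatChk t2 l5) 25300 100 = true := by decide +kernel
theorem c5_2_254 : allR (compatChk t2 l5) 25400 100 = true := by decide +kernel
theorem c5_2_255 : allR (compatChk t2 l5) 25500 100 = true := by decide +kernel
theorem c5_2_256 : allR (compatChk t2 l5) 25600 100 = true := by decide +kernel
theorem c5_2_257 : allR (compatChk t2 l5) 25700 100 = true := by decide +kernel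
theorem c5_2_258 : allR (compatChk t2 l5) 25800 100 = true := by decide +kernel
theorem c5_2_259 : allR (compatChk t2 l5) 25900 100 = true := by decide +kernel
theorem c5_2_260 : allR (compatChk t2 l5) 26000 100 = true := by decide +kernel
theorem c5_2_261 : allR (compatChk t2 l5) 26100 100 = true := by decide +kernel
theorem c5_2_262 : allR (compatChk t2 l5) 26200 100 = true := by decide +kernel
theorem c5_2_263 : allR (compatChk t2 l5) 26300 100 = true := by decide +kernel
theorem c5_2_264 : allR (compatChk t2 l5) 26400 100 = true := by decide +kernel
theorem c5_2_265 : allR (compatChk t2 l5) 26500 100 = true := by decide +kernel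
theorem c5_2_266 : allR (compatChk t2 l5) 26600 100 = true := by decide +kernel
theorem c5_2_267 : allR (compatChk t2 l5) 26700 100 = true := by decide +kernel
theorem c5_2_268 : allR (compatChk t2 l5) 26800 100 = true := by decide +kernel
theorem c5_2_269 : allR (compatChk t2 l5) 26900 100 = true := by decide +kernel
theorem c5_2_270 : allR (compatChk t2 l5) 27000 100 = true := by decide +kernel
theorem c5_2_271 : allR (compatChk t2 l5) 27100 100 = true := by decide +kernel
theorem c5_2_272 : allR (compatChk t2 l5) 27200 100 = true := by decide +kernel
theorem c5_2_273 : allR (compatChk t2 l5) 27300 100 = true := by decide +kernel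
theorem c5_2_274 : allR (compatChk t2 l5) 27400 100 = true := by decide +kernel
theorem c5_2_275 : allR (compatChk t2 l5) 27500 100 = true := by decide +kernel
theorem c5_2_276 : allR (compatChk t2 l5) 27600 100 = true := by decide +kernel
theorem c5_2_277 : allR (compatChk t2 l5) 27700 100 = true := by decide +kernel
theorem c5_2_278 : allR (compatChk t2 l5) 27800 100 = true := by decide +kernel
theorem c5_2_279 : allR (compatChk t2 l5) 27900 100 = true := by decide +kernel
theorem c5_2_280 : allR (compatChk t2 l5) 28000 100 = true := by decide +kernel
theorem c5_2_281 : allR (compatChk t2 l5) 28100 100 = true := by decide +kernel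
theorem c5_2_282 : allR (compatChk t2 l5) 28200 100 = true := by decide +kernel
theorem c5_2_283 : allR (compatChk t2 l5) 28300 100 = true := by decide +kernel
theorem c5_2_284 : allR (compatChk t2 l5) 28400 100 = true := by decide +kernel
theorem c5_2_285 : allR (compatChk t2 l5) 28500 100 = true := by decide +kernel
theorem c5_2_286 : allR (compatChk t2 l5) 28600 100 = true := by decide +kernel
theorem c5_2_287 : allR (compatChk t2 l5) 28700 100 = true := by decide +kernel
theorem c5_2_288 : allR (compatChk t2 l5) 28800 100 = true := by decide +kernel
theorem c5_2_289 : allR (compatChk t2 l5) 28900 100 = true := by decide +kernel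
theorem c5_2_290 : allR (compatChk t2 l5) 29000 100 = true := by decide +kernel
theorem c5_2_291 : allR (compatChk t2 l5) 29100 100 = true := by decide +kernel
theorem c5_2_292 : allR (compatChk t2 l5) 29200 100 = true := by decide +kernel
theorem c5_2_293 : allR (compatChk t2 l5) 29300 100 = true := by decide +kernel
theorem c5_2_294 : allR (compatChk t2 l5) 29400 100 = true := by decide +kernel
theorem c5_2_295 : allR (compatChk t2 l5) 29500 100 = true := by decide +kernel
theorem c5_2_296 : allR (compatChk t2 l5) 29600 100 = true := by decide +kernel
theorem c5_2_297 : allR (compatChk t2 l5) 29700 100 = true := by decide +kernel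
theorem c5_2_298 : allR (compatChk t2 l5) 29800 100 = true := by decide +kernel
theorem c5_2_299 : allR (compatChk t2 l5) 29900 100 = true := by decide +kernel
theorem c5_2_300 : allR (compatChk t2 l5) 30000 100 = true := by decide +kernel
theorem c5_2_301 : allR (compatChk t2 l5) 30100 100 = true := by decide +kernel
theorem c5_2_302 : allR (compatChk t2 l5) 30200 100 = true := by decide +kernel
theorem c5_2_303 : allR (compatChk t2 l5) 30300 100 = true := by decide +kernel
theorem c5_2_304 : allR (compatChk t2 l5) 30400 100 = true := by decide +kernel
theorem c5_2_305 : allR (compatChk t2 l5) 30500 100 = true := by decide +kernel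
theorem c5_2_306 : allR (compatChk t2 l5) 30600 100 = true := by decide +kernel
theorem c5_2_307 : allR (compatChk t2 l5) 30700 100 = true := by decide +kernel
theorem c5_2_308 : allR (compatChk t2 l5) 30800 100 = true := by decide +kernel
theorem c5_2_309 : allR (compatChk t2 l5) 30900 100 = true := by decide +kernel
theorem c5_2_310 : allR (compatChk t2 l5) 31000 100 = true := by decide +kernel
theorem c5_2_311 : allR (compatChk t2 l5) 31100 100 = true := by decide +kernel
theorem c5_2_312 : allR (compatChk t2 l5) 31200 100 = true := by decide +kernel
theorem c5_2_313 : allR (compatChk t2 l5) 31300 100 = true := by decide +kernel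
theorem c5_2_314 : allR (compatChk t2 l5) 31400 100 = true := by decide +kernel
theorem c5_2_315 : allR (compatChk t2 l5) 31500 100 = true := by decide +kernel
theorem c5_2_316 : allR (compatChk t2 l5) 31600 100 = true := by decide +kernel
theorem c5_2_317 : allR (compatChk t2 l5) 31700 100 = true := by decide +kernel
theorem c5_2_318 : allR (compatChk t2 l5) 31800 100 = true := by decide +kernel
theorem c5_2_319 : allR (compatChk t2 l5) 31900 100 = true := by decide +kernel
theorem c5_2_320 : allR (compatChk t2 l5) 32000 100 = true := by decide +kernel
theorem c5_2_321 : allR (compatChk t2 l5) 32100 100 = true := by decide +kernel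
theorem c5_2_322 : allR (compatChk t2 l5) 32200 100 = true := by decide +kernel
theorem c5_2_323 : allR (compatChk t2 l5) 32300 100 = true := by decide +kernel
theorem c5_2_324 : allR (compatChk t2 l5) 32400 100 = true := by decide +kernel
theorem c5_2_325 : allR (compatChk t2 l5) 32500 100 = true := by decide +kernel
theorem c5_2_326 : allR (compatChk t2 l5) 32600 100 = true := by decide +kernel
theorem c5_2_327 : allR (compatChk t2 l5) 32700 100 = true := by decide +kernel
theorem c5_2_328 : allR (compatChk t2 l5) 32800 100 = true := by decide +kernel
theorem c5_2_329 : allR (compatChk t2 l5) 32900 100 = true := by decide +kernel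
theorem c5_2_330 : allR (compatChk t2 l5) 33000 100 = true := by decide +kernel
theorem c5_2_331 : allR (compatChk t2 l5) 33100 100 = true := by decide +kernel
theorem c5_2_332 : allR (compatChk t2 l5) 33200 100 = true := by decide +kernel
theorem c5_2_333 : allR (compatChk t2 l5) 33300 100 = true := by decide +kernel
theorem c5_2_334 : allR (compatChk t2 l5) 33400 100 = true := by decide +kernel
theorem c5_2_335 : allR (compatChk t2 l5) 33500 100 = true := by decide +kernel
theorem c5_2_336 : allR (compatChk t2 l5) 33600 100 = true := by decide +kernel
theorem c5_2_337 : allR (compatChk t2 l5) 33700 100 = true := by decide +kernel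
theorem c5_2_338 : allR (compatChk t2 l5) 33800 100 = true := by decide +kernel
theorem c5_2_339 : allR (compatChk t2 l5) 33900 100 = true := by decide +kernel
theorem c5_2_340 : allR (compatChk t2 l5) 34000 100 = true := by decide +kernel
theorem c5_2_341 : allR (compatChk t2 l5) 34100 100 = true := by decide +kernel
theorem c5_2_342 : allR (compatChk t2 l5) 34200 100 = true := by decide +kernel
theorem c5_2_343 : allR (compatChk t2 l5) 34300 100 = true := by decide +kernel
theorem c5_2_344 : allR (compatChk t2 l5) 34400 100 = true := by decide +kernel
theorem c5_2_345 : allR (compatChk t2 l5) 34500 100 = true := by decide +kernel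
theorem c5_2_346 : allR (compatChk t2 l5) 34600 100 = true := by decide +kernel
theorem c5_2_347 : allR (compatChk t2 l5) 34700 100 = true := by decide +kernel
theorem c5_2_348 : allR (compatChk t2 l5) 34800 100 = true := by decide +kernel
theorem c5_2_349 : allR (compatChk t2 l5) 34900 100 = true := by decide +kernel
theorem c5_2_350 : allR (compatChk t2 l5) 35000 100 = true := by decide +kernel
theorem c5_2_351 : allR (compatChk t2 l5) 35100 100 = true := by decide +kernel
theorem c5_2_352 : allR (compatChk t2 l5) 35200 100 = true := by decide +kernel
theorem c5_2_353 : allR (compatChk t2 l5) 35300 100 = true := by decide +kernel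
theorem c5_2_354 : allR (compatChk t2 l5) 35400 100 = true := by decide +kernel
theorem c5_2_355 : allR (compatChk t2 l5) 35500 100 = true := by decide +kernel
theorem c5_2_356 : allR (compatChk t2 l5) 35600 100 = true := by decide +kernel
theorem c5_2_357 : allR (compatChk t2 l5) 35700 100 = true := by decide +kernel
theorem c5_2_358 : allR (compatChk t2 l5) 35800 100 = true := by decide +kernel
theorem c5_2_359 : allR (compatChk t2 l5) 35900 100 = true := by decide +kernel
theorem c5_2_360 : allR (compatChk t2 l5) 36000 100 = true := by decide +kernel
theorem c5_2_361 : allR (compatChk t2 l5) 36100 100 = true := by decide +kernel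
theorem c5_2_362 : allR (compatChk t2 l5) 36200 100 = true := by decide +kernel
theorem c5_2_363 : allR (compatChk t2 l5) 36300 100 = true := by decide +kernel
theorem c5_2_364 : allR (compatChk t2 l5) 36400 100 = true := by decide +kernel
theorem c5_2_365 : allR (compatChk t2 l5) 36500 100 = true := by decide +kernel
theorem c5_2_366 : allR (compatChk t2 l5) 36600 100 = true := by decide +kernel
theorem c5_2_367 : allR (compatChk t2 l5) 36700 100 = true := by decide +kernel
theorem c5_2_368 : allR (compatChk t2 l5) 36800 100 = true := by decide +kernel
theorem c5_2_369 : allR (compatChk t2 l5) 36900 100 = true := by decide +kernel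
theorem c5_2_370 : allR (compatChk t2 l5) 37000 100 = true := by decide +kernel
theorem c5_2_371 : allR (compatChk t2 l5) 37100 100 = true := by decide +kernel
theorem c5_2_372 : allR (compatChk t2 l5) 37200 100 = true := by decide +kernel
theorem c5_2_373 : allR (compatChk t2 l5) 37300 100 = true := by decide +kernel
theorem c5_2_374 : allR (compatChk t2 l5) 37400 100 = true := by decide +kernel
theorem c5_2_375 : allR (compatChk t2 l5) 37500 100 = true := by decide +kernel
theorem c5_2_376 : allR (compatChk t2 l5) 37600 100 = true := by decide +kernel
theorem c5_2_377 : allR (compatChk t2 l5) 37700 100 = true := by decide +kernel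
theorem c5_2_378 : allR (compatChk t2 l5) 37800 100 = true := by decide +kernel
theorem c5_2_379 : allR (compatChk t2 l5) 37900 100 = true := by decide +kernel
theorem c5_2_380 : allR (compatChk t2 l5) 38000 100 = true := by decide +kernel
theorem c5_2_381 : allR (compatChk t2 l5) 38100 100 = true := by decide +kernel
theorem c5_2_382 : allR (compatChk t2 l5) 38200 100 = true := by decide +kernel
theorem c5_2_383 : allR (compatChk t2 l5) 38300 100 = true := by decide +kernel
theorem c5_2_384 : allR (compatChk t2 l5) 38400 100 = true := by decide +kernel
theorem c5_2_385 : allR (compatChk t2 l5) 38500 100 = true := by decide +kernel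
theorem c5_2_386 : allR (compatChk t2 l5) 38600 100 = true := by decide +kernel
theorem c5_2_387 : allR (compatChk t2 l5) 38700 100 = true := by decide +kernel
theorem c5_2_388 : allR (compatChk t2 l5) 38800 100 = true := by decide +kernel
theorem c5_2_389 : allR (compatChk t2 l5) 38900 100 = true := by decide +kernel
theorem c5_2_390 : allR (compatChk t2 l5) 39000 100 = true := by decide +kernel
theorem c5_2_391 : allR (compatChk t2 l5) 39100 100 = true := by decide +kernel
theorem c5_2_392 : allR (compatChk t2 l5) 39200 100 = true := by decide +kernel
theorem c5_2_393 : allR (compatChk t2 l5) 39300 100 = true := by decide +kernel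
theorem c5_2_394 : allR (compatChk t2 l5) 39400 100 = true := by decide +kernel
theorem c5_2_395 : allR (compatChk t2 l5) 39500 100 = true := by decide +kernel
theorem c5_2_396 : allR (compatChk t2 l5) 39600 100 = true := by decide +kernel
theorem c5_2_397 : allR (compatChk t2 l5) 39700 100 = true := by decide +kernel
theorem c5_2_398 : allR (compatChk t2 l5) 39800 100 = true := by decide +kernel
theorem c5_2_399 : allR (compatChk t2 l5) 39900 100 = true := by decide +kernel
theorem c5_2_400 : allR (compatChk t2 l5) 40000 100 = true := by decide +kernel
theorem c5_2_401 : allR (compatChk t2 l5) 40100 100 = true := by decide +kernel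
theorem c5_2_402 : allR (compatChk t2 l5) 40200 100 = true := by decide +kernel
theorem c5_2_403 : allR (compatChk t2 l5) 40300 100 = true := by decide +kernel
theorem c5_2_404 : allR (compatChk t2 l5) 40400 100 = true := by decide +kernel
theorem c5_2_405 : allR (compatChk t2 l5) 40500 100 = true := by decide +kernel
theorem c5_2_406 : allR (compatChk t2 l5) 40600 100 = true := by decide +kernel
theorem c5_2_407 : allR (compatChk t2 l5) 40700 100 = true := by decide +kernel
theorem c5_2_408 : allR (compatChk t2 l5) 40800 100 = true := by decide +kernel
theorem c5_2_409 : allR (compatChk t2 l5) 40900 100 = true := by decide +kernel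
theorem c5_2_410 : allR (compatChk t2 l5) 41000 100 = true := by decide +kernel
theorem c5_2_411 : allR (compatChk t2 l5) 41100 100 = true := by decide +kernel
theorem c5_2_412 : allR (compatChk t2 l5) 41200 100 = true := by decide +kernel
theorem c5_2_413 : allR (compatChk t2 l5) 41300 100 = true := by decide +kernel
theorem c5_2_414 : allR (compatChk t2 l5) 41400 100 = true := by decide +kernel
theorem c5_2_415 : allR (compatChk t2 l5) 41500 100 = true := by decide +kernel
theorem c5_2_416 : allR (compatChk t2 l5) 41600 100 = true := by decide +kernel
theorem c5_2_417 : allR (compatChk t2 l5) 41700 100 = true := by decide +kernel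
theorem c5_2_418 : allR (compatChk t2 l5) 41800 100 = true := by decide +kernel
theorem c5_2_419 : allR (compatChk t2 l5) 41900 100 = true := by decide +kernel
theorem c5_2_420 : allR (compatChk t2 l5) 42000 100 = true := by decide +kernel
theorem c5_2_421 : allR (compatChk t2 l5) 42100 100 = true := by decide +kernel
theorem c5_2_422 : allR (compatChk t2 l5) 42200 100 = true := by decide +kernel
theorem c5_2_423 : allR (compatChk t2 l5) 42300 100 = true := by decide +kernel
theorem c5_2_424 : allR (compatChk t2 l5) 42400 100 = true := by decide +kernel
theorem c5_2_425 : allR (compatChk t2 l5) 42500 100 = true := by decide +kernel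
theorem c5_2_426 : allR (compatChk t2 l5) 42600 100 = true := by decide +kernel
theorem c5_2_427 : allR (compatChk t2 l5) 42700 100 = true := by decide +kernel
theorem c5_2_428 : allR (compatChk t2 l5) 42800 100 = true := by decide +kernel
theorem c5_2_429 : allR (compatChk t2 l5) 42900 100 = true := by decide +kernel
theorem c5_2_430 : allR (compatChk t2 l5) 43000 100 = true := by decide +kernel
theorem c5_2_431 : allR (compatChk t2 l5) 43100 100 = true := by decide +kernel
theorem c5_2_432 : allR (compatChk t2 l5) 43200 100 = true := by decide +kernel
theorem c5_2_433 : allR (compatChk t2 l5) 43300 100 = true := by decide +kernel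
theorem c5_2_434 : allR (compatChk t2 l5) 43400 100 = true := by decide +kernel
theorem c5_2_435 : allR (compatChk t2 l5) 43500 100 = true := by decide +kernel
theorem c5_2_436 : allR (compatChk t2 l5) 43600 80 = true := by decide +kernel

end Vale.Agent.P183L.Tab
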