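import Vale.Agent.P183L.Tab

/-! gen2 -/

namespace Vale.Agent.P183L.Tab

theorem gen2_0 : allR (genChk t2 N) 0 250 = true := by decide +kernel
theorem gen2_1 : allR (genChk t2 N) 250 250 = true := by decide +kernel
theorem gen2_2 : allR (genChk t2 N) 500 250 = true := by decide +kernel
theorem gen2_3 : allR (genChk t2 N) 750 250 = true := by decide +kernel
theorem gen2_4 : allR (genChk t2 N) 1000 250 = true := by decide +kernel
theorem gen2_5 : allR (genChk t2 N) 1250 250 = true := by decide +kernel
theorem gen2_6 : allR (genChk t2 N) 1500 250 = true := by decide +kernel
theorem gen2_7 : allR (genChk t2 N) 1750 250 = true := by decide +kernel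
theorem gen2_8 : allR (genChk t2 N) 2000 250 = true := by decide +kernel
theorem gen2_9 : allR (genChk t2 N) 2250 250 = true := by decide +kernel
theorem gen2_10 : allR (genChk t2 N) 2500 250 = true := by decide +kernel
theorem gen2_11 : allR (genChk t2 N) 2750 250 = true := by decide +kernel
theorem gen2_12 : allR (genChk t2 N) 3000 250 = true := by decide +kernel
theorem gen2_13 : allR (genChk t2 N) 3250 250 = true := by decide +kernel
theorem gen2_14 : allR (genChk t2 N) 3500 250 = true := by decide +kernel
theorem gen2_15 : allR (genChk t2 N) 3750 250 = true := by decide +kernel
theorem gen2_16 : allR (genChk t2 N) 4000 250 = true := by decide +kernel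
theorem gen2_17 : allR (genChk t2 N) 4250 250 = true := by decide +kernel
theorem gen2_18 : allR (genChk t2 N) 4500 250 = true := by decide +kernel
theorem gen2_19 : allR (genChk t2 N) 4750 250 = true := by decide +kernel
theorem gen2_20 : allR (genChk t2 N) 5000 250 = true := by decide +kernel
theorem gen2_21 : allR (genChk t2 N) 5250 250 = true := by decide +kernel
theorem gen2_22 : allR (genChk t2 N) 5500 250 = true := by decide +kernel
theorem gen2_23 : allR (genChk t2 N) 5750 250 = true := by decide +kernel
theorem gen2_24 : allR (genChk t2 N) 6000 250 = true := by decide +kernel
theorem gen2_25 : allR (genChk t2 N) 6250 250 = true := by decide +kernel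
theorem gen2_26 : allR (genChk t2 N) 6500 250 = true := by decide +kernel
theorem gen2_27 : allR (genChk t2 N) 6750 250 = true := by decide +kernel
theorem gen2_28 : allR (genChk t2 N) 7000 250 = true := by decide +kernel
theorem gen2_29 : allR (genChk t2 N) 7250 250 = true := by decide +kernel
theorem gen2_30 : allR (genChk t2 N) 7500 250 = true := by decide +kernel
theorem gen2_31 : allR (genChk t2 N) 7750 250 = true := by decide +kernel
theorem gen2_32 : allR (genChk t2 N) 8000 250 = true := by decide +kernel
theorem gen2_33 : allR (genChk t2 N) 8250 250 = true := by decide +kernel
theorem gen2_34 : allR (genChk t2 N) 8500 250 = true := by decide +kernel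
theorem gen2_35 : allR (genChk t2 N) 8750 250 = true := by decide +kernel
theorem gen2_36 : allR (genChk t2 N) 9000 250 = true := by decide +kernel
theorem gen2_37 : allR (genChk t2 N) 9250 250 = true := by decide +kernel
theorem gen2_38 : allR (genChk t2 N) 9500 250 = true := by decide +kernel
theorem gen2_39 : allR (genChk t2 N) 9750 250 = true := by decide +kernel
theorem gen2_40 : allR (genChk t2 N) 10000 250 = true := by decide +kernel
theorem gen2_41 : allR (genChk t2 N) 10250 250 = true := by decide +kernel
theorem gen2_42 : allR (genChk t2 N) 10500 250 = true := by decide +kernel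
theorem gen2_43 : allR (genChk t2 N) 10750 250 = true := by decide +kernel
theorem gen2_44 : allR (genChk t2 N) 11000 250 = true := by decide +kernel
theorem gen2_45 : allR (genChk t2 N) 11250 250 = true := by decide +kernel
theorem gen2_46 : allR (genChk t2 N) 11500 250 = true := by decide +kernel
theorem gen2_47 : allR (genChk t2 N) 11750 250 = true := by decide +kernel
theorem gen2_48 : allR (genChk t2 N) 12000 250 = true := by decide +kernel
theorem gen2_49 : allR (genChk t2 N) 12250 250 = true := by decide +kernel
theorem gen2_50 : allR (genChk t2 N) 12500 250 = true := by decide +kernel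
theorem gen2_51 : allR (genChk t2 N) 12750 250 = true := by decide +kernel
theorem gen2_52 : allR (genChk t2 N) 13000 250 = true := by decide +kernel
theorem gen2_53 : allR (genChk t2 N) 13250 250 = true := by decide +kernel
theorem gen2_54 : allR (genChk t2 N) 13500 250 = true := by decide +kernel
theorem gen2_55 : allR (genChk t2 N) 13750 250 = true := by decide +kernel
theorem gen2_56 : allR (genChk t2 N) 14000 250 = true := by decide +kernel
theorem gen2_57 : allR (genChk t2 N) 14250 250 = true := by decide +kernel
theorem gen2_58 : allR (genChk t2 N) 14500 250 = true := by decide +kernel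
theorem gen2_59 : allR (genChk t2 N) 14750 250 = true := by decide +kernel
theorem gen2_60 : allR (genChk t2 N) 15000 250 = true := by decide +kernel
theorem gen2_61 : allR (genChk t2 N) 15250 250 = true := by decide +kernel
theorem gen2_62 : allR (genChk t2 N) 15500 250 = true := by decide +kernel
theorem gen2_63 : allR (genChk t2 N) 15750 250 = true := by decide +kernel
theorem gen2_64 : allR (genChk t2 N) 16000 250 = true := by decide +kernel
theorem gen2_65 : allR (genChk t2 N) 16250 250 = true := by decide +kernel
theorem gen2_66 : allR (genChk t2 N) 16500 250 = true := by decide +kernel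
theorem gen2_67 : allR (genChk t2 N) 16750 250 = true := by decide +kernel
theorem gen2_68 : allR (genChk t2 N) 17000 250 = true := by decide +kernel
theorem gen2_69 : allR (genChk t2 N) 17250 250 = true := by decide +kernel
theorem gen2_70 : allR (genChk t2 N) 17500 250 = true := by decide +kernel
theorem gen2_71 : allR (genChk t2 N) 17750 250 = true := by decide +kernel
theorem gen2_72 : allR (genChk t2 N) 18000 250 = true := by decide +kernel
theorem gen2_73 : allR (genChk t2 N) 18250 250 = true := by decide +kernel
theorem gen2_74 : allR (genChk t2 N) 18500 250 = true := by decide +kernel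
theorem gen2_75 : allR (genChk t2 N) 18750 250 = true := by decide +kernel
theorem gen2_76 : allR (genChk t2 N) 19000 250 = true := by decide +kernel
theorem gen2_77 : allR (genChk t2 N) 19250 250 = true := by decide +kernel
theorem gen2_78 : allR (genChk t2 N) 19500 250 = true := by decide +kernel
theorem gen2_79 : allR (genChk t2 N) 19750 250 = true := by decide +kernel
theorem gen2_80 : allR (genChk t2 N) 20000 250 = true := by decide +kernel
theorem gen2_81 : allR (genChk t2 N) 20250 250 = true := by decide +kernel
theorem gen2_82 : allR (genChk t2 N) 20500 250 = true := by decide +kernel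
theorem gen2_83 : allR (genChk t2 N) 20750 250 = true := by decide +kernel
theorem gen2_84 : allR (genChk t2 N) 21000 250 = true := by decide +kernel
theorem gen2_85 : allR (genChk t2 N) 21250 250 = true := by decide +kernel
theorem gen2_86 : allR (genChk t2 N) 21500 250 = true := by decide +kernel
theorem gen2_87 : allR (genChk t2 N) 21750 250 = true := by decide +kernel
theorem gen2_88 : allR (genChk t2 N) 22000 250 = true := by decide +kernel
theorem gen2_89 : allR (genChk t2 N) 22250 250 = true := by decide +kernel
theorem gen2_90 : allR (genChk t2 N) 22500 250 = true := by decide +kernel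
theorem gen2_91 : allR (genChk t2 N) 22750 250 = true := by decide +kernel
theorem gen2_92 : allR (genChk t2 N) 23000 250 = true := by decide +kernel
theorem gen2_93 : allR (genChk t2 N) 23250 250 = true := by decide +kernel
theorem gen2_94 : allR (genChk t2 N) 23500 250 = true := by decide +kernel
theorem gen2_95 : allR (genChk t2 N) 23750 250 = true := by decide +kernel
theorem gen2_96 : allR (genChk t2 N) 24000 250 = true := by decide +kernel
theorem gen2_97 : allR (genChk t2 N) 24250 250 = true := by decide +kernel
theorem gen2_98 : allR (genChk t2 N) 24500 250 = true := by decide +kernel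
theorem gen2_99 : allR (genChk t2 N) 24750 250 = true := by decide +kernel
theorem gen2_100 : allR (genChk t2 N) 25000 250 = true := by decide +kernel
theorem gen2_101 : allR (genChk t2 N) 25250 250 = true := by decide +kernel
theorem gen2_102 : allR (genChk t2 N) 25500 250 = true := by decide +kernel
theorem gen2_103 : allR (genChk t2 N) 25750 250 = true := by decide +kernel
theorem gen2_104 : allR (genChk t2 N) 26000 250 = true := by decide +kernel
theorem gen2_105 : allR (genChk t2 N) 26250 250 = true := by decide +kernel
theorem gen2_106 : allR (genChk t2 N) 26500 250 = true := by decide +kernel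
theorem gen2_107 : allR (genChk t2 N) 26750 250 = true := by decide +kernel
theorem gen2_108 : allR (genChk t2 N) 27000 250 = true := by decide +kernel
theorem gen2_109 : allR (genChk t2 N) 27250 250 = true := by decide +kernel
theorem gen2_110 : allR (genChk t2 N) 27500 250 = true := by decide +kernel
theorem gen2_111 : allR (genChk t2 N) 27750 250 = true := by decide +kernel
theorem gen2_112 : allR (genChk t2 N) 28000 250 = true := by decide +kernel
theorem gen2_113 : allR (genChk t2 N) 28250 250 = true := by decide +kernel
theorem gen2_114 : allR (genChk t2 N) 28500 250 = true := by decide +kernel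
theorem gen2_115 : allR (genChk t2 N) 28750 250 = true := by decide +kernel
theorem gen2_116 : allR (genChk t2 N) 29000 250 = true := by decide +kernel
theorem gen2_117 : allR (genChk t2 N) 29250 250 = true := by decide +kernel
theorem gen2_118 : allR (genChk t2 N) 29500 250 = true := by decide +kernel
theorem gen2_119 : allR (genChk t2 N) 29750 250 = true := by decide +kernel
theorem gen2_120 : allR (genChk t2 N) 30000 250 = true := by decide +kernel
theorem gen2_121 : allR (genChk t2 N) 30250 250 = true := by decide +kernel
theorem gen2_122 : allR (genChk t2 N) 30500 250 = true := by decide +kernel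
theorem gen2_123 : allR (genChk t2 N) 30750 250 = true := by decide +kernel
theorem gen2_124 : allR (genChk t2 N) 31000 250 = true := by decide +kernel
theorem gen2_125 : allR (genChk t2 N) 31250 250 = true := by decide +kernel
theorem gen2_126 : allR (genChk t2 N) 31500 250 = true := by decide +kernel
theorem gen2_127 : allR (genChk t2 N) 31750 250 = true := by decide +kernel
theorem gen2_128 : allR (genChk t2 N) 32000 250 = true := by decide +kernel
theorem gen2_129 : allR (genChk t2 N) 32250 250 = true := by decide +kernel
theorem gen2_130 : allR (genChk t2 N) 32500 250 = true := by decide +kernel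
theorem gen2_131 : allR (genChk t2 N) 32750 250 = true := by decide +kernel
theorem gen2_132 : allR (genChk t2 N) 33000 250 = true := by decide +kernel
theorem gen2_133 : allR (genChk t2 N) 33250 250 = true := by decide +kernel
theorem gen2_134 : allR (genChk t2 N) 33500 250 = true := by decide +kernel
theorem gen2_135 : allR (genChk t2 N) 33750 250 = true := by decide +kernel
theorem gen2_136 : allR (genChk t2 N) 34000 250 = true := by decide +kernel
theorem gen2_137 : allR (genChk t2 N) 34250 250 = true := by decide +kernel
theorem gen2_138 : allR (genChk t2 N) 34500 250 = true := by decide +kernel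
theorem gen2_139 : allR (genChk t2 N) 34750 250 = true := by decide +kernel
theorem gen2_140 : allR (genChk t2 N) 35000 250 = true := by decide +kernel
theorem gen2_141 : allR (genChk t2 N) 35250 250 = true := by decide +kernel
theorem gen2_142 : allR (genChk t2 N) 35500 250 = true := by decide +kernel
theorem gen2_143 : allR (genChk t2 N) 35750 250 = true := by decide +kernel
theorem gen2_144 : allR (genChk t2 N) 36000 250 = true := by decide +kernel
theorem gen2_145 : allR (genChk t2 N) 36250 250 = true := by decide +kernel
theorem gen2_146 : allR (genChk t2 N) 36500 250 = true := by decide +kernel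
theorem gen2_147 : allR (genChk t2 N) 36750 250 = true := by decide +kernel
theorem gen2_148 : allR (genChk t2 N) 37000 250 = true := by decide +kernel
theorem gen2_149 : allR (genChk t2 N) 37250 250 = true := by decide +kernel
theorem gen2_150 : allR (genChk t2 N) 37500 250 = true := by decide +kernel
theorem gen2_151 : allR (genChk t2 N) 37750 250 = true := by decide +kernel
theorem gen2_152 : allR (genChk t2 N) 38000 250 = true := by decide +kernel
theorem gen2_153 : allR (genChk t2 N) 38250 250 = true := by decide +kernel
theorem gen2_154 : allR (genChk t2 N) 38500 250 = true := by decide +kernel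
theorem gen2_155 : allR (genChk t2 N) 38750 250 = true := by decide +kernel
theorem gen2_156 : allR (genChk t2 N) 39000 250 = true := by decide +kernel
theorem gen2_157 : allR (genChk t2 N) 39250 250 = true := by decide +kernel
theorem gen2_158 : allR (genChk t2 N) 39500 250 = true := by decide +kernel
theorem gen2_159 : allR (genChk t2 N) 39750 250 = true := by decide +kernel
theorem gen2_160 : allR (genChk t2 N) 40000 250 = true := by decide +kernel
theorem gen2_161 : allR (genChk t2 N) 40250 250 = true := by decide +kernel
theorem gen2_162 : allR (genChk t2 N) 40500 250 = true := by decide +kernel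
theorem gen2_163 : allR (genChk t2 N) 40750 250 = true := by decide +kernel
theorem gen2_164 : allR (genChk t2 N) 41000 250 = true := by decide +kernel
theorem gen2_165 : allR (genChk t2 N) 41250 250 = true := by decide +kernel
theorem gen2_166 : allR (genChk t2 N) 41500 250 = true := by decide +kernel
theorem gen2_167 : allR (genChk t2 N) 41750 250 = true := by decide +kernel
theorem gen2_168 : allR (genChk t2 N) 42000 250 = true := by decide +kernel
theorem gen2_169 : allR (genChk t2 N) 42250 250 = true := by decide +kernel
theorem gen2_170 : allR (genChk t2 N) 42500 250 = true := by decide +kernel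
theorem gen2_171 : allR (genChk t2 N) 42750 250 = true := by decide +kernel
theorem gen2_172 : allR (genChk t2 N) 43000 250 = true := by decide +kernel
theorem gen2_173 : allR (genChk t2 N) 43250 250 = true := by decide +kernel
theorem gen2_174 : allR (genChk t2 N) 43500 180 = true := by decide +kernel

end Vale.Agent.P183L.Tab
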