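import Vale.Agent.P183L.Tab

/-! par -/

namespace Vale.Agent.P183L.Tab

theorem par_0 : allR (parChk tt cc 3) 0 250 = true := by decide +kernel
theorem par_1 : allR (parChk tt cc 3) 250 250 = true := by decide +kernel
theorem par_2 : allR (parChk tt cc 3) 500 250 = true := by decide +kernel
theorem par_3 : allR (parChk tt cc 3) 750 250 = true := by decide +kernel
theorem par_4 : allR (parChk tt cc 3) 1000 250 = true := by decide +kernel
theorem par_5 : allR (parChk tt cc 3) 1250 250 = true := by decide +kernel
theorem par_6 : allR (parChk tt cc 3) 1500 250 = true := by decide +kernel
theorem par_7 : allR (parChk tt cc 3) 1750 250 = true := by decide +kernel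
theorem par_8 : allR (parChk tt cc 3) 2000 250 = true := by decide +kernel
theorem par_9 : allR (parChk tt cc 3) 2250 250 = true := by decide +kernel
theorem par_10 : allR (parChk tt cc 3) 2500 250 = true := by decide +kernel
theorem par_11 : allR (parChk tt cc 3) 2750 250 = true := by decide +kernel
theorem par_12 : allR (parChk tt cc 3) 3000 250 = true := by decide +kernel
theorem par_13 : allR (parChk tt cc 3) 3250 250 = true := by decide +kernel
theorem par_14 : allR (parChk tt cc 3) 3500 250 = true := by decide +kernel
theorem par_15 : allR (parChk tt cc 3) 3750 250 = true := by decide +kernel
theorem par_16 : allR (parChk tt cc 3) 4000 250 = true := by decide +kernel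
theorem par_17 : allR (parChk tt cc 3) 4250 250 = true := by decide +kernel
theorem par_18 : allR (parChk tt cc 3) 4500 250 = true := by decide +kernel
theorem par_19 : allR (parChk tt cc 3) 4750 250 = true := by decide +kernel
theorem par_20 : allR (parChk tt cc 3) 5000 250 = true := by decide +kernel
theorem par_21 : allR (parChk tt cc 3) 5250 250 = true := by decide +kernel
theorem par_22 : allR (parChk tt cc 3) 5500 250 = true := by decide +kernel
theorem par_23 : allR (parChk tt cc 3) 5750 250 = true := by decide +kernel
theorem par_24 : allR (parChk tt cc 3) 6000 250 = true := by decide +kernel
theorem par_25 : allR (parChk tt cc 3) 6250 250 = true := by decide +kernel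
theorem par_26 : allR (parChk tt cc 3) 6500 250 = true := by decide +kernel
theorem par_27 : allR (parChk tt cc 3) 6750 250 = true := by decide +kernel
theorem par_28 : allR (parChk tt cc 3) 7000 250 = true := by decide +kernel
theorem par_29 : allR (parChk tt cc 3) 7250 250 = true := by decide +kernel
theorem par_30 : allR (parChk tt cc 3) 7500 250 = true := by decide +kernel
theorem par_31 : allR (parChk tt cc 3) 7750 250 = true := by decide +kernel
theorem par_32 : allR (parChk tt cc 3) 8000 250 = true := by decide +kernel
theorem par_33 : allR (parChk tt cc 3) 8250 250 = true := by decide +kernel
theorem par_34 : allR (parChk tt cc 3) 8500 250 = true := by decide +kernel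
theorem par_35 : allR (parChk tt cc 3) 8750 250 = true := by decide +kernel
theorem par_36 : allR (parChk tt cc 3) 9000 250 = true := by decide +kernel
theorem par_37 : allR (parChk tt cc 3) 9250 250 = true := by decide +kernel
theorem par_38 : allR (parChk tt cc 3) 9500 250 = true := by decide +kernel
theorem par_39 : allR (parChk tt cc 3) 9750 250 = true := by decide +kernel
theorem par_40 : allR (parChk tt cc 3) 10000 250 = true := by decide +kernel
theorem par_41 : allR (parChk tt cc 3) 10250 250 = true := by decide +kernel
theorem par_42 : allR (parChk tt cc 3) 10500 250 = true := by decide +kernel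
theorem par_43 : allR (parChk tt cc 3) 10750 250 = true := by decide +kernel
theorem par_44 : allR (parChk tt cc 3) 11000 250 = true := by decide +kernel
theorem par_45 : allR (parChk tt cc 3) 11250 250 = true := by decide +kernel
theorem par_46 : allR (parChk tt cc 3) 11500 250 = true := by decide +kernel
theorem par_47 : allR (parChk tt cc 3) 11750 250 = true := by decide +kernel
theorem par_48 : allR (parChk tt cc 3) 12000 250 = true := by decide +kernel
theorem par_49 : allR (parChk tt cc 3) 12250 250 = true := by decide +kernel
theorem par_50 : allR (parChk tt cc 3) 12500 250 = true := by decide +kernel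
theorem par_51 : allR (parChk tt cc 3) 12750 250 = true := by decide +kernel
theorem par_52 : allR (parChk tt cc 3) 13000 250 = true := by decide +kernel
theorem par_53 : allR (parChk tt cc 3) 13250 250 = true := by decide +kernel
theorem par_54 : allR (parChk tt cc 3) 13500 250 = true := by decide +kernel
theorem par_55 : allR (parChk tt cc 3) 13750 250 = true := by decide +kernel
theorem par_56 : allR (parChk tt cc 3) 14000 250 = true := by decide +kernel
theorem par_57 : allR (parChk tt cc 3) 14250 250 = true := by decide +kernel
theorem par_58 : allR (parChk tt cc 3) 14500 250 = true := by decide +kernel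
theorem par_59 : allR (parChk tt cc 3) 14750 250 = true := by decide +kernel
theorem par_60 : allR (parChk tt cc 3) 15000 250 = true := by decide +kernel
theorem par_61 : allR (parChk tt cc 3) 15250 250 = true := by decide +kernel
theorem par_62 : allR (parChk tt cc 3) 15500 250 = true := by decide +kernel
theorem par_63 : allR (parChk tt cc 3) 15750 250 = true := by decide +kernel
theorem par_64 : allR (parChk tt cc 3) 16000 250 = true := by decide +kernel
theorem par_65 : allR (parChk tt cc 3) 16250 250 = true := by decide +kernel
theorem par_66 : allR (parChk tt cc 3) 16500 250 = true := by decide +kernel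
theorem par_67 : allR (parChk tt cc 3) 16750 250 = true := by decide +kernel
theorem par_68 : allR (parChk tt cc 3) 17000 250 = true := by decide +kernel
theorem par_69 : allR (parChk tt cc 3) 17250 250 = true := by decide +kernel
theorem par_70 : allR (parChk tt cc 3) 17500 250 = true := by decide +kernel
theorem par_71 : allR (parChk tt cc 3) 17750 250 = true := by decide +kernel
theorem par_72 : allR (parChk tt cc 3) 18000 250 = true := by decide +kernel
theorem par_73 : allR (parChk tt cc 3) 18250 250 = true := by decide +kernel
theorem par_74 : allR (parChk tt cc 3) 18500 250 = true := by decide +kernel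
theorem par_75 : allR (parChk tt cc 3) 18750 250 = true := by decide +kernel
theorem par_76 : allR (parChk tt cc 3) 19000 250 = true := by decide +kernel
theorem par_77 : allR (parChk tt cc 3) 19250 250 = true := by decide +kernel
theorem par_78 : allR (parChk tt cc 3) 19500 250 = true := by decide +kernel
theorem par_79 : allR (parChk tt cc 3) 19750 250 = true := by decide +kernel
theorem par_80 : allR (parChk tt cc 3) 20000 250 = true := by decide +kernel
theorem par_81 : allR (parChk tt cc 3) 20250 250 = true := by decide +kernel
theorem par_82 : allR (parChk tt cc 3) 20500 250 = true := by decide +kernel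
theorem par_83 : allR (parChk tt cc 3) 20750 250 = true := by decide +kernel
theorem par_84 : allR (parChk tt cc 3) 21000 250 = true := by decide +kernel
theorem par_85 : allR (parChk tt cc 3) 21250 250 = true := by decide +kernel
theorem par_86 : allR (parChk tt cc 3) 21500 250 = true := by decide +kernel
theorem par_87 : allR (parChk tt cc 3) 21750 250 = true := by decide +kernel
theorem par_88 : allR (parChk tt cc 3) 22000 250 = true := by decide +kernel
theorem par_89 : allR (parChk tt cc 3) 22250 250 = true := by decide +kernel
theorem par_90 : allR (parChk tt cc 3) 22500 250 = true := by decide +kernel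
theorem par_91 : allR (parChk tt cc 3) 22750 250 = true := by decide +kernel
theorem par_92 : allR (parChk tt cc 3) 23000 250 = true := by decide +kernel
theorem par_93 : allR (parChk tt cc 3) 23250 250 = true := by decide +kernel
theorem par_94 : allR (parChk tt cc 3) 23500 250 = true := by decide +kernel
theorem par_95 : allR (parChk tt cc 3) 23750 250 = true := by decide +kernel
theorem par_96 : allR (parChk tt cc 3) 24000 250 = true := by decide +kernel
theorem par_97 : allR (parChk tt cc 3) 24250 250 = true := by decide +kernel
theorem par_98 : allR (parChk tt cc 3) 24500 250 = true := by decide +kernel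
theorem par_99 : allR (parChk tt cc 3) 24750 250 = true := by decide +kernel
theorem par_100 : allR (parChk tt cc 3) 25000 250 = true := by decide +kernel
theorem par_101 : allR (parChk tt cc 3) 25250 250 = true := by decide +kernel
theorem par_102 : allR (parChk tt cc 3) 25500 250 = true := by decide +kernel
theorem par_103 : allR (parChk tt cc 3) 25750 250 = true := by decide +kernel
theorem par_104 : allR (parChk tt cc 3) 26000 250 = true := by decide +kernel
theorem par_105 : allR (parChk tt cc 3) 26250 250 = true := by decide +kernel
theorem par_106 : allR (parChk tt cc 3) 26500 250 = true := by decide +kernel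
theorem par_107 : allR (parChk tt cc 3) 26750 250 = true := by decide +kernel
theorem par_108 : allR (parChk tt cc 3) 27000 250 = true := by decide +kernel
theorem par_109 : allR (parChk tt cc 3) 27250 250 = true := by decide +kernel
theorem par_110 : allR (parChk tt cc 3) 27500 250 = true := by decide +kernel
theorem par_111 : allR (parChk tt cc 3) 27750 250 = true := by decide +kernel
theorem par_112 : allR (parChk tt cc 3) 28000 250 = true := by decide +kernel
theorem par_113 : allR (parChk tt cc 3) 28250 250 = true := by decide +kernel
theorem par_114 : allR (parChk tt cc 3) 28500 250 = true := by decide +kernel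
theorem par_115 : allR (parChk tt cc 3) 28750 250 = true := by decide +kernel
theorem par_116 : allR (parChk tt cc 3) 29000 250 = true := by decide +kernel
theorem par_117 : allR (parChk tt cc 3) 29250 250 = true := by decide +kernel
theorem par_118 : allR (parChk tt cc 3) 29500 250 = true := by decide +kernel
theorem par_119 : allR (parChk tt cc 3) 29750 250 = true := by decide +kernel
theorem par_120 : allR (parChk tt cc 3) 30000 250 = true := by decide +kernel
theorem par_121 : allR (parChk tt cc 3) 30250 250 = true := by decide +kernel
theorem par_122 : allR (parChk tt cc 3) 30500 250 = true := by decide +kernel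
theorem par_123 : allR (parChk tt cc 3) 30750 250 = true := by decide +kernel
theorem par_124 : allR (parChk tt cc 3) 31000 250 = true := by decide +kernel
theorem par_125 : allR (parChk tt cc 3) 31250 250 = true := by decide +kernel
theorem par_126 : allR (parChk tt cc 3) 31500 250 = true := by decide +kernel
theorem par_127 : allR (parChk tt cc 3) 31750 250 = true := by decide +kernel
theorem par_128 : allR (parChk tt cc 3) 32000 250 = true := by decide +kernel
theorem par_129 : allR (parChk tt cc 3) 32250 250 = true := by decide +kernel
theorem par_130 : allR (parChk tt cc 3) 32500 250 = true := by decide +kernel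
theorem par_131 : allR (parChk tt cc 3) 32750 250 = true := by decide +kernel
theorem par_132 : allR (parChk tt cc 3) 33000 250 = true := by decide +kernel
theorem par_133 : allR (parChk tt cc 3) 33250 250 = true := by decide +kernel
theorem par_134 : allR (parChk tt cc 3) 33500 250 = true := by decide +kernel
theorem par_135 : allR (parChk tt cc 3) 33750 250 = true := by decide +kernel
theorem par_136 : allR (parChk tt cc 3) 34000 250 = true := by decide +kernel
theorem par_137 : allR (parChk tt cc 3) 34250 250 = true := by decide +kernel
theorem par_138 : allR (parChk tt cc 3) 34500 250 = true := by decide +kernel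
theorem par_139 : allR (parChk tt cc 3) 34750 250 = true := by decide +kernel
theorem par_140 : allR (parChk tt cc 3) 35000 250 = true := by decide +kernel
theorem par_141 : allR (parChk tt cc 3) 35250 250 = true := by decide +kernel
theorem par_142 : allR (parChk tt cc 3) 35500 250 = true := by decide +kernel
theorem par_143 : allR (parChk tt cc 3) 35750 250 = true := by decide +kernel
theorem par_144 : allR (parChk tt cc 3) 36000 250 = true := by decide +kernel
theorem par_145 : allR (parChk tt cc 3) 36250 250 = true := by decide +kernel
theorem par_146 : allR (parChk tt cc 3) 36500 250 = true := by decide +kernel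
theorem par_147 : allR (parChk tt cc 3) 36750 250 = true := by decide +kernel
theorem par_148 : allR (parChk tt cc 3) 37000 250 = true := by decide +kernel
theorem par_149 : allR (parChk tt cc 3) 37250 250 = true := by decide +kernel
theorem par_150 : allR (parChk tt cc 3) 37500 250 = true := by decide +kernel
theorem par_151 : allR (parChk tt cc 3) 37750 250 = true := by decide +kernel
theorem par_152 : allR (parChk tt cc 3) 38000 250 = true := by decide +kernel
theorem par_153 : allR (parChk tt cc 3) 38250 250 = true := by decide +kernel
theorem par_154 : allR (parChk tt cc 3) 38500 250 = true := by decide +kernel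
theorem par_155 : allR (parChk tt cc 3) 38750 250 = true := by decide +kernel
theorem par_156 : allR (parChk tt cc 3) 39000 250 = true := by decide +kernel
theorem par_157 : allR (parChk tt cc 3) 39250 250 = true := by decide +kernel
theorem par_158 : allR (parChk tt cc 3) 39500 250 = true := by decide +kernel
theorem par_159 : allR (parChk tt cc 3) 39750 250 = true := by decide +kernel
theorem par_160 : allR (parChk tt cc 3) 40000 250 = true := by decide +kernel
theorem par_161 : allR (parChk tt cc 3) 40250 250 = true := by decide +kernel
theorem par_162 : allR (parChk tt cc 3) 40500 250 = true := by decide +kernel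
theorem par_163 : allR (parChk tt cc 3) 40750 250 = true := by decide +kernel
theorem par_164 : allR (parChk tt cc 3) 41000 250 = true := by decide +kernel
theorem par_165 : allR (parChk tt cc 3) 41250 250 = true := by decide +kernel
theorem par_166 : allR (parChk tt cc 3) 41500 250 = true := by decide +kernel
theorem par_167 : allR (parChk tt cc 3) 41750 250 = true := by decide +kernel
theorem par_168 : allR (parChk tt cc 3) 42000 250 = true := by decide +kernel
theorem par_169 : allR (parChk tt cc 3) 42250 250 = true := by decide +kernel
theorem par_170 : allR (parChk tt cc 3) 42500 250 = true := by decide +kernel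
theorem par_171 : allR (parChk tt cc 3) 42750 250 = true := by decide +kernel
theorem par_172 : allR (parChk tt cc 3) 43000 250 = true := by decide +kernel
theorem par_173 : allR (parChk tt cc 3) 43250 250 = true := by decide +kernel
theorem par_174 : allR (parChk tt cc 3) 43500 180 = true := by decide +kernel

end Vale.Agent.P183L.Tab
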