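import Vale.Agent.P183L.Tab

/-! r0 -/

namespace Vale.Agent.P183L.Tab

theorem r0_0 : allR (rChk l0 (leK 0)) 0 250 = true := by decide +kernel
theorem r0_1 : allR (rChk l0 (leK 0)) 250 250 = true := by decide +kernel
theorem r0_2 : allR (rChk l0 (leK 0)) 500 250 = true := by decide +kernel
theorem r0_3 : allR (rChk l0 (leK 0)) 750 250 = true := by decide +kernel
theorem r0_4 : allR (rChk l0 (leK 0)) 1000 250 = true := by decide +kernel
theorem r0_5 : allR (rChk l0 (leK 0)) 1250 250 = true := by decide +kernel
theorem r0_6 : allR (rChk l0 (leK 0)) 1500 250 = true := by decide +kernel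
theorem r0_7 : allR (rChk l0 (leK 0)) 1750 250 = true := by decide +kernel
theorem r0_8 : allR (rChk l0 (leK 0)) 2000 250 = true := by decide +kernel
theorem r0_9 : allR (rChk l0 (leK 0)) 2250 250 = true := by decide +kernel
theorem r0_10 : allR (rChk l0 (leK 0)) 2500 250 = true := by decide +kernel
theorem r0_11 : allR (rChk l0 (leK 0)) 2750 250 = true := by decide +kernel
theorem r0_12 : allR (rChk l0 (leK 0)) 3000 250 = true := by decide +kernel
theorem r0_13 : allR (rChk l0 (leK 0)) 3250 250 = true := by decide +kernel
theorem r0_14 : allR (rChk l0 (leK 0)) 3500 250 = true := by decide +kernel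
theorem r0_15 : allR (rChk l0 (leK 0)) 3750 250 = true := by decide +kernel
theorem r0_16 : allR (rChk l0 (leK 0)) 4000 250 = true := by decide +kernel
theorem r0_17 : allR (rChk l0 (leK 0)) 4250 250 = true := by decide +kernel
theorem r0_18 : allR (rChk l0 (leK 0)) 4500 250 = true := by decide +kernel
theorem r0_19 : allR (rChk l0 (leK 0)) 4750 250 = true := by decide +kernel
theorem r0_20 : allR (rChk l0 (leK 0)) 5000 250 = true := by decide +kernel
theorem r0_21 : allR (rChk l0 (leK 0)) 5250 250 = true := by decide +kernel
theorem r0_22 : allR (rChk l0 (leK 0)) 5500 250 = true := by decide +kernel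
theorem r0_23 : allR (rChk l0 (leK 0)) 5750 250 = true := by decide +kernel
theorem r0_24 : allR (rChk l0 (leK 0)) 6000 250 = true := by decide +kernel
theorem r0_25 : allR (rChk l0 (leK 0)) 6250 250 = true := by decide +kernel
theorem r0_26 : allR (rChk l0 (leK 0)) 6500 250 = true := by decide +kernel
theorem r0_27 : allR (rChk l0 (leK 0)) 6750 250 = true := by decide +kernel
theorem r0_28 : allR (rChk l0 (leK 0)) 7000 250 = true := by decide +kernel
theorem r0_29 : allR (rChk l0 (leK 0)) 7250 250 = true := by decide +kernel
theorem r0_30 : allR (rChk l0 (leK 0)) 7500 250 = true := by decide +kernel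
theorem r0_31 : allR (rChk l0 (leK 0)) 7750 250 = true := by decide +kernel
theorem r0_32 : allR (rChk l0 (leK 0)) 8000 250 = true := by decide +kernel
theorem r0_33 : allR (rChk l0 (leK 0)) 8250 250 = true := by decide +kernel
theorem r0_34 : allR (rChk l0 (leK 0)) 8500 250 = true := by decide +kernel
theorem r0_35 : allR (rChk l0 (leK 0)) 8750 250 = true := by decide +kernel
theorem r0_36 : allR (rChk l0 (leK 0)) 9000 250 = true := by decide +kernel
theorem r0_37 : allR (rChk l0 (leK 0)) 9250 250 = true := by decide +kernel
theorem r0_38 : allR (rChk l0 (leK 0)) 9500 250 = true := by decide +kernel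
theorem r0_39 : allR (rChk l0 (leK 0)) 9750 250 = true := by decide +kernel
theorem r0_40 : allR (rChk l0 (leK 0)) 10000 250 = true := by decide +kernel
theorem r0_41 : allR (rChk l0 (leK 0)) 10250 250 = true := by decide +kernel
theorem r0_42 : allR (rChk l0 (leK 0)) 10500 250 = true := by decide +kernel
theorem r0_43 : allR (rChk l0 (leK 0)) 10750 250 = true := by decide +kernel
theorem r0_44 : allR (rChk l0 (leK 0)) 11000 250 = true := by decide +kernel
theorem r0_45 : allR (rChk l0 (leK 0)) 11250 250 = true := by decide +kernel
theorem r0_46 : allR (rChk l0 (leK 0)) 11500 250 = true := by decide +kernel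
theorem r0_47 : allR (rChk l0 (leK 0)) 11750 250 = true := by decide +kernel
theorem r0_48 : allR (rChk l0 (leK 0)) 12000 250 = true := by decide +kernel
theorem r0_49 : allR (rChk l0 (leK 0)) 12250 250 = true := by decide +kernel
theorem r0_50 : allR (rChk l0 (leK 0)) 12500 250 = true := by decide +kernel
theorem r0_51 : allR (rChk l0 (leK 0)) 12750 250 = true := by decide +kernel
theorem r0_52 : allR (rChk l0 (leK 0)) 13000 250 = true := by decide +kernel
theorem r0_53 : allR (rChk l0 (leK 0)) 13250 250 = true := by decide +kernel
theorem r0_54 : allR (rChk l0 (leK 0)) 13500 250 = true := by decide +kernel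
theorem r0_55 : allR (rChk l0 (leK 0)) 13750 250 = true := by decide +kernel
theorem r0_56 : allR (rChk l0 (leK 0)) 14000 250 = true := by decide +kernel
theorem r0_57 : allR (rChk l0 (leK 0)) 14250 250 = true := by decide +kernel
theorem r0_58 : allR (rChk l0 (leK 0)) 14500 250 = true := by decide +kernel
theorem r0_59 : allR (rChk l0 (leK 0)) 14750 250 = true := by decide +kernel
theorem r0_60 : allR (rChk l0 (leK 0)) 15000 250 = true := by decide +kernel
theorem r0_61 : allR (rChk l0 (leK 0)) 15250 250 = true := by decide +kernel
theorem r0_62 : allR (rChk l0 (leK 0)) 15500 250 = true := by decide +kernel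
theorem r0_63 : allR (rChk l0 (leK 0)) 15750 250 = true := by decide +kernel
theorem r0_64 : allR (rChk l0 (leK 0)) 16000 250 = true := by decide +kernel
theorem r0_65 : allR (rChk l0 (leK 0)) 16250 250 = true := by decide +kernel
theorem r0_66 : allR (rChk l0 (leK 0)) 16500 250 = true := by decide +kernel
theorem r0_67 : allR (rChk l0 (leK 0)) 16750 250 = true := by decide +kernel
theorem r0_68 : allR (rChk l0 (leK 0)) 17000 250 = true := by decide +kernel
theorem r0_69 : allR (rChk l0 (leK 0)) 17250 250 = true := by decide +kernel
theorem r0_70 : allR (rChk l0 (leK 0)) 17500 250 = true := by decide +kernel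
theorem r0_71 : allR (rChk l0 (leK 0)) 17750 250 = true := by decide +kernel
theorem r0_72 : allR (rChk l0 (leK 0)) 18000 250 = true := by decide +kernel
theorem r0_73 : allR (rChk l0 (leK 0)) 18250 250 = true := by decide +kernel
theorem r0_74 : allR (rChk l0 (leK 0)) 18500 250 = true := by decide +kernel
theorem r0_75 : allR (rChk l0 (leK 0)) 18750 250 = true := by decide +kernel
theorem r0_76 : allR (rChk l0 (leK 0)) 19000 250 = true := by decide +kernel
theorem r0_77 : allR (rChk l0 (leK 0)) 19250 250 = true := by decide +kernel
theorem r0_78 : allR (rChk l0 (leK 0)) 19500 250 = true := by decide +kernel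
theorem r0_79 : allR (rChk l0 (leK 0)) 19750 250 = true := by decide +kernel
theorem r0_80 : allR (rChk l0 (leK 0)) 20000 250 = true := by decide +kernel
theorem r0_81 : allR (rChk l0 (leK 0)) 20250 250 = true := by decide +kernel
theorem r0_82 : allR (rChk l0 (leK 0)) 20500 250 = true := by decide +kernel
theorem r0_83 : allR (rChk l0 (leK 0)) 20750 250 = true := by decide +kernel
theorem r0_84 : allR (rChk l0 (leK 0)) 21000 250 = true := by decide +kernel
theorem r0_85 : allR (rChk l0 (leK 0)) 21250 250 = true := by decide +kernel
theorem r0_86 : allR (rChk l0 (leK 0)) 21500 250 = true := by decide +kernel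
theorem r0_87 : allR (rChk l0 (leK 0)) 21750 250 = true := by decide +kernel
theorem r0_88 : allR (rChk l0 (leK 0)) 22000 250 = true := by decide +kernel
theorem r0_89 : allR (rChk l0 (leK 0)) 22250 250 = true := by decide +kernel
theorem r0_90 : allR (rChk l0 (leK 0)) 22500 250 = true := by decide +kernel
theorem r0_91 : allR (rChk l0 (leK 0)) 22750 250 = true := by decide +kernel
theorem r0_92 : allR (rChk l0 (leK 0)) 23000 250 = true := by decide +kernel
theorem r0_93 : allR (rChk l0 (leK 0)) 23250 250 = true := by decide +kernel
theorem r0_94 : allR (rChk l0 (leK 0)) 23500 250 = true := by decide +kernel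
theorem r0_95 : allR (rChk l0 (leK 0)) 23750 250 = true := by decide +kernel
theorem r0_96 : allR (rChk l0 (leK 0)) 24000 250 = true := by decide +kernel
theorem r0_97 : allR (rChk l0 (leK 0)) 24250 250 = true := by decide +kernel
theorem r0_98 : allR (rChk l0 (leK 0)) 24500 250 = true := by decide +kernel
theorem r0_99 : allR (rChk l0 (leK 0)) 24750 250 = true := by decide +kernel
theorem r0_100 : allR (rChk l0 (leK 0)) 25000 250 = true := by decide +kernel
theorem r0_101 : allR (rChk l0 (leK 0)) 25250 250 = true := by decide +kernel
theorem r0_102 : allR (rChk l0 (leK 0)) 25500 250 = true := by decide +kernel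
theorem r0_103 : allR (rChk l0 (leK 0)) 25750 250 = true := by decide +kernel
theorem r0_104 : allR (rChk l0 (leK 0)) 26000 250 = true := by decide +kernel
theorem r0_105 : allR (rChk l0 (leK 0)) 26250 250 = true := by decide +kernel
theorem r0_106 : allR (rChk l0 (leK 0)) 26500 250 = true := by decide +kernel
theorem r0_107 : allR (rChk l0 (leK 0)) 26750 250 = true := by decide +kernel
theorem r0_108 : allR (rChk l0 (leK 0)) 27000 250 = true := by decide +kernel
theorem r0_109 : allR (rChk l0 (leK 0)) 27250 250 = true := by decide +kernel
theorem r0_110 : allR (rChk l0 (leK 0)) 27500 250 = true := by decide +kernel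
theorem r0_111 : allR (rChk l0 (leK 0)) 27750 250 = true := by decide +kernel
theorem r0_112 : allR (rChk l0 (leK 0)) 28000 250 = true := by decide +kernel
theorem r0_113 : allR (rChk l0 (leK 0)) 28250 250 = true := by decide +kernel
theorem r0_114 : allR (rChk l0 (leK 0)) 28500 250 = true := by decide +kernel
theorem r0_115 : allR (rChk l0 (leK 0)) 28750 250 = true := by decide +kernel
theorem r0_116 : allR (rChk l0 (leK 0)) 29000 250 = true := by decide +kernel
theorem r0_117 : allR (rChk l0 (leK 0)) 29250 250 = true := by decide +kernel
theorem r0_118 : allR (rChk l0 (leK 0)) 29500 250 = true := by decide +kernel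
theorem r0_119 : allR (rChk l0 (leK 0)) 29750 250 = true := by decide +kernel
theorem r0_120 : allR (rChk l0 (leK 0)) 30000 250 = true := by decide +kernel
theorem r0_121 : allR (rChk l0 (leK 0)) 30250 250 = true := by decide +kernel
theorem r0_122 : allR (rChk l0 (leK 0)) 30500 250 = true := by decide +kernel
theorem r0_123 : allR (rChk l0 (leK 0)) 30750 250 = true := by decide +kernel
theorem r0_124 : allR (rChk l0 (leK 0)) 31000 250 = true := by decide +kernel
theorem r0_125 : allR (rChk l0 (leK 0)) 31250 250 = true := by decide +kernel
theorem r0_126 : allR (rChk l0 (leK 0)) 31500 250 = true := by decide +kernel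
theorem r0_127 : allR (rChk l0 (leK 0)) 31750 250 = true := by decide +kernel
theorem r0_128 : allR (rChk l0 (leK 0)) 32000 250 = true := by decide +kernel
theorem r0_129 : allR (rChk l0 (leK 0)) 32250 250 = true := by decide +kernel
theorem r0_130 : allR (rChk l0 (leK 0)) 32500 250 = true := by decide +kernel
theorem r0_131 : allR (rChk l0 (leK 0)) 32750 250 = true := by decide +kernel
theorem r0_132 : allR (rChk l0 (leK 0)) 33000 250 = true := by decide +kernel
theorem r0_133 : allR (rChk l0 (leK 0)) 33250 250 = true := by decide +kernel
theorem r0_134 : allR (rChk l0 (leK 0)) 33500 250 = true := by decide +kernel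
theorem r0_135 : allR (rChk l0 (leK 0)) 33750 250 = true := by decide +kernel
theorem r0_136 : allR (rChk l0 (leK 0)) 34000 250 = true := by decide +kernel
theorem r0_137 : allR (rChk l0 (leK 0)) 34250 250 = true := by decide +kernel
theorem r0_138 : allR (rChk l0 (leK 0)) 34500 250 = true := by decide +kernel
theorem r0_139 : allR (rChk l0 (leK 0)) 34750 250 = true := by decide +kernel
theorem r0_140 : allR (rChk l0 (leK 0)) 35000 250 = true := by decide +kernel
theorem r0_141 : allR (rChk l0 (leK 0)) 35250 250 = true := by decide +kernel
theorem r0_142 : allR (rChk l0 (leK 0)) 35500 250 = true := by decide +kernel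
theorem r0_143 : allR (rChk l0 (leK 0)) 35750 250 = true := by decide +kernel
theorem r0_144 : allR (rChk l0 (leK 0)) 36000 250 = true := by decide +kernel
theorem r0_145 : allR (rChk l0 (leK 0)) 36250 250 = true := by decide +kernel
theorem r0_146 : allR (rChk l0 (leK 0)) 36500 250 = true := by decide +kernel
theorem r0_147 : allR (rChk l0 (leK 0)) 36750 250 = true := by decide +kernel
theorem r0_148 : allR (rChk l0 (leK 0)) 37000 250 = true := by decide +kernel
theorem r0_149 : allR (rChk l0 (leK 0)) 37250 250 = true := by decide +kernel
theorem r0_150 : allR (rChk l0 (leK 0)) 37500 250 = true := by decide +kernel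
theorem r0_151 : allR (rChk l0 (leK 0)) 37750 250 = true := by decide +kernel
theorem r0_152 : allR (rChk l0 (leK 0)) 38000 250 = true := by decide +kernel
theorem r0_153 : allR (rChk l0 (leK 0)) 38250 250 = true := by decide +kernel
theorem r0_154 : allR (rChk l0 (leK 0)) 38500 250 = true := by decide +kernel
theorem r0_155 : allR (rChk l0 (leK 0)) 38750 250 = true := by decide +kernel
theorem r0_156 : allR (rChk l0 (leK 0)) 39000 250 = true := by decide +kernel
theorem r0_157 : allR (rChk l0 (leK 0)) 39250 250 = true := by decide +kernel
theorem r0_158 : allR (rChk l0 (leK 0)) 39500 250 = true := by decide +kernel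
theorem r0_159 : allR (rChk l0 (leK 0)) 39750 250 = true := by decide +kernel
theorem r0_160 : allR (rChk l0 (leK 0)) 40000 250 = true := by decide +kernel
theorem r0_161 : allR (rChk l0 (leK 0)) 40250 250 = true := by decide +kernel
theorem r0_162 : allR (rChk l0 (leK 0)) 40500 250 = true := by decide +kernel
theorem r0_163 : allR (rChk l0 (leK 0)) 40750 250 = true := by decide +kernel
theorem r0_164 : allR (rChk l0 (leK 0)) 41000 250 = true := by decide +kernel
theorem r0_165 : allR (rChk l0 (leK 0)) 41250 250 = true := by decide +kernel
theorem r0_166 : allR (rChk l0 (leK 0)) 41500 250 = true := by decide +kernel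
theorem r0_167 : allR (rChk l0 (leK 0)) 41750 250 = true := by decide +kernel
theorem r0_168 : allR (rChk l0 (leK 0)) 42000 250 = true := by decide +kernel
theorem r0_169 : allR (rChk l0 (leK 0)) 42250 250 = true := by decide +kernel
theorem r0_170 : allR (rChk l0 (leK 0)) 42500 250 = true := by decide +kernel
theorem r0_171 : allR (rChk l0 (leK 0)) 42750 250 = true := by decide +kernel
theorem r0_172 : allR (rChk l0 (leK 0)) 43000 250 = true := by decide +kernel
theorem r0_173 : allR (rChk l0 (leK 0)) 43250 250 = true := by decide +kernel
theorem r0_174 : allR (rChk l0 (leK 0)) 43500 180 = true := by decide +kernel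

end Vale.Agent.P183L.Tab
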