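import Vale.Agent.P183L.Tab

/-! r1 -/

namespace Vale.Agent.P183L.Tab

theorem r1_0 : allR (rChk l1 (leK 1)) 0 250 = true := by decide +kernel
theorem r1_1 : allR (rChk l1 (leK 1)) 250 250 = true := by decide +kernel
theorem r1_2 : allR (rChk l1 (leK 1)) 500 250 = true := by decide +kernel
theorem r1_3 : allR (rChk l1 (leK 1)) 750 250 = true := by decide +kernel
theorem r1_4 : allR (rChk l1 (leK 1)) 1000 250 = true := by decide +kernel
theorem r1_5 : allR (rChk l1 (leK 1)) 1250 250 = true := by decide +kernel
theorem r1_6 : allR (rChk l1 (leK 1)) 1500 250 = true := by decide +kernel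
theorem r1_7 : allR (rChk l1 (leK 1)) 1750 250 = true := by decide +kernel
theorem r1_8 : allR (rChk l1 (leK 1)) 2000 250 = true := by decide +kernel
theorem r1_9 : allR (rChk l1 (leK 1)) 2250 250 = true := by decide +kernel
theorem r1_10 : allR (rChk l1 (leK 1)) 2500 250 = true := by decide +kernel
theorem r1_11 : allR (rChk l1 (leK 1)) 2750 250 = true := by decide +kernel
theorem r1_12 : allR (rChk l1 (leK 1)) 3000 250 = true := by decide +kernel
theorem r1_13 : allR (rChk l1 (leK 1)) 3250 250 = true := by decide +kernel
theorem r1_14 : allR (rChk l1 (leK 1)) 3500 250 = true := by decide +kernel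
theorem r1_15 : allR (rChk l1 (leK 1)) 3750 250 = true := by decide +kernel
theorem r1_16 : allR (rChk l1 (leK 1)) 4000 250 = true := by decide +kernel
theorem r1_17 : allR (rChk l1 (leK 1)) 4250 250 = true := by decide +kernel
theorem r1_18 : allR (rChk l1 (leK 1)) 4500 250 = true := by decide +kernel
theorem r1_19 : allR (rChk l1 (leK 1)) 4750 250 = true := by decide +kernel
theorem r1_20 : allR (rChk l1 (leK 1)) 5000 250 = true := by decide +kernel
theorem r1_21 : allR (rChk l1 (leK 1)) 5250 250 = true := by decide +kernel
theorem r1_22 : allR (rChk l1 (leK 1)) 5500 250 = true := by decide +kernel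
theorem r1_23 : allR (rChk l1 (leK 1)) 5750 250 = true := by decide +kernel
theorem r1_24 : allR (rChk l1 (leK 1)) 6000 250 = true := by decide +kernel
theorem r1_25 : allR (rChk l1 (leK 1)) 6250 250 = true := by decide +kernel
theorem r1_26 : allR (rChk l1 (leK 1)) 6500 250 = true := by decide +kernel
theorem r1_27 : allR (rChk l1 (leK 1)) 6750 250 = true := by decide +kernel
theorem r1_28 : allR (rChk l1 (leK 1)) 7000 250 = true := by decide +kernel
theorem r1_29 : allR (rChk l1 (leK 1)) 7250 250 = true := by decide +kernel
theorem r1_30 : allR (rChk l1 (leK 1)) 7500 250 = true := by decide +kernel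
theorem r1_31 : allR (rChk l1 (leK 1)) 7750 250 = true := by decide +kernel
theorem r1_32 : allR (rChk l1 (leK 1)) 8000 250 = true := by decide +kernel
theorem r1_33 : allR (rChk l1 (leK 1)) 8250 250 = true := by decide +kernel
theorem r1_34 : allR (rChk l1 (leK 1)) 8500 250 = true := by decide +kernel
theorem r1_35 : allR (rChk l1 (leK 1)) 8750 250 = true := by decide +kernel
theorem r1_36 : allR (rChk l1 (leK 1)) 9000 250 = true := by decide +kernel
theorem r1_37 : allR (rChk l1 (leK 1)) 9250 250 = true := by decide +kernel
theorem r1_38 : allR (rChk l1 (leK 1)) 9500 250 = true := by decide +kernel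
theorem r1_39 : allR (rChk l1 (leK 1)) 9750 250 = true := by decide +kernel
theorem r1_40 : allR (rChk l1 (leK 1)) 10000 250 = true := by decide +kernel
theorem r1_41 : allR (rChk l1 (leK 1)) 10250 250 = true := by decide +kernel
theorem r1_42 : allR (rChk l1 (leK 1)) 10500 250 = true := by decide +kernel
theorem r1_43 : allR (rChk l1 (leK 1)) 10750 250 = true := by decide +kernel
theorem r1_44 : allR (rChk l1 (leK 1)) 11000 250 = true := by decide +kernel
theorem r1_45 : allR (rChk l1 (leK 1)) 11250 250 = true := by decide +kernel
theorem r1_46 : allR (rChk l1 (leK 1)) 11500 250 = true := by decide +kernel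
theorem r1_47 : allR (rChk l1 (leK 1)) 11750 250 = true := by decide +kernel
theorem r1_48 : allR (rChk l1 (leK 1)) 12000 250 = true := by decide +kernel
theorem r1_49 : allR (rChk l1 (leK 1)) 12250 250 = true := by decide +kernel
theorem r1_50 : allR (rChk l1 (leK 1)) 12500 250 = true := by decide +kernel
theorem r1_51 : allR (rChk l1 (leK 1)) 12750 250 = true := by decide +kernel
theorem r1_52 : allR (rChk l1 (leK 1)) 13000 250 = true := by decide +kernel
theorem r1_53 : allR (rChk l1 (leK 1)) 13250 250 = true := by decide +kernel
theorem r1_54 : allR (rChk l1 (leK 1)) 13500 250 = true := by decide +kernel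
theorem r1_55 : allR (rChk l1 (leK 1)) 13750 250 = true := by decide +kernel
theorem r1_56 : allR (rChk l1 (leK 1)) 14000 250 = true := by decide +kernel
theorem r1_57 : allR (rChk l1 (leK 1)) 14250 250 = true := by decide +kernel
theorem r1_58 : allR (rChk l1 (leK 1)) 14500 250 = true := by decide +kernel
theorem r1_59 : allR (rChk l1 (leK 1)) 14750 250 = true := by decide +kernel
theorem r1_60 : allR (rChk l1 (leK 1)) 15000 250 = true := by decide +kernel
theorem r1_61 : allR (rChk l1 (leK 1)) 15250 250 = true := by decide +kernel
theorem r1_62 : allR (rChk l1 (leK 1)) 15500 250 = true := by decide +kernel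
theorem r1_63 : allR (rChk l1 (leK 1)) 15750 250 = true := by decide +kernel
theorem r1_64 : allR (rChk l1 (leK 1)) 16000 250 = true := by decide +kernel
theorem r1_65 : allR (rChk l1 (leK 1)) 16250 250 = true := by decide +kernel
theorem r1_66 : allR (rChk l1 (leK 1)) 16500 250 = true := by decide +kernel
theorem r1_67 : allR (rChk l1 (leK 1)) 16750 250 = true := by decide +kernel
theorem r1_68 : allR (rChk l1 (leK 1)) 17000 250 = true := by decide +kernel
theorem r1_69 : allR (rChk l1 (leK 1)) 17250 250 = true := by decide +kernel
theorem r1_70 : allR (rChk l1 (leK 1)) 17500 250 = true := by decide +kernel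
theorem r1_71 : allR (rChk l1 (leK 1)) 17750 250 = true := by decide +kernel
theorem r1_72 : allR (rChk l1 (leK 1)) 18000 250 = true := by decide +kernel
theorem r1_73 : allR (rChk l1 (leK 1)) 18250 250 = true := by decide +kernel
theorem r1_74 : allR (rChk l1 (leK 1)) 18500 250 = true := by decide +kernel
theorem r1_75 : allR (rChk l1 (leK 1)) 18750 250 = true := by decide +kernel
theorem r1_76 : allR (rChk l1 (leK 1)) 19000 250 = true := by decide +kernel
theorem r1_77 : allR (rChk l1 (leK 1)) 19250 250 = true := by decide +kernel
theorem r1_78 : allR (rChk l1 (leK 1)) 19500 250 = true := by decide +kernel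
theorem r1_79 : allR (rChk l1 (leK 1)) 19750 250 = true := by decide +kernel
theorem r1_80 : allR (rChk l1 (leK 1)) 20000 250 = true := by decide +kernel
theorem r1_81 : allR (rChk l1 (leK 1)) 20250 250 = true := by decide +kernel
theorem r1_82 : allR (rChk l1 (leK 1)) 20500 250 = true := by decide +kernel
theorem r1_83 : allR (rChk l1 (leK 1)) 20750 250 = true := by decide +kernel
theorem r1_84 : allR (rChk l1 (leK 1)) 21000 250 = true := by decide +kernel
theorem r1_85 : allR (rChk l1 (leK 1)) 21250 250 = true := by decide +kernel
theorem r1_86 : allR (rChk l1 (leK 1)) 21500 250 = true := by decide +kernel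
theorem r1_87 : allR (rChk l1 (leK 1)) 21750 250 = true := by decide +kernel
theorem r1_88 : allR (rChk l1 (leK 1)) 22000 250 = true := by decide +kernel
theorem r1_89 : allR (rChk l1 (leK 1)) 22250 250 = true := by decide +kernel
theorem r1_90 : allR (rChk l1 (leK 1)) 22500 250 = true := by decide +kernel
theorem r1_91 : allR (rChk l1 (leK 1)) 22750 250 = true := by decide +kernel
theorem r1_92 : allR (rChk l1 (leK 1)) 23000 250 = true := by decide +kernel
theorem r1_93 : allR (rChk l1 (leK 1)) 23250 250 = true := by decide +kernel
theorem r1_94 : allR (rChk l1 (leK 1)) 23500 250 = true := by decide +kernel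
theorem r1_95 : allR (rChk l1 (leK 1)) 23750 250 = true := by decide +kernel
theorem r1_96 : allR (rChk l1 (leK 1)) 24000 250 = true := by decide +kernel
theorem r1_97 : allR (rChk l1 (leK 1)) 24250 250 = true := by decide +kernel
theorem r1_98 : allR (rChk l1 (leK 1)) 24500 250 = true := by decide +kernel
theorem r1_99 : allR (rChk l1 (leK 1)) 24750 250 = true := by decide +kernel
theorem r1_100 : allR (rChk l1 (leK 1)) 25000 250 = true := by decide +kernel
theorem r1_101 : allR (rChk l1 (leK 1)) 25250 250 = true := by decide +kernel
theorem r1_102 : allR (rChk l1 (leK 1)) 25500 250 = true := by decide +kernel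
theorem r1_103 : allR (rChk l1 (leK 1)) 25750 250 = true := by decide +kernel
theorem r1_104 : allR (rChk l1 (leK 1)) 26000 250 = true := by decide +kernel
theorem r1_105 : allR (rChk l1 (leK 1)) 26250 250 = true := by decide +kernel
theorem r1_106 : allR (rChk l1 (leK 1)) 26500 250 = true := by decide +kernel
theorem r1_107 : allR (rChk l1 (leK 1)) 26750 250 = true := by decide +kernel
theorem r1_108 : allR (rChk l1 (leK 1)) 27000 250 = true := by decide +kernel
theorem r1_109 : allR (rChk l1 (leK 1)) 27250 250 = true := by decide +kernel
theorem r1_110 : allR (rChk l1 (leK 1)) 27500 250 = true := by decide +kernel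
theorem r1_111 : allR (rChk l1 (leK 1)) 27750 250 = true := by decide +kernel
theorem r1_112 : allR (rChk l1 (leK 1)) 28000 250 = true := by decide +kernel
theorem r1_113 : allR (rChk l1 (leK 1)) 28250 250 = true := by decide +kernel
theorem r1_114 : allR (rChk l1 (leK 1)) 28500 250 = true := by decide +kernel
theorem r1_115 : allR (rChk l1 (leK 1)) 28750 250 = true := by decide +kernel
theorem r1_116 : allR (rChk l1 (leK 1)) 29000 250 = true := by decide +kernel
theorem r1_117 : allR (rChk l1 (leK 1)) 29250 250 = true := by decide +kernel
theorem r1_118 : allR (rChk l1 (leK 1)) 29500 250 = true := by decide +kernel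
theorem r1_119 : allR (rChk l1 (leK 1)) 29750 250 = true := by decide +kernel
theorem r1_120 : allR (rChk l1 (leK 1)) 30000 250 = true := by decide +kernel
theorem r1_121 : allR (rChk l1 (leK 1)) 30250 250 = true := by decide +kernel
theorem r1_122 : allR (rChk l1 (leK 1)) 30500 250 = true := by decide +kernel
theorem r1_123 : allR (rChk l1 (leK 1)) 30750 250 = true := by decide +kernel
theorem r1_124 : allR (rChk l1 (leK 1)) 31000 250 = true := by decide +kernel
theorem r1_125 : allR (rChk l1 (leK 1)) 31250 250 = true := by decide +kernel
theorem r1_126 : allR (rChk l1 (leK 1)) 31500 250 = true := by decide +kernel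
theorem r1_127 : allR (rChk l1 (leK 1)) 31750 250 = true := by decide +kernel
theorem r1_128 : allR (rChk l1 (leK 1)) 32000 250 = true := by decide +kernel
theorem r1_129 : allR (rChk l1 (leK 1)) 32250 250 = true := by decide +kernel
theorem r1_130 : allR (rChk l1 (leK 1)) 32500 250 = true := by decide +kernel
theorem r1_131 : allR (rChk l1 (leK 1)) 32750 250 = true := by decide +kernel
theorem r1_132 : allR (rChk l1 (leK 1)) 33000 250 = true := by decide +kernel
theorem r1_133 : allR (rChk l1 (leK 1)) 33250 250 = true := by decide +kernel
theorem r1_134 : allR (rChk l1 (leK 1)) 33500 250 = true := by decide +kernel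
theorem r1_135 : allR (rChk l1 (leK 1)) 33750 250 = true := by decide +kernel
theorem r1_136 : allR (rChk l1 (leK 1)) 34000 250 = true := by decide +kernel
theorem r1_137 : allR (rChk l1 (leK 1)) 34250 250 = true := by decide +kernel
theorem r1_138 : allR (rChk l1 (leK 1)) 34500 250 = true := by decide +kernel
theorem r1_139 : allR (rChk l1 (leK 1)) 34750 250 = true := by decide +kernel
theorem r1_140 : allR (rChk l1 (leK 1)) 35000 250 = true := by decide +kernel
theorem r1_141 : allR (rChk l1 (leK 1)) 35250 250 = true := by decide +kernel
theorem r1_142 : allR (rChk l1 (leK 1)) 35500 250 = true := by decide +kernel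
theorem r1_143 : allR (rChk l1 (leK 1)) 35750 250 = true := by decide +kernel
theorem r1_144 : allR (rChk l1 (leK 1)) 36000 250 = true := by decide +kernel
theorem r1_145 : allR (rChk l1 (leK 1)) 36250 250 = true := by decide +kernel
theorem r1_146 : allR (rChk l1 (leK 1)) 36500 250 = true := by decide +kernel
theorem r1_147 : allR (rChk l1 (leK 1)) 36750 250 = true := by decide +kernel
theorem r1_148 : allR (rChk l1 (leK 1)) 37000 250 = true := by decide +kernel
theorem r1_149 : allR (rChk l1 (leK 1)) 37250 250 = true := by decide +kernel
theorem r1_150 : allR (rChk l1 (leK 1)) 37500 250 = true := by decide +kernel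
theorem r1_151 : allR (rChk l1 (leK 1)) 37750 250 = true := by decide +kernel
theorem r1_152 : allR (rChk l1 (leK 1)) 38000 250 = true := by decide +kernel
theorem r1_153 : allR (rChk l1 (leK 1)) 38250 250 = true := by decide +kernel
theorem r1_154 : allR (rChk l1 (leK 1)) 38500 250 = true := by decide +kernel
theorem r1_155 : allR (rChk l1 (leK 1)) 38750 250 = true := by decide +kernel
theorem r1_156 : allR (rChk l1 (leK 1)) 39000 250 = true := by decide +kernel
theorem r1_157 : allR (rChk l1 (leK 1)) 39250 250 = true := by decide +kernel
theorem r1_158 : allR (rChk l1 (leK 1)) 39500 250 = true := by decide +kernel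
theorem r1_159 : allR (rChk l1 (leK 1)) 39750 250 = true := by decide +kernel
theorem r1_160 : allR (rChk l1 (leK 1)) 40000 250 = true := by decide +kernel
theorem r1_161 : allR (rChk l1 (leK 1)) 40250 250 = true := by decide +kernel
theorem r1_162 : allR (rChk l1 (leK 1)) 40500 250 = true := by decide +kernel
theorem r1_163 : allR (rChk l1 (leK 1)) 40750 250 = true := by decide +kernel
theorem r1_164 : allR (rChk l1 (leK 1)) 41000 250 = true := by decide +kernel
theorem r1_165 : allR (rChk l1 (leK 1)) 41250 250 = true := by decide +kernel
theorem r1_166 : allR (rChk l1 (leK 1)) 41500 250 = true := by decide +kernel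
theorem r1_167 : allR (rChk l1 (leK 1)) 41750 250 = true := by decide +kernel
theorem r1_168 : allR (rChk l1 (leK 1)) 42000 250 = true := by decide +kernel
theorem r1_169 : allR (rChk l1 (leK 1)) 42250 250 = true := by decide +kernel
theorem r1_170 : allR (rChk l1 (leK 1)) 42500 250 = true := by decide +kernel
theorem r1_171 : allR (rChk l1 (leK 1)) 42750 250 = true := by decide +kernel
theorem r1_172 : allR (rChk l1 (leK 1)) 43000 250 = true := by decide +kernel
theorem r1_173 : allR (rChk l1 (leK 1)) 43250 250 = true := by decide +kernel
theorem r1_174 : allR (rChk l1 (leK 1)) 43500 180 = true := by decide +kernel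

end Vale.Agent.P183L.Tab
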