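import Vale.Agent.P183L.Tab

/-! r2 -/

namespace Vale.Agent.P183L.Tab

theorem r2_0 : allR (rChk l2 (leK 2)) 0 250 = true := by decide +kernel
theorem r2_1 : allR (rChk l2 (leK 2)) 250 250 = true := by decide +kernel
theorem r2_2 : allR (rChk l2 (leK 2)) 500 250 = true := by decide +kernel
theorem r2_3 : allR (rChk l2 (leK 2)) 750 250 = true := by decide +kernel
theorem r2_4 : allR (rChk l2 (leK 2)) 1000 250 = true := by decide +kernel
theorem r2_5 : allR (rChk l2 (leK 2)) 1250 250 = true := by decide +kernel
theorem r2_6 : allR (rChk l2 (leK 2)) 1500 250 = true := by decide +kernel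
theorem r2_7 : allR (rChk l2 (leK 2)) 1750 250 = true := by decide +kernel
theorem r2_8 : allR (rChk l2 (leK 2)) 2000 250 = true := by decide +kernel
theorem r2_9 : allR (rChk l2 (leK 2)) 2250 250 = true := by decide +kernel
theorem r2_10 : allR (rChk l2 (leK 2)) 2500 250 = true := by decide +kernel
theorem r2_11 : allR (rChk l2 (leK 2)) 2750 250 = true := by decide +kernel
theorem r2_12 : allR (rChk l2 (leK 2)) 3000 250 = true := by decide +kernel
theorem r2_13 : allR (rChk l2 (leK 2)) 3250 250 = true := by decide +kernel
theorem r2_14 : allR (rChk l2 (leK 2)) 3500 250 = true := by decide +kernel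
theorem r2_15 : allR (rChk l2 (leK 2)) 3750 250 = true := by decide +kernel
theorem r2_16 : allR (rChk l2 (leK 2)) 4000 250 = true := by decide +kernel
theorem r2_17 : allR (rChk l2 (leK 2)) 4250 250 = true := by decide +kernel
theorem r2_18 : allR (rChk l2 (leK 2)) 4500 250 = true := by decide +kernel
theorem r2_19 : allR (rChk l2 (leK 2)) 4750 250 = true := by decide +kernel
theorem r2_20 : allR (rChk l2 (leK 2)) 5000 250 = true := by decide +kernel
theorem r2_21 : allR (rChk l2 (leK 2)) 5250 250 = true := by decide +kernel
theorem r2_22 : allR (rChk l2 (leK 2)) 5500 250 = true := by decide +kernel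
theorem r2_23 : allR (rChk l2 (leK 2)) 5750 250 = true := by decide +kernel
theorem r2_24 : allR (rChk l2 (leK 2)) 6000 250 = true := by decide +kernel
theorem r2_25 : allR (rChk l2 (leK 2)) 6250 250 = true := by decide +kernel
theorem r2_26 : allR (rChk l2 (leK 2)) 6500 250 = true := by decide +kernel
theorem r2_27 : allR (rChk l2 (leK 2)) 6750 250 = true := by decide +kernel
theorem r2_28 : allR (rChk l2 (leK 2)) 7000 250 = true := by decide +kernel
theorem r2_29 : allR (rChk l2 (leK 2)) 7250 250 = true := by decide +kernel
theorem r2_30 : allR (rChk l2 (leK 2)) 7500 250 = true := by decide +kernel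
theorem r2_31 : allR (rChk l2 (leK 2)) 7750 250 = true := by decide +kernel
theorem r2_32 : allR (rChk l2 (leK 2)) 8000 250 = true := by decide +kernel
theorem r2_33 : allR (rChk l2 (leK 2)) 8250 250 = true := by decide +kernel
theorem r2_34 : allR (rChk l2 (leK 2)) 8500 250 = true := by decide +kernel
theorem r2_35 : allR (rChk l2 (leK 2)) 8750 250 = true := by decide +kernel
theorem r2_36 : allR (rChk l2 (leK 2)) 9000 250 = true := by decide +kernel
theorem r2_37 : allR (rChk l2 (leK 2)) 9250 250 = true := by decide +kernel
theorem r2_38 : allR (rChk l2 (leK 2)) 9500 250 = true := by decide +kernel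
theorem r2_39 : allR (rChk l2 (leK 2)) 9750 250 = true := by decide +kernel
theorem r2_40 : allR (rChk l2 (leK 2)) 10000 250 = true := by decide +kernel
theorem r2_41 : allR (rChk l2 (leK 2)) 10250 250 = true := by decide +kernel
theorem r2_42 : allR (rChk l2 (leK 2)) 10500 250 = true := by decide +kernel
theorem r2_43 : allR (rChk l2 (leK 2)) 10750 250 = true := by decide +kernel
theorem r2_44 : allR (rChk l2 (leK 2)) 11000 250 = true := by decide +kernel
theorem r2_45 : allR (rChk l2 (leK 2)) 11250 250 = true := by decide +kernel
theorem r2_46 : allR (rChk l2 (leK 2)) 11500 250 = true := by decide +kernel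
theorem r2_47 : allR (rChk l2 (leK 2)) 11750 250 = true := by decide +kernel
theorem r2_48 : allR (rChk l2 (leK 2)) 12000 250 = true := by decide +kernel
theorem r2_49 : allR (rChk l2 (leK 2)) 12250 250 = true := by decide +kernel
theorem r2_50 : allR (rChk l2 (leK 2)) 12500 250 = true := by decide +kernel
theorem r2_51 : allR (rChk l2 (leK 2)) 12750 250 = true := by decide +kernel
theorem r2_52 : allR (rChk l2 (leK 2)) 13000 250 = true := by decide +kernel
theorem r2_53 : allR (rChk l2 (leK 2)) 13250 250 = true := by decide +kernel
theorem r2_54 : allR (rChk l2 (leK 2)) 13500 250 = true := by decide +kernel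
theorem r2_55 : allR (rChk l2 (leK 2)) 13750 250 = true := by decide +kernel
theorem r2_56 : allR (rChk l2 (leK 2)) 14000 250 = true := by decide +kernel
theorem r2_57 : allR (rChk l2 (leK 2)) 14250 250 = true := by decide +kernel
theorem r2_58 : allR (rChk l2 (leK 2)) 14500 250 = true := by decide +kernel
theorem r2_59 : allR (rChk l2 (leK 2)) 14750 250 = true := by decide +kernel
theorem r2_60 : allR (rChk l2 (leK 2)) 15000 250 = true := by decide +kernel
theorem r2_61 : allR (rChk l2 (leK 2)) 15250 250 = true := by decide +kernel
theorem r2_62 : allR (rChk l2 (leK 2)) 15500 250 = true := by decide +kernel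
theorem r2_63 : allR (rChk l2 (leK 2)) 15750 250 = true := by decide +kernel
theorem r2_64 : allR (rChk l2 (leK 2)) 16000 250 = true := by decide +kernel
theorem r2_65 : allR (rChk l2 (leK 2)) 16250 250 = true := by decide +kernel
theorem r2_66 : allR (rChk l2 (leK 2)) 16500 250 = true := by decide +kernel
theorem r2_67 : allR (rChk l2 (leK 2)) 16750 250 = true := by decide +kernel
theorem r2_68 : allR (rChk l2 (leK 2)) 17000 250 = true := by decide +kernel
theorem r2_69 : allR (rChk l2 (leK 2)) 17250 250 = true := by decide +kernel
theorem r2_70 : allR (rChk l2 (leK 2)) 17500 250 = true := by decide +kernel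
theorem r2_71 : allR (rChk l2 (leK 2)) 17750 250 = true := by decide +kernel
theorem r2_72 : allR (rChk l2 (leK 2)) 18000 250 = true := by decide +kernel
theorem r2_73 : allR (rChk l2 (leK 2)) 18250 250 = true := by decide +kernel
theorem r2_74 : allR (rChk l2 (leK 2)) 18500 250 = true := by decide +kernel
theorem r2_75 : allR (rChk l2 (leK 2)) 18750 250 = true := by decide +kernel
theorem r2_76 : allR (rChk l2 (leK 2)) 19000 250 = true := by decide +kernel
theorem r2_77 : allR (rChk l2 (leK 2)) 19250 250 = true := by decide +kernel
theorem r2_78 : allR (rChk l2 (leK 2)) 19500 250 = true := by decide +kernel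
theorem r2_79 : allR (rChk l2 (leK 2)) 19750 250 = true := by decide +kernel
theorem r2_80 : allR (rChk l2 (leK 2)) 20000 250 = true := by decide +kernel
theorem r2_81 : allR (rChk l2 (leK 2)) 20250 250 = true := by decide +kernel
theorem r2_82 : allR (rChk l2 (leK 2)) 20500 250 = true := by decide +kernel
theorem r2_83 : allR (rChk l2 (leK 2)) 20750 250 = true := by decide +kernel
theorem r2_84 : allR (rChk l2 (leK 2)) 21000 250 = true := by decide +kernel
theorem r2_85 : allR (rChk l2 (leK 2)) 21250 250 = true := by decide +kernel
theorem r2_86 : allR (rChk l2 (leK 2)) 21500 250 = true := by decide +kernel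
theorem r2_87 : allR (rChk l2 (leK 2)) 21750 250 = true := by decide +kernel
theorem r2_88 : allR (rChk l2 (leK 2)) 22000 250 = true := by decide +kernel
theorem r2_89 : allR (rChk l2 (leK 2)) 22250 250 = true := by decide +kernel
theorem r2_90 : allR (rChk l2 (leK 2)) 22500 250 = true := by decide +kernel
theorem r2_91 : allR (rChk l2 (leK 2)) 22750 250 = true := by decide +kernel
theorem r2_92 : allR (rChk l2 (leK 2)) 23000 250 = true := by decide +kernel
theorem r2_93 : allR (rChk l2 (leK 2)) 23250 250 = true := by decide +kernel
theorem r2_94 : allR (rChk l2 (leK 2)) 23500 250 = true := by decide +kernel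
theorem r2_95 : allR (rChk l2 (leK 2)) 23750 250 = true := by decide +kernel
theorem r2_96 : allR (rChk l2 (leK 2)) 24000 250 = true := by decide +kernel
theorem r2_97 : allR (rChk l2 (leK 2)) 24250 250 = true := by decide +kernel
theorem r2_98 : allR (rChk l2 (leK 2)) 24500 250 = true := by decide +kernel
theorem r2_99 : allR (rChk l2 (leK 2)) 24750 250 = true := by decide +kernel
theorem r2_100 : allR (rChk l2 (leK 2)) 25000 250 = true := by decide +kernel
theorem r2_101 : allR (rChk l2 (leK 2)) 25250 250 = true := by decide +kernel
theorem r2_102 : allR (rChk l2 (leK 2)) 25500 250 = true := by decide +kernel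
theorem r2_103 : allR (rChk l2 (leK 2)) 25750 250 = true := by decide +kernel
theorem r2_104 : allR (rChk l2 (leK 2)) 26000 250 = true := by decide +kernel
theorem r2_105 : allR (rChk l2 (leK 2)) 26250 250 = true := by decide +kernel
theorem r2_106 : allR (rChk l2 (leK 2)) 26500 250 = true := by decide +kernel
theorem r2_107 : allR (rChk l2 (leK 2)) 26750 250 = true := by decide +kernel
theorem r2_108 : allR (rChk l2 (leK 2)) 27000 250 = true := by decide +kernel
theorem r2_109 : allR (rChk l2 (leK 2)) 27250 250 = true := by decide +kernel
theorem r2_110 : allR (rChk l2 (leK 2)) 27500 250 = true := by decide +kernel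
theorem r2_111 : allR (rChk l2 (leK 2)) 27750 250 = true := by decide +kernel
theorem r2_112 : allR (rChk l2 (leK 2)) 28000 250 = true := by decide +kernel
theorem r2_113 : allR (rChk l2 (leK 2)) 28250 250 = true := by decide +kernel
theorem r2_114 : allR (rChk l2 (leK 2)) 28500 250 = true := by decide +kernel
theorem r2_115 : allR (rChk l2 (leK 2)) 28750 250 = true := by decide +kernel
theorem r2_116 : allR (rChk l2 (leK 2)) 29000 250 = true := by decide +kernel
theorem r2_117 : allR (rChk l2 (leK 2)) 29250 250 = true := by decide +kernel
theorem r2_118 : allR (rChk l2 (leK 2)) 29500 250 = true := by decide +kernel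
theorem r2_119 : allR (rChk l2 (leK 2)) 29750 250 = true := by decide +kernel
theorem r2_120 : allR (rChk l2 (leK 2)) 30000 250 = true := by decide +kernel
theorem r2_121 : allR (rChk l2 (leK 2)) 30250 250 = true := by decide +kernel
theorem r2_122 : allR (rChk l2 (leK 2)) 30500 250 = true := by decide +kernel
theorem r2_123 : allR (rChk l2 (leK 2)) 30750 250 = true := by decide +kernel
theorem r2_124 : allR (rChk l2 (leK 2)) 31000 250 = true := by decide +kernel
theorem r2_125 : allR (rChk l2 (leK 2)) 31250 250 = true := by decide +kernel
theorem r2_126 : allR (rChk l2 (leK 2)) 31500 250 = true := by decide +kernel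
theorem r2_127 : allR (rChk l2 (leK 2)) 31750 250 = true := by decide +kernel
theorem r2_128 : allR (rChk l2 (leK 2)) 32000 250 = true := by decide +kernel
theorem r2_129 : allR (rChk l2 (leK 2)) 32250 250 = true := by decide +kernel
theorem r2_130 : allR (rChk l2 (leK 2)) 32500 250 = true := by decide +kernel
theorem r2_131 : allR (rChk l2 (leK 2)) 32750 250 = true := by decide +kernel
theorem r2_132 : allR (rChk l2 (leK 2)) 33000 250 = true := by decide +kernel
theorem r2_133 : allR (rChk l2 (leK 2)) 33250 250 = true := by decide +kernel
theorem r2_134 : allR (rChk l2 (leK 2)) 33500 250 = true := by decide +kernel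
theorem r2_135 : allR (rChk l2 (leK 2)) 33750 250 = true := by decide +kernel
theorem r2_136 : allR (rChk l2 (leK 2)) 34000 250 = true := by decide +kernel
theorem r2_137 : allR (rChk l2 (leK 2)) 34250 250 = true := by decide +kernel
theorem r2_138 : allR (rChk l2 (leK 2)) 34500 250 = true := by decide +kernel
theorem r2_139 : allR (rChk l2 (leK 2)) 34750 250 = true := by decide +kernel
theorem r2_140 : allR (rChk l2 (leK 2)) 35000 250 = true := by decide +kernel
theorem r2_141 : allR (rChk l2 (leK 2)) 35250 250 = true := by decide +kernel
theorem r2_142 : allR (rChk l2 (leK 2)) 35500 250 = true := by decide +kernel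
theorem r2_143 : allR (rChk l2 (leK 2)) 35750 250 = true := by decide +kernel
theorem r2_144 : allR (rChk l2 (leK 2)) 36000 250 = true := by decide +kernel
theorem r2_145 : allR (rChk l2 (leK 2)) 36250 250 = true := by decide +kernel
theorem r2_146 : allR (rChk l2 (leK 2)) 36500 250 = true := by decide +kernel
theorem r2_147 : allR (rChk l2 (leK 2)) 36750 250 = true := by decide +kernel
theorem r2_148 : allR (rChk l2 (leK 2)) 37000 250 = true := by decide +kernel
theorem r2_149 : allR (rChk l2 (leK 2)) 37250 250 = true := by decide +kernel
theorem r2_150 : allR (rChk l2 (leK 2)) 37500 250 = true := by decide +kernel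
theorem r2_151 : allR (rChk l2 (leK 2)) 37750 250 = true := by decide +kernel
theorem r2_152 : allR (rChk l2 (leK 2)) 38000 250 = true := by decide +kernel
theorem r2_153 : allR (rChk l2 (leK 2)) 38250 250 = true := by decide +kernel
theorem r2_154 : allR (rChk l2 (leK 2)) 38500 250 = true := by decide +kernel
theorem r2_155 : allR (rChk l2 (leK 2)) 38750 250 = true := by decide +kernel
theorem r2_156 : allR (rChk l2 (leK 2)) 39000 250 = true := by decide +kernel
theorem r2_157 : allR (rChk l2 (leK 2)) 39250 250 = true := by decide +kernel
theorem r2_158 : allR (rChk l2 (leK 2)) 39500 250 = true := by decide +kernel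
theorem r2_159 : allR (rChk l2 (leK 2)) 39750 250 = true := by decide +kernel
theorem r2_160 : allR (rChk l2 (leK 2)) 40000 250 = true := by decide +kernel
theorem r2_161 : allR (rChk l2 (leK 2)) 40250 250 = true := by decide +kernel
theorem r2_162 : allR (rChk l2 (leK 2)) 40500 250 = true := by decide +kernel
theorem r2_163 : allR (rChk l2 (leK 2)) 40750 250 = true := by decide +kernel
theorem r2_164 : allR (rChk l2 (leK 2)) 41000 250 = true := by decide +kernel
theorem r2_165 : allR (rChk l2 (leK 2)) 41250 250 = true := by decide +kernel
theorem r2_166 : allR (rChk l2 (leK 2)) 41500 250 = true := by decide +kernel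
theorem r2_167 : allR (rChk l2 (leK 2)) 41750 250 = true := by decide +kernel
theorem r2_168 : allR (rChk l2 (leK 2)) 42000 250 = true := by decide +kernel
theorem r2_169 : allR (rChk l2 (leK 2)) 42250 250 = true := by decide +kernel
theorem r2_170 : allR (rChk l2 (leK 2)) 42500 250 = true := by decide +kernel
theorem r2_171 : allR (rChk l2 (leK 2)) 42750 250 = true := by decide +kernel
theorem r2_172 : allR (rChk l2 (leK 2)) 43000 250 = true := by decide +kernel
theorem r2_173 : allR (rChk l2 (leK 2)) 43250 250 = true := by decide +kernel
theorem r2_174 : allR (rChk l2 (leK 2)) 43500 180 = true := by decide +kernel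

end Vale.Agent.P183L.Tab
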