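import Vale.Agent.P183L.Tab

/-! r3 -/

namespace Vale.Agent.P183L.Tab

theorem r3_0 : allR (rChk l3 (leK 3)) 0 250 = true := by decide +kernel
theorem r3_1 : allR (rChk l3 (leK 3)) 250 250 = true := by decide +kernel
theorem r3_2 : allR (rChk l3 (leK 3)) 500 250 = true := by decide +kernel
theorem r3_3 : allR (rChk l3 (leK 3)) 750 250 = true := by decide +kernel
theorem r3_4 : allR (rChk l3 (leK 3)) 1000 250 = true := by decide +kernel
theorem r3_5 : allR (rChk l3 (leK 3)) 1250 250 = true := by decide +kernel
theorem r3_6 : allR (rChk l3 (leK 3)) 1500 250 = true := by decide +kernel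
theorem r3_7 : allR (rChk l3 (leK 3)) 1750 250 = true := by decide +kernel
theorem r3_8 : allR (rChk l3 (leK 3)) 2000 250 = true := by decide +kernel
theorem r3_9 : allR (rChk l3 (leK 3)) 2250 250 = true := by decide +kernel
theorem r3_10 : allR (rChk l3 (leK 3)) 2500 250 = true := by decide +kernel
theorem r3_11 : allR (rChk l3 (leK 3)) 2750 250 = true := by decide +kernel
theorem r3_12 : allR (rChk l3 (leK 3)) 3000 250 = true := by decide +kernel
theorem r3_13 : allR (rChk l3 (leK 3)) 3250 250 = true := by decide +kernel
theorem r3_14 : allR (rChk l3 (leK 3)) 3500 250 = true := by decide +kernel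
theorem r3_15 : allR (rChk l3 (leK 3)) 3750 250 = true := by decide +kernel
theorem r3_16 : allR (rChk l3 (leK 3)) 4000 250 = true := by decide +kernel
theorem r3_17 : allR (rChk l3 (leK 3)) 4250 250 = true := by decide +kernel
theorem r3_18 : allR (rChk l3 (leK 3)) 4500 250 = true := by decide +kernel
theorem r3_19 : allR (rChk l3 (leK 3)) 4750 250 = true := by decide +kernel
theorem r3_20 : allR (rChk l3 (leK 3)) 5000 250 = true := by decide +kernel
theorem r3_21 : allR (rChk l3 (leK 3)) 5250 250 = true := by decide +kernel
theorem r3_22 : allR (rChk l3 (leK 3)) 5500 250 = true := by decide +kernel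
theorem r3_23 : allR (rChk l3 (leK 3)) 5750 250 = true := by decide +kernel
theorem r3_24 : allR (rChk l3 (leK 3)) 6000 250 = true := by decide +kernel
theorem r3_25 : allR (rChk l3 (leK 3)) 6250 250 = true := by decide +kernel
theorem r3_26 : allR (rChk l3 (leK 3)) 6500 250 = true := by decide +kernel
theorem r3_27 : allR (rChk l3 (leK 3)) 6750 250 = true := by decide +kernel
theorem r3_28 : allR (rChk l3 (leK 3)) 7000 250 = true := by decide +kernel
theorem r3_29 : allR (rChk l3 (leK 3)) 7250 250 = true := by decide +kernel
theorem r3_30 : allR (rChk l3 (leK 3)) 7500 250 = true := by decide +kernel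
theorem r3_31 : allR (rChk l3 (leK 3)) 7750 250 = true := by decide +kernel
theorem r3_32 : allR (rChk l3 (leK 3)) 8000 250 = true := by decide +kernel
theorem r3_33 : allR (rChk l3 (leK 3)) 8250 250 = true := by decide +kernel
theorem r3_34 : allR (rChk l3 (leK 3)) 8500 250 = true := by decide +kernel
theorem r3_35 : allR (rChk l3 (leK 3)) 8750 250 = true := by decide +kernel
theorem r3_36 : allR (rChk l3 (leK 3)) 9000 250 = true := by decide +kernel
theorem r3_37 : allR (rChk l3 (leK 3)) 9250 250 = true := by decide +kernel
theorem r3_38 : allR (rChk l3 (leK 3)) 9500 250 = true := by decide +kernel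
theorem r3_39 : allR (rChk l3 (leK 3)) 9750 250 = true := by decide +kernel
theorem r3_40 : allR (rChk l3 (leK 3)) 10000 250 = true := by decide +kernel
theorem r3_41 : allR (rChk l3 (leK 3)) 10250 250 = true := by decide +kernel
theorem r3_42 : allR (rChk l3 (leK 3)) 10500 250 = true := by decide +kernel
theorem r3_43 : allR (rChk l3 (leK 3)) 10750 250 = true := by decide +kernel
theorem r3_44 : allR (rChk l3 (leK 3)) 11000 250 = true := by decide +kernel
theorem r3_45 : allR (rChk l3 (leK 3)) 11250 250 = true := by decide +kernel
theorem r3_46 : allR (rChk l3 (leK 3)) 11500 250 = true := by decide +kernel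
theorem r3_47 : allR (rChk l3 (leK 3)) 11750 250 = true := by decide +kernel
theorem r3_48 : allR (rChk l3 (leK 3)) 12000 250 = true := by decide +kernel
theorem r3_49 : allR (rChk l3 (leK 3)) 12250 250 = true := by decide +kernel
theorem r3_50 : allR (rChk l3 (leK 3)) 12500 250 = true := by decide +kernel
theorem r3_51 : allR (rChk l3 (leK 3)) 12750 250 = true := by decide +kernel
theorem r3_52 : allR (rChk l3 (leK 3)) 13000 250 = true := by decide +kernel
theorem r3_53 : allR (rChk l3 (leK 3)) 13250 250 = true := by decide +kernel
theorem r3_54 : allR (rChk l3 (leK 3)) 13500 250 = true := by decide +kernel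
theorem r3_55 : allR (rChk l3 (leK 3)) 13750 250 = true := by decide +kernel
theorem r3_56 : allR (rChk l3 (leK 3)) 14000 250 = true := by decide +kernel
theorem r3_57 : allR (rChk l3 (leK 3)) 14250 250 = true := by decide +kernel
theorem r3_58 : allR (rChk l3 (leK 3)) 14500 250 = true := by decide +kernel
theorem r3_59 : allR (rChk l3 (leK 3)) 14750 250 = true := by decide +kernel
theorem r3_60 : allR (rChk l3 (leK 3)) 15000 250 = true := by decide +kernel
theorem r3_61 : allR (rChk l3 (leK 3)) 15250 250 = true := by decide +kernel
theorem r3_62 : allR (rChk l3 (leK 3)) 15500 250 = true := by decide +kernel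
theorem r3_63 : allR (rChk l3 (leK 3)) 15750 250 = true := by decide +kernel
theorem r3_64 : allR (rChk l3 (leK 3)) 16000 250 = true := by decide +kernel
theorem r3_65 : allR (rChk l3 (leK 3)) 16250 250 = true := by decide +kernel
theorem r3_66 : allR (rChk l3 (leK 3)) 16500 250 = true := by decide +kernel
theorem r3_67 : allR (rChk l3 (leK 3)) 16750 250 = true := by decide +kernel
theorem r3_68 : allR (rChk l3 (leK 3)) 17000 250 = true := by decide +kernel
theorem r3_69 : allR (rChk l3 (leK 3)) 17250 250 = true := by decide +kernel
theorem r3_70 : allR (rChk l3 (leK 3)) 17500 250 = true := by decide +kernel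
theorem r3_71 : allR (rChk l3 (leK 3)) 17750 250 = true := by decide +kernel
theorem r3_72 : allR (rChk l3 (leK 3)) 18000 250 = true := by decide +kernel
theorem r3_73 : allR (rChk l3 (leK 3)) 18250 250 = true := by decide +kernel
theorem r3_74 : allR (rChk l3 (leK 3)) 18500 250 = true := by decide +kernel
theorem r3_75 : allR (rChk l3 (leK 3)) 18750 250 = true := by decide +kernel
theorem r3_76 : allR (rChk l3 (leK 3)) 19000 250 = true := by decide +kernel
theorem r3_77 : allR (rChk l3 (leK 3)) 19250 250 = true := by decide +kernel
theorem r3_78 : allR (rChk l3 (leK 3)) 19500 250 = true := by decide +kernel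
theorem r3_79 : allR (rChk l3 (leK 3)) 19750 250 = true := by decide +kernel
theorem r3_80 : allR (rChk l3 (leK 3)) 20000 250 = true := by decide +kernel
theorem r3_81 : allR (rChk l3 (leK 3)) 20250 250 = true := by decide +kernel
theorem r3_82 : allR (rChk l3 (leK 3)) 20500 250 = true := by decide +kernel
theorem r3_83 : allR (rChk l3 (leK 3)) 20750 250 = true := by decide +kernel
theorem r3_84 : allR (rChk l3 (leK 3)) 21000 250 = true := by decide +kernel
theorem r3_85 : allR (rChk l3 (leK 3)) 21250 250 = true := by decide +kernel
theorem r3_86 : allR (rChk l3 (leK 3)) 21500 250 = true := by decide +kernel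
theorem r3_87 : allR (rChk l3 (leK 3)) 21750 250 = true := by decide +kernel
theorem r3_88 : allR (rChk l3 (leK 3)) 22000 250 = true := by decide +kernel
theorem r3_89 : allR (rChk l3 (leK 3)) 22250 250 = true := by decide +kernel
theorem r3_90 : allR (rChk l3 (leK 3)) 22500 250 = true := by decide +kernel
theorem r3_91 : allR (rChk l3 (leK 3)) 22750 250 = true := by decide +kernel
theorem r3_92 : allR (rChk l3 (leK 3)) 23000 250 = true := by decide +kernel
theorem r3_93 : allR (rChk l3 (leK 3)) 23250 250 = true := by decide +kernel
theorem r3_94 : allR (rChk l3 (leK 3)) 23500 250 = true := by decide +kernel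
theorem r3_95 : allR (rChk l3 (leK 3)) 23750 250 = true := by decide +kernel
theorem r3_96 : allR (rChk l3 (leK 3)) 24000 250 = true := by decide +kernel
theorem r3_97 : allR (rChk l3 (leK 3)) 24250 250 = true := by decide +kernel
theorem r3_98 : allR (rChk l3 (leK 3)) 24500 250 = true := by decide +kernel
theorem r3_99 : allR (rChk l3 (leK 3)) 24750 250 = true := by decide +kernel
theorem r3_100 : allR (rChk l3 (leK 3)) 25000 250 = true := by decide +kernel
theorem r3_101 : allR (rChk l3 (leK 3)) 25250 250 = true := by decide +kernel
theorem r3_102 : allR (rChk l3 (leK 3)) 25500 250 = true := by decide +kernel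
theorem r3_103 : allR (rChk l3 (leK 3)) 25750 250 = true := by decide +kernel
theorem r3_104 : allR (rChk l3 (leK 3)) 26000 250 = true := by decide +kernel
theorem r3_105 : allR (rChk l3 (leK 3)) 26250 250 = true := by decide +kernel
theorem r3_106 : allR (rChk l3 (leK 3)) 26500 250 = true := by decide +kernel
theorem r3_107 : allR (rChk l3 (leK 3)) 26750 250 = true := by decide +kernel
theorem r3_108 : allR (rChk l3 (leK 3)) 27000 250 = true := by decide +kernel
theorem r3_109 : allR (rChk l3 (leK 3)) 27250 250 = true := by decide +kernel
theorem r3_110 : allR (rChk l3 (leK 3)) 27500 250 = true := by decide +kernel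
theorem r3_111 : allR (rChk l3 (leK 3)) 27750 250 = true := by decide +kernel
theorem r3_112 : allR (rChk l3 (leK 3)) 28000 250 = true := by decide +kernel
theorem r3_113 : allR (rChk l3 (leK 3)) 28250 250 = true := by decide +kernel
theorem r3_114 : allR (rChk l3 (leK 3)) 28500 250 = true := by decide +kernel
theorem r3_115 : allR (rChk l3 (leK 3)) 28750 250 = true := by decide +kernel
theorem r3_116 : allR (rChk l3 (leK 3)) 29000 250 = true := by decide +kernel
theorem r3_117 : allR (rChk l3 (leK 3)) 29250 250 = true := by decide +kernel
theorem r3_118 : allR (rChk l3 (leK 3)) 29500 250 = true := by decide +kernel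
theorem r3_119 : allR (rChk l3 (leK 3)) 29750 250 = true := by decide +kernel
theorem r3_120 : allR (rChk l3 (leK 3)) 30000 250 = true := by decide +kernel
theorem r3_121 : allR (rChk l3 (leK 3)) 30250 250 = true := by decide +kernel
theorem r3_122 : allR (rChk l3 (leK 3)) 30500 250 = true := by decide +kernel
theorem r3_123 : allR (rChk l3 (leK 3)) 30750 250 = true := by decide +kernel
theorem r3_124 : allR (rChk l3 (leK 3)) 31000 250 = true := by decide +kernel
theorem r3_125 : allR (rChk l3 (leK 3)) 31250 250 = true := by decide +kernel
theorem r3_126 : allR (rChk l3 (leK 3)) 31500 250 = true := by decide +kernel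
theorem r3_127 : allR (rChk l3 (leK 3)) 31750 250 = true := by decide +kernel
theorem r3_128 : allR (rChk l3 (leK 3)) 32000 250 = true := by decide +kernel
theorem r3_129 : allR (rChk l3 (leK 3)) 32250 250 = true := by decide +kernel
theorem r3_130 : allR (rChk l3 (leK 3)) 32500 250 = true := by decide +kernel
theorem r3_131 : allR (rChk l3 (leK 3)) 32750 250 = true := by decide +kernel
theorem r3_132 : allR (rChk l3 (leK 3)) 33000 250 = true := by decide +kernel
theorem r3_133 : allR (rChk l3 (leK 3)) 33250 250 = true := by decide +kernel
theorem r3_134 : allR (rChk l3 (leK 3)) 33500 250 = true := by decide +kernel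
theorem r3_135 : allR (rChk l3 (leK 3)) 33750 250 = true := by decide +kernel
theorem r3_136 : allR (rChk l3 (leK 3)) 34000 250 = true := by decide +kernel
theorem r3_137 : allR (rChk l3 (leK 3)) 34250 250 = true := by decide +kernel
theorem r3_138 : allR (rChk l3 (leK 3)) 34500 250 = true := by decide +kernel
theorem r3_139 : allR (rChk l3 (leK 3)) 34750 250 = true := by decide +kernel
theorem r3_140 : allR (rChk l3 (leK 3)) 35000 250 = true := by decide +kernel
theorem r3_141 : allR (rChk l3 (leK 3)) 35250 250 = true := by decide +kernel
theorem r3_142 : allR (rChk l3 (leK 3)) 35500 250 = true := by decide +kernel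
theorem r3_143 : allR (rChk l3 (leK 3)) 35750 250 = true := by decide +kernel
theorem r3_144 : allR (rChk l3 (leK 3)) 36000 250 = true := by decide +kernel
theorem r3_145 : allR (rChk l3 (leK 3)) 36250 250 = true := by decide +kernel
theorem r3_146 : allR (rChk l3 (leK 3)) 36500 250 = true := by decide +kernel
theorem r3_147 : allR (rChk l3 (leK 3)) 36750 250 = true := by decide +kernel
theorem r3_148 : allR (rChk l3 (leK 3)) 37000 250 = true := by decide +kernel
theorem r3_149 : allR (rChk l3 (leK 3)) 37250 250 = true := by decide +kernel
theorem r3_150 : allR (rChk l3 (leK 3)) 37500 250 = true := by decide +kernel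
theorem r3_151 : allR (rChk l3 (leK 3)) 37750 250 = true := by decide +kernel
theorem r3_152 : allR (rChk l3 (leK 3)) 38000 250 = true := by decide +kernel
theorem r3_153 : allR (rChk l3 (leK 3)) 38250 250 = true := by decide +kernel
theorem r3_154 : allR (rChk l3 (leK 3)) 38500 250 = true := by decide +kernel
theorem r3_155 : allR (rChk l3 (leK 3)) 38750 250 = true := by decide +kernel
theorem r3_156 : allR (rChk l3 (leK 3)) 39000 250 = true := by decide +kernel
theorem r3_157 : allR (rChk l3 (leK 3)) 39250 250 = true := by decide +kernel
theorem r3_158 : allR (rChk l3 (leK 3)) 39500 250 = true := by decide +kernel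
theorem r3_159 : allR (rChk l3 (leK 3)) 39750 250 = true := by decide +kernel
theorem r3_160 : allR (rChk l3 (leK 3)) 40000 250 = true := by decide +kernel
theorem r3_161 : allR (rChk l3 (leK 3)) 40250 250 = true := by decide +kernel
theorem r3_162 : allR (rChk l3 (leK 3)) 40500 250 = true := by decide +kernel
theorem r3_163 : allR (rChk l3 (leK 3)) 40750 250 = true := by decide +kernel
theorem r3_164 : allR (rChk l3 (leK 3)) 41000 250 = true := by decide +kernel
theorem r3_165 : allR (rChk l3 (leK 3)) 41250 250 = true := by decide +kernel
theorem r3_166 : allR (rChk l3 (leK 3)) 41500 250 = true := by decide +kernel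
theorem r3_167 : allR (rChk l3 (leK 3)) 41750 250 = true := by decide +kernel
theorem r3_168 : allR (rChk l3 (leK 3)) 42000 250 = true := by decide +kernel
theorem r3_169 : allR (rChk l3 (leK 3)) 42250 250 = true := by decide +kernel
theorem r3_170 : allR (rChk l3 (leK 3)) 42500 250 = true := by decide +kernel
theorem r3_171 : allR (rChk l3 (leK 3)) 42750 250 = true := by decide +kernel
theorem r3_172 : allR (rChk l3 (leK 3)) 43000 250 = true := by decide +kernel
theorem r3_173 : allR (rChk l3 (leK 3)) 43250 250 = true := by decide +kernel
theorem r3_174 : allR (rChk l3 (leK 3)) 43500 180 = true := by decide +kernel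

end Vale.Agent.P183L.Tab
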