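import Vale.Agent.P183L.Tab

/-! r4 -/

namespace Vale.Agent.P183L.Tab

theorem r4_0 : allR (rChk l4 (leK 4)) 0 250 = true := by decide +kernel
theorem r4_1 : allR (rChk l4 (leK 4)) 250 250 = true := by decide +kernel
theorem r4_2 : allR (rChk l4 (leK 4)) 500 250 = true := by decide +kernel
theorem r4_3 : allR (rChk l4 (leK 4)) 750 250 = true := by decide +kernel
theorem r4_4 : allR (rChk l4 (leK 4)) 1000 250 = true := by decide +kernel
theorem r4_5 : allR (rChk l4 (leK 4)) 1250 250 = true := by decide +kernel
theorem r4_6 : allR (rChk l4 (leK 4)) 1500 250 = true := by decide +kernel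
theorem r4_7 : allR (rChk l4 (leK 4)) 1750 250 = true := by decide +kernel
theorem r4_8 : allR (rChk l4 (leK 4)) 2000 250 = true := by decide +kernel
theorem r4_9 : allR (rChk l4 (leK 4)) 2250 250 = true := by decide +kernel
theorem r4_10 : allR (rChk l4 (leK 4)) 2500 250 = true := by decide +kernel
theorem r4_11 : allR (rChk l4 (leK 4)) 2750 250 = true := by decide +kernel
theorem r4_12 : allR (rChk l4 (leK 4)) 3000 250 = true := by decide +kernel
theorem r4_13 : allR (rChk l4 (leK 4)) 3250 250 = true := by decide +kernel
theorem r4_14 : allR (rChk l4 (leK 4)) 3500 250 = true := by decide +kernel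
theorem r4_15 : allR (rChk l4 (leK 4)) 3750 250 = true := by decide +kernel
theorem r4_16 : allR (rChk l4 (leK 4)) 4000 250 = true := by decide +kernel
theorem r4_17 : allR (rChk l4 (leK 4)) 4250 250 = true := by decide +kernel
theorem r4_18 : allR (rChk l4 (leK 4)) 4500 250 = true := by decide +kernel
theorem r4_19 : allR (rChk l4 (leK 4)) 4750 250 = true := by decide +kernel
theorem r4_20 : allR (rChk l4 (leK 4)) 5000 250 = true := by decide +kernel
theorem r4_21 : allR (rChk l4 (leK 4)) 5250 250 = true := by decide +kernel
theorem r4_22 : allR (rChk l4 (leK 4)) 5500 250 = true := by decide +kernel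
theorem r4_23 : allR (rChk l4 (leK 4)) 5750 250 = true := by decide +kernel
theorem r4_24 : allR (rChk l4 (leK 4)) 6000 250 = true := by decide +kernel
theorem r4_25 : allR (rChk l4 (leK 4)) 6250 250 = true := by decide +kernel
theorem r4_26 : allR (rChk l4 (leK 4)) 6500 250 = true := by decide +kernel
theorem r4_27 : allR (rChk l4 (leK 4)) 6750 250 = true := by decide +kernel
theorem r4_28 : allR (rChk l4 (leK 4)) 7000 250 = true := by decide +kernel
theorem r4_29 : allR (rChk l4 (leK 4)) 7250 250 = true := by decide +kernel
theorem r4_30 : allR (rChk l4 (leK 4)) 7500 250 = true := by decide +kernel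
theorem r4_31 : allR (rChk l4 (leK 4)) 7750 250 = true := by decide +kernel
theorem r4_32 : allR (rChk l4 (leK 4)) 8000 250 = true := by decide +kernel
theorem r4_33 : allR (rChk l4 (leK 4)) 8250 250 = true := by decide +kernel
theorem r4_34 : allR (rChk l4 (leK 4)) 8500 250 = true := by decide +kernel
theorem r4_35 : allR (rChk l4 (leK 4)) 8750 250 = true := by decide +kernel
theorem r4_36 : allR (rChk l4 (leK 4)) 9000 250 = true := by decide +kernel
theorem r4_37 : allR (rChk l4 (leK 4)) 9250 250 = true := by decide +kernel
theorem r4_38 : allR (rChk l4 (leK 4)) 9500 250 = true := by decide +kernel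
theorem r4_39 : allR (rChk l4 (leK 4)) 9750 250 = true := by decide +kernel
theorem r4_40 : allR (rChk l4 (leK 4)) 10000 250 = true := by decide +kernel
theorem r4_41 : allR (rChk l4 (leK 4)) 10250 250 = true := by decide +kernel
theorem r4_42 : allR (rChk l4 (leK 4)) 10500 250 = true := by decide +kernel
theorem r4_43 : allR (rChk l4 (leK 4)) 10750 250 = true := by decide +kernel
theorem r4_44 : allR (rChk l4 (leK 4)) 11000 250 = true := by decide +kernel
theorem r4_45 : allR (rChk l4 (leK 4)) 11250 250 = true := by decide +kernel
theorem r4_46 : allR (rChk l4 (leK 4)) 11500 250 = true := by decide +kernel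
theorem r4_47 : allR (rChk l4 (leK 4)) 11750 250 = true := by decide +kernel
theorem r4_48 : allR (rChk l4 (leK 4)) 12000 250 = true := by decide +kernel
theorem r4_49 : allR (rChk l4 (leK 4)) 12250 250 = true := by decide +kernel
theorem r4_50 : allR (rChk l4 (leK 4)) 12500 250 = true := by decide +kernel
theorem r4_51 : allR (rChk l4 (leK 4)) 12750 250 = true := by decide +kernel
theorem r4_52 : allR (rChk l4 (leK 4)) 13000 250 = true := by decide +kernel
theorem r4_53 : allR (rChk l4 (leK 4)) 13250 250 = true := by decide +kernel
theorem r4_54 : allR (rChk l4 (leK 4)) 13500 250 = true := by decide +kernel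
theorem r4_55 : allR (rChk l4 (leK 4)) 13750 250 = true := by decide +kernel
theorem r4_56 : allR (rChk l4 (leK 4)) 14000 250 = true := by decide +kernel
theorem r4_57 : allR (rChk l4 (leK 4)) 14250 250 = true := by decide +kernel
theorem r4_58 : allR (rChk l4 (leK 4)) 14500 250 = true := by decide +kernel
theorem r4_59 : allR (rChk l4 (leK 4)) 14750 250 = true := by decide +kernel
theorem r4_60 : allR (rChk l4 (leK 4)) 15000 250 = true := by decide +kernel
theorem r4_61 : allR (rChk l4 (leK 4)) 15250 250 = true := by decide +kernel
theorem r4_62 : allR (rChk l4 (leK 4)) 15500 250 = true := by decide +kernel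
theorem r4_63 : allR (rChk l4 (leK 4)) 15750 250 = true := by decide +kernel
theorem r4_64 : allR (rChk l4 (leK 4)) 16000 250 = true := by decide +kernel
theorem r4_65 : allR (rChk l4 (leK 4)) 16250 250 = true := by decide +kernel
theorem r4_66 : allR (rChk l4 (leK 4)) 16500 250 = true := by decide +kernel
theorem r4_67 : allR (rChk l4 (leK 4)) 16750 250 = true := by decide +kernel
theorem r4_68 : allR (rChk l4 (leK 4)) 17000 250 = true := by decide +kernel
theorem r4_69 : allR (rChk l4 (leK 4)) 17250 250 = true := by decide +kernel
theorem r4_70 : allR (rChk l4 (leK 4)) 17500 250 = true := by decide +kernel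
theorem r4_71 : allR (rChk l4 (leK 4)) 17750 250 = true := by decide +kernel
theorem r4_72 : allR (rChk l4 (leK 4)) 18000 250 = true := by decide +kernel
theorem r4_73 : allR (rChk l4 (leK 4)) 18250 250 = true := by decide +kernel
theorem r4_74 : allR (rChk l4 (leK 4)) 18500 250 = true := by decide +kernel
theorem r4_75 : allR (rChk l4 (leK 4)) 18750 250 = true := by decide +kernel
theorem r4_76 : allR (rChk l4 (leK 4)) 19000 250 = true := by decide +kernel
theorem r4_77 : allR (rChk l4 (leK 4)) 19250 250 = true := by decide +kernel
theorem r4_78 : allR (rChk l4 (leK 4)) 19500 250 = true := by decide +kernel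
theorem r4_79 : allR (rChk l4 (leK 4)) 19750 250 = true := by decide +kernel
theorem r4_80 : allR (rChk l4 (leK 4)) 20000 250 = true := by decide +kernel
theorem r4_81 : allR (rChk l4 (leK 4)) 20250 250 = true := by decide +kernel
theorem r4_82 : allR (rChk l4 (leK 4)) 20500 250 = true := by decide +kernel
theorem r4_83 : allR (rChk l4 (leK 4)) 20750 250 = true := by decide +kernel
theorem r4_84 : allR (rChk l4 (leK 4)) 21000 250 = true := by decide +kernel
theorem r4_85 : allR (rChk l4 (leK 4)) 21250 250 = true := by decide +kernel
theorem r4_86 : allR (rChk l4 (leK 4)) 21500 250 = true := by decide +kernel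
theorem r4_87 : allR (rChk l4 (leK 4)) 21750 250 = true := by decide +kernel
theorem r4_88 : allR (rChk l4 (leK 4)) 22000 250 = true := by decide +kernel
theorem r4_89 : allR (rChk l4 (leK 4)) 22250 250 = true := by decide +kernel
theorem r4_90 : allR (rChk l4 (leK 4)) 22500 250 = true := by decide +kernel
theorem r4_91 : allR (rChk l4 (leK 4)) 22750 250 = true := by decide +kernel
theorem r4_92 : allR (rChk l4 (leK 4)) 23000 250 = true := by decide +kernel
theorem r4_93 : allR (rChk l4 (leK 4)) 23250 250 = true := by decide +kernel
theorem r4_94 : allR (rChk l4 (leK 4)) 23500 250 = true := by decide +kernel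
theorem r4_95 : allR (rChk l4 (leK 4)) 23750 250 = true := by decide +kernel
theorem r4_96 : allR (rChk l4 (leK 4)) 24000 250 = true := by decide +kernel
theorem r4_97 : allR (rChk l4 (leK 4)) 24250 250 = true := by decide +kernel
theorem r4_98 : allR (rChk l4 (leK 4)) 24500 250 = true := by decide +kernel
theorem r4_99 : allR (rChk l4 (leK 4)) 24750 250 = true := by decide +kernel
theorem r4_100 : allR (rChk l4 (leK 4)) 25000 250 = true := by decide +kernel
theorem r4_101 : allR (rChk l4 (leK 4)) 25250 250 = true := by decide +kernel
theorem r4_102 : allR (rChk l4 (leK 4)) 25500 250 = true := by decide +kernel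
theorem r4_103 : allR (rChk l4 (leK 4)) 25750 250 = true := by decide +kernel
theorem r4_104 : allR (rChk l4 (leK 4)) 26000 250 = true := by decide +kernel
theorem r4_105 : allR (rChk l4 (leK 4)) 26250 250 = true := by decide +kernel
theorem r4_106 : allR (rChk l4 (leK 4)) 26500 250 = true := by decide +kernel
theorem r4_107 : allR (rChk l4 (leK 4)) 26750 250 = true := by decide +kernel
theorem r4_108 : allR (rChk l4 (leK 4)) 27000 250 = true := by decide +kernel
theorem r4_109 : allR (rChk l4 (leK 4)) 27250 250 = true := by decide +kernel
theorem r4_110 : allR (rChk l4 (leK 4)) 27500 250 = true := by decide +kernel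
theorem r4_111 : allR (rChk l4 (leK 4)) 27750 250 = true := by decide +kernel
theorem r4_112 : allR (rChk l4 (leK 4)) 28000 250 = true := by decide +kernel
theorem r4_113 : allR (rChk l4 (leK 4)) 28250 250 = true := by decide +kernel
theorem r4_114 : allR (rChk l4 (leK 4)) 28500 250 = true := by decide +kernel
theorem r4_115 : allR (rChk l4 (leK 4)) 28750 250 = true := by decide +kernel
theorem r4_116 : allR (rChk l4 (leK 4)) 29000 250 = true := by decide +kernel
theorem r4_117 : allR (rChk l4 (leK 4)) 29250 250 = true := by decide +kernel
theorem r4_118 : allR (rChk l4 (leK 4)) 29500 250 = true := by decide +kernel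
theorem r4_119 : allR (rChk l4 (leK 4)) 29750 250 = true := by decide +kernel
theorem r4_120 : allR (rChk l4 (leK 4)) 30000 250 = true := by decide +kernel
theorem r4_121 : allR (rChk l4 (leK 4)) 30250 250 = true := by decide +kernel
theorem r4_122 : allR (rChk l4 (leK 4)) 30500 250 = true := by decide +kernel
theorem r4_123 : allR (rChk l4 (leK 4)) 30750 250 = true := by decide +kernel
theorem r4_124 : allR (rChk l4 (leK 4)) 31000 250 = true := by decide +kernel
theorem r4_125 : allR (rChk l4 (leK 4)) 31250 250 = true := by decide +kernel
theorem r4_126 : allR (rChk l4 (leK 4)) 31500 250 = true := by decide +kernel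
theorem r4_127 : allR (rChk l4 (leK 4)) 31750 250 = true := by decide +kernel
theorem r4_128 : allR (rChk l4 (leK 4)) 32000 250 = true := by decide +kernel
theorem r4_129 : allR (rChk l4 (leK 4)) 32250 250 = true := by decide +kernel
theorem r4_130 : allR (rChk l4 (leK 4)) 32500 250 = true := by decide +kernel
theorem r4_131 : allR (rChk l4 (leK 4)) 32750 250 = true := by decide +kernel
theorem r4_132 : allR (rChk l4 (leK 4)) 33000 250 = true := by decide +kernel
theorem r4_133 : allR (rChk l4 (leK 4)) 33250 250 = true := by decide +kernel
theorem r4_134 : allR (rChk l4 (leK 4)) 33500 250 = true := by decide +kernel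
theorem r4_135 : allR (rChk l4 (leK 4)) 33750 250 = true := by decide +kernel
theorem r4_136 : allR (rChk l4 (leK 4)) 34000 250 = true := by decide +kernel
theorem r4_137 : allR (rChk l4 (leK 4)) 34250 250 = true := by decide +kernel
theorem r4_138 : allR (rChk l4 (leK 4)) 34500 250 = true := by decide +kernel
theorem r4_139 : allR (rChk l4 (leK 4)) 34750 250 = true := by decide +kernel
theorem r4_140 : allR (rChk l4 (leK 4)) 35000 250 = true := by decide +kernel
theorem r4_141 : allR (rChk l4 (leK 4)) 35250 250 = true := by decide +kernel
theorem r4_142 : allR (rChk l4 (leK 4)) 35500 250 = true := by decide +kernel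
theorem r4_143 : allR (rChk l4 (leK 4)) 35750 250 = true := by decide +kernel
theorem r4_144 : allR (rChk l4 (leK 4)) 36000 250 = true := by decide +kernel
theorem r4_145 : allR (rChk l4 (leK 4)) 36250 250 = true := by decide +kernel
theorem r4_146 : allR (rChk l4 (leK 4)) 36500 250 = true := by decide +kernel
theorem r4_147 : allR (rChk l4 (leK 4)) 36750 250 = true := by decide +kernel
theorem r4_148 : allR (rChk l4 (leK 4)) 37000 250 = true := by decide +kernel
theorem r4_149 : allR (rChk l4 (leK 4)) 37250 250 = true := by decide +kernel
theorem r4_150 : allR (rChk l4 (leK 4)) 37500 250 = true := by decide +kernel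
theorem r4_151 : allR (rChk l4 (leK 4)) 37750 250 = true := by decide +kernel
theorem r4_152 : allR (rChk l4 (leK 4)) 38000 250 = true := by decide +kernel
theorem r4_153 : allR (rChk l4 (leK 4)) 38250 250 = true := by decide +kernel
theorem r4_154 : allR (rChk l4 (leK 4)) 38500 250 = true := by decide +kernel
theorem r4_155 : allR (rChk l4 (leK 4)) 38750 250 = true := by decide +kernel
theorem r4_156 : allR (rChk l4 (leK 4)) 39000 250 = true := by decide +kernel
theorem r4_157 : allR (rChk l4 (leK 4)) 39250 250 = true := by decide +kernel
theorem r4_158 : allR (rChk l4 (leK 4)) 39500 250 = true := by decide +kernel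
theorem r4_159 : allR (rChk l4 (leK 4)) 39750 250 = true := by decide +kernel
theorem r4_160 : allR (rChk l4 (leK 4)) 40000 250 = true := by decide +kernel
theorem r4_161 : allR (rChk l4 (leK 4)) 40250 250 = true := by decide +kernel
theorem r4_162 : allR (rChk l4 (leK 4)) 40500 250 = true := by decide +kernel
theorem r4_163 : allR (rChk l4 (leK 4)) 40750 250 = true := by decide +kernel
theorem r4_164 : allR (rChk l4 (leK 4)) 41000 250 = true := by decide +kernel
theorem r4_165 : allR (rChk l4 (leK 4)) 41250 250 = true := by decide +kernel
theorem r4_166 : allR (rChk l4 (leK 4)) 41500 250 = true := by decide +kernel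
theorem r4_167 : allR (rChk l4 (leK 4)) 41750 250 = true := by decide +kernel
theorem r4_168 : allR (rChk l4 (leK 4)) 42000 250 = true := by decide +kernel
theorem r4_169 : allR (rChk l4 (leK 4)) 42250 250 = true := by decide +kernel
theorem r4_170 : allR (rChk l4 (leK 4)) 42500 250 = true := by decide +kernel
theorem r4_171 : allR (rChk l4 (leK 4)) 42750 250 = true := by decide +kernel
theorem r4_172 : allR (rChk l4 (leK 4)) 43000 250 = true := by decide +kernel
theorem r4_173 : allR (rChk l4 (leK 4)) 43250 250 = true := by decide +kernel
theorem r4_174 : allR (rChk l4 (leK 4)) 43500 180 = true := by decide +kernel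

end Vale.Agent.P183L.Tab
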