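import Vale.Agent.P183L.Tab

/-! r5 -/

namespace Vale.Agent.P183L.Tab

theorem r5_0 : allR (rChk l5 (leK 5)) 0 250 = true := by decide +kernel
theorem r5_1 : allR (rChk l5 (leK 5)) 250 250 = true := by decide +kernel
theorem r5_2 : allR (rChk l5 (leK 5)) 500 250 = true := by decide +kernel
theorem r5_3 : allR (rChk l5 (leK 5)) 750 250 = true := by decide +kernel
theorem r5_4 : allR (rChk l5 (leK 5)) 1000 250 = true := by decide +kernel
theorem r5_5 : allR (rChk l5 (leK 5)) 1250 250 = true := by decide +kernel
theorem r5_6 : allR (rChk l5 (leK 5)) 1500 250 = true := by decide +kernel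
theorem r5_7 : allR (rChk l5 (leK 5)) 1750 250 = true := by decide +kernel
theorem r5_8 : allR (rChk l5 (leK 5)) 2000 250 = true := by decide +kernel
theorem r5_9 : allR (rChk l5 (leK 5)) 2250 250 = true := by decide +kernel
theorem r5_10 : allR (rChk l5 (leK 5)) 2500 250 = true := by decide +kernel
theorem r5_11 : allR (rChk l5 (leK 5)) 2750 250 = true := by decide +kernel
theorem r5_12 : allR (rChk l5 (leK 5)) 3000 250 = true := by decide +kernel
theorem r5_13 : allR (rChk l5 (leK 5)) 3250 250 = true := by decide +kernel
theorem r5_14 : allR (rChk l5 (leK 5)) 3500 250 = true := by decide +kernel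
theorem r5_15 : allR (rChk l5 (leK 5)) 3750 250 = true := by decide +kernel
theorem r5_16 : allR (rChk l5 (leK 5)) 4000 250 = true := by decide +kernel
theorem r5_17 : allR (rChk l5 (leK 5)) 4250 250 = true := by decide +kernel
theorem r5_18 : allR (rChk l5 (leK 5)) 4500 250 = true := by decide +kernel
theorem r5_19 : allR (rChk l5 (leK 5)) 4750 250 = true := by decide +kernel
theorem r5_20 : allR (rChk l5 (leK 5)) 5000 250 = true := by decide +kernel
theorem r5_21 : allR (rChk l5 (leK 5)) 5250 250 = true := by decide +kernel
theorem r5_22 : allR (rChk l5 (leK 5)) 5500 250 = true := by decide +kernel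
theorem r5_23 : allR (rChk l5 (leK 5)) 5750 250 = true := by decide +kernel
theorem r5_24 : allR (rChk l5 (leK 5)) 6000 250 = true := by decide +kernel
theorem r5_25 : allR (rChk l5 (leK 5)) 6250 250 = true := by decide +kernel
theorem r5_26 : allR (rChk l5 (leK 5)) 6500 250 = true := by decide +kernel
theorem r5_27 : allR (rChk l5 (leK 5)) 6750 250 = true := by decide +kernel
theorem r5_28 : allR (rChk l5 (leK 5)) 7000 250 = true := by decide +kernel
theorem r5_29 : allR (rChk l5 (leK 5)) 7250 250 = true := by decide +kernel
theorem r5_30 : allR (rChk l5 (leK 5)) 7500 250 = true := by decide +kernel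
theorem r5_31 : allR (rChk l5 (leK 5)) 7750 250 = true := by decide +kernel
theorem r5_32 : allR (rChk l5 (leK 5)) 8000 250 = true := by decide +kernel
theorem r5_33 : allR (rChk l5 (leK 5)) 8250 250 = true := by decide +kernel
theorem r5_34 : allR (rChk l5 (leK 5)) 8500 250 = true := by decide +kernel
theorem r5_35 : allR (rChk l5 (leK 5)) 8750 250 = true := by decide +kernel
theorem r5_36 : allR (rChk l5 (leK 5)) 9000 250 = true := by decide +kernel
theorem r5_37 : allR (rChk l5 (leK 5)) 9250 250 = true := by decide +kernel
theorem r5_38 : allR (rChk l5 (leK 5)) 9500 250 = true := by decide +kernel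
theorem r5_39 : allR (rChk l5 (leK 5)) 9750 250 = true := by decide +kernel
theorem r5_40 : allR (rChk l5 (leK 5)) 10000 250 = true := by decide +kernel
theorem r5_41 : allR (rChk l5 (leK 5)) 10250 250 = true := by decide +kernel
theorem r5_42 : allR (rChk l5 (leK 5)) 10500 250 = true := by decide +kernel
theorem r5_43 : allR (rChk l5 (leK 5)) 10750 250 = true := by decide +kernel
theorem r5_44 : allR (rChk l5 (leK 5)) 11000 250 = true := by decide +kernel
theorem r5_45 : allR (rChk l5 (leK 5)) 11250 250 = true := by decide +kernel
theorem r5_46 : allR (rChk l5 (leK 5)) 11500 250 = true := by decide +kernel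
theorem r5_47 : allR (rChk l5 (leK 5)) 11750 250 = true := by decide +kernel
theorem r5_48 : allR (rChk l5 (leK 5)) 12000 250 = true := by decide +kernel
theorem r5_49 : allR (rChk l5 (leK 5)) 12250 250 = true := by decide +kernel
theorem r5_50 : allR (rChk l5 (leK 5)) 12500 250 = true := by decide +kernel
theorem r5_51 : allR (rChk l5 (leK 5)) 12750 250 = true := by decide +kernel
theorem r5_52 : allR (rChk l5 (leK 5)) 13000 250 = true := by decide +kernel
theorem r5_53 : allR (rChk l5 (leK 5)) 13250 250 = true := by decide +kernel
theorem r5_54 : allR (rChk l5 (leK 5)) 13500 250 = true := by decide +kernel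
theorem r5_55 : allR (rChk l5 (leK 5)) 13750 250 = true := by decide +kernel
theorem r5_56 : allR (rChk l5 (leK 5)) 14000 250 = true := by decide +kernel
theorem r5_57 : allR (rChk l5 (leK 5)) 14250 250 = true := by decide +kernel
theorem r5_58 : allR (rChk l5 (leK 5)) 14500 250 = true := by decide +kernel
theorem r5_59 : allR (rChk l5 (leK 5)) 14750 250 = true := by decide +kernel
theorem r5_60 : allR (rChk l5 (leK 5)) 15000 250 = true := by decide +kernel
theorem r5_61 : allR (rChk l5 (leK 5)) 15250 250 = true := by decide +kernel
theorem r5_62 : allR (rChk l5 (leK 5)) 15500 250 = true := by decide +kernel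
theorem r5_63 : allR (rChk l5 (leK 5)) 15750 250 = true := by decide +kernel
theorem r5_64 : allR (rChk l5 (leK 5)) 16000 250 = true := by decide +kernel
theorem r5_65 : allR (rChk l5 (leK 5)) 16250 250 = true := by decide +kernel
theorem r5_66 : allR (rChk l5 (leK 5)) 16500 250 = true := by decide +kernel
theorem r5_67 : allR (rChk l5 (leK 5)) 16750 250 = true := by decide +kernel
theorem r5_68 : allR (rChk l5 (leK 5)) 17000 250 = true := by decide +kernel
theorem r5_69 : allR (rChk l5 (leK 5)) 17250 250 = true := by decide +kernel
theorem r5_70 : allR (rChk l5 (leK 5)) 17500 250 = true := by decide +kernel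
theorem r5_71 : allR (rChk l5 (leK 5)) 17750 250 = true := by decide +kernel
theorem r5_72 : allR (rChk l5 (leK 5)) 18000 250 = true := by decide +kernel
theorem r5_73 : allR (rChk l5 (leK 5)) 18250 250 = true := by decide +kernel
theorem r5_74 : allR (rChk l5 (leK 5)) 18500 250 = true := by decide +kernel
theorem r5_75 : allR (rChk l5 (leK 5)) 18750 250 = true := by decide +kernel
theorem r5_76 : allR (rChk l5 (leK 5)) 19000 250 = true := by decide +kernel
theorem r5_77 : allR (rChk l5 (leK 5)) 19250 250 = true := by decide +kernel
theorem r5_78 : allR (rChk l5 (leK 5)) 19500 250 = true := by decide +kernel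
theorem r5_79 : allR (rChk l5 (leK 5)) 19750 250 = true := by decide +kernel
theorem r5_80 : allR (rChk l5 (leK 5)) 20000 250 = true := by decide +kernel
theorem r5_81 : allR (rChk l5 (leK 5)) 20250 250 = true := by decide +kernel
theorem r5_82 : allR (rChk l5 (leK 5)) 20500 250 = true := by decide +kernel
theorem r5_83 : allR (rChk l5 (leK 5)) 20750 250 = true := by decide +kernel
theorem r5_84 : allR (rChk l5 (leK 5)) 21000 250 = true := by decide +kernel
theorem r5_85 : allR (rChk l5 (leK 5)) 21250 250 = true := by decide +kernel
theorem r5_86 : allR (rChk l5 (leK 5)) 21500 250 = true := by decide +kernel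
theorem r5_87 : allR (rChk l5 (leK 5)) 21750 250 = true := by decide +kernel
theorem r5_88 : allR (rChk l5 (leK 5)) 22000 250 = true := by decide +kernel
theorem r5_89 : allR (rChk l5 (leK 5)) 22250 250 = true := by decide +kernel
theorem r5_90 : allR (rChk l5 (leK 5)) 22500 250 = true := by decide +kernel
theorem r5_91 : allR (rChk l5 (leK 5)) 22750 250 = true := by decide +kernel
theorem r5_92 : allR (rChk l5 (leK 5)) 23000 250 = true := by decide +kernel
theorem r5_93 : allR (rChk l5 (leK 5)) 23250 250 = true := by decide +kernel
theorem r5_94 : allR (rChk l5 (leK 5)) 23500 250 = true := by decide +kernel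
theorem r5_95 : allR (rChk l5 (leK 5)) 23750 250 = true := by decide +kernel
theorem r5_96 : allR (rChk l5 (leK 5)) 24000 250 = true := by decide +kernel
theorem r5_97 : allR (rChk l5 (leK 5)) 24250 250 = true := by decide +kernel
theorem r5_98 : allR (rChk l5 (leK 5)) 24500 250 = true := by decide +kernel
theorem r5_99 : allR (rChk l5 (leK 5)) 24750 250 = true := by decide +kernel
theorem r5_100 : allR (rChk l5 (leK 5)) 25000 250 = true := by decide +kernel
theorem r5_101 : allR (rChk l5 (leK 5)) 25250 250 = true := by decide +kernel
theorem r5_102 : allR (rChk l5 (leK 5)) 25500 250 = true := by decide +kernel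
theorem r5_103 : allR (rChk l5 (leK 5)) 25750 250 = true := by decide +kernel
theorem r5_104 : allR (rChk l5 (leK 5)) 26000 250 = true := by decide +kernel
theorem r5_105 : allR (rChk l5 (leK 5)) 26250 250 = true := by decide +kernel
theorem r5_106 : allR (rChk l5 (leK 5)) 26500 250 = true := by decide +kernel
theorem r5_107 : allR (rChk l5 (leK 5)) 26750 250 = true := by decide +kernel
theorem r5_108 : allR (rChk l5 (leK 5)) 27000 250 = true := by decide +kernel
theorem r5_109 : allR (rChk l5 (leK 5)) 27250 250 = true := by decide +kernel
theorem r5_110 : allR (rChk l5 (leK 5)) 27500 250 = true := by decide +kernel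
theorem r5_111 : allR (rChk l5 (leK 5)) 27750 250 = true := by decide +kernel
theorem r5_112 : allR (rChk l5 (leK 5)) 28000 250 = true := by decide +kernel
theorem r5_113 : allR (rChk l5 (leK 5)) 28250 250 = true := by decide +kernel
theorem r5_114 : allR (rChk l5 (leK 5)) 28500 250 = true := by decide +kernel
theorem r5_115 : allR (rChk l5 (leK 5)) 28750 250 = true := by decide +kernel
theorem r5_116 : allR (rChk l5 (leK 5)) 29000 250 = true := by decide +kernel
theorem r5_117 : allR (rChk l5 (leK 5)) 29250 250 = true := by decide +kernel
theorem r5_118 : allR (rChk l5 (leK 5)) 29500 250 = true := by decide +kernel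
theorem r5_119 : allR (rChk l5 (leK 5)) 29750 250 = true := by decide +kernel
theorem r5_120 : allR (rChk l5 (leK 5)) 30000 250 = true := by decide +kernel
theorem r5_121 : allR (rChk l5 (leK 5)) 30250 250 = true := by decide +kernel
theorem r5_122 : allR (rChk l5 (leK 5)) 30500 250 = true := by decide +kernel
theorem r5_123 : allR (rChk l5 (leK 5)) 30750 250 = true := by decide +kernel
theorem r5_124 : allR (rChk l5 (leK 5)) 31000 250 = true := by decide +kernel
theorem r5_125 : allR (rChk l5 (leK 5)) 31250 250 = true := by decide +kernel
theorem r5_126 : allR (rChk l5 (leK 5)) 31500 250 = true := by decide +kernel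
theorem r5_127 : allR (rChk l5 (leK 5)) 31750 250 = true := by decide +kernel
theorem r5_128 : allR (rChk l5 (leK 5)) 32000 250 = true := by decide +kernel
theorem r5_129 : allR (rChk l5 (leK 5)) 32250 250 = true := by decide +kernel
theorem r5_130 : allR (rChk l5 (leK 5)) 32500 250 = true := by decide +kernel
theorem r5_131 : allR (rChk l5 (leK 5)) 32750 250 = true := by decide +kernel
theorem r5_132 : allR (rChk l5 (leK 5)) 33000 250 = true := by decide +kernel
theorem r5_133 : allR (rChk l5 (leK 5)) 33250 250 = true := by decide +kernel
theorem r5_134 : allR (rChk l5 (leK 5)) 33500 250 = true := by decide +kernel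
theorem r5_135 : allR (rChk l5 (leK 5)) 33750 250 = true := by decide +kernel
theorem r5_136 : allR (rChk l5 (leK 5)) 34000 250 = true := by decide +kernel
theorem r5_137 : allR (rChk l5 (leK 5)) 34250 250 = true := by decide +kernel
theorem r5_138 : allR (rChk l5 (leK 5)) 34500 250 = true := by decide +kernel
theorem r5_139 : allR (rChk l5 (leK 5)) 34750 250 = true := by decide +kernel
theorem r5_140 : allR (rChk l5 (leK 5)) 35000 250 = true := by decide +kernel
theorem r5_141 : allR (rChk l5 (leK 5)) 35250 250 = true := by decide +kernel
theorem r5_142 : allR (rChk l5 (leK 5)) 35500 250 = true := by decide +kernel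
theorem r5_143 : allR (rChk l5 (leK 5)) 35750 250 = true := by decide +kernel
theorem r5_144 : allR (rChk l5 (leK 5)) 36000 250 = true := by decide +kernel
theorem r5_145 : allR (rChk l5 (leK 5)) 36250 250 = true := by decide +kernel
theorem r5_146 : allR (rChk l5 (leK 5)) 36500 250 = true := by decide +kernel
theorem r5_147 : allR (rChk l5 (leK 5)) 36750 250 = true := by decide +kernel
theorem r5_148 : allR (rChk l5 (leK 5)) 37000 250 = true := by decide +kernel
theorem r5_149 : allR (rChk l5 (leK 5)) 37250 250 = true := by decide +kernel
theorem r5_150 : allR (rChk l5 (leK 5)) 37500 250 = true := by decide +kernel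
theorem r5_151 : allR (rChk l5 (leK 5)) 37750 250 = true := by decide +kernel
theorem r5_152 : allR (rChk l5 (leK 5)) 38000 250 = true := by decide +kernel
theorem r5_153 : allR (rChk l5 (leK 5)) 38250 250 = true := by decide +kernel
theorem r5_154 : allR (rChk l5 (leK 5)) 38500 250 = true := by decide +kernel
theorem r5_155 : allR (rChk l5 (leK 5)) 38750 250 = true := by decide +kernel
theorem r5_156 : allR (rChk l5 (leK 5)) 39000 250 = true := by decide +kernel
theorem r5_157 : allR (rChk l5 (leK 5)) 39250 250 = true := by decide +kernel
theorem r5_158 : allR (rChk l5 (leK 5)) 39500 250 = true := by decide +kernel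
theorem r5_159 : allR (rChk l5 (leK 5)) 39750 250 = true := by decide +kernel
theorem r5_160 : allR (rChk l5 (leK 5)) 40000 250 = true := by decide +kernel
theorem r5_161 : allR (rChk l5 (leK 5)) 40250 250 = true := by decide +kernel
theorem r5_162 : allR (rChk l5 (leK 5)) 40500 250 = true := by decide +kernel
theorem r5_163 : allR (rChk l5 (leK 5)) 40750 250 = true := by decide +kernel
theorem r5_164 : allR (rChk l5 (leK 5)) 41000 250 = true := by decide +kernel
theorem r5_165 : allR (rChk l5 (leK 5)) 41250 250 = true := by decide +kernel
theorem r5_166 : allR (rChk l5 (leK 5)) 41500 250 = true := by decide +kernel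
theorem r5_167 : allR (rChk l5 (leK 5)) 41750 250 = true := by decide +kernel
theorem r5_168 : allR (rChk l5 (leK 5)) 42000 250 = true := by decide +kernel
theorem r5_169 : allR (rChk l5 (leK 5)) 42250 250 = true := by decide +kernel
theorem r5_170 : allR (rChk l5 (leK 5)) 42500 250 = true := by decide +kernel
theorem r5_171 : allR (rChk l5 (leK 5)) 42750 250 = true := by decide +kernel
theorem r5_172 : allR (rChk l5 (leK 5)) 43000 250 = true := by decide +kernel
theorem r5_173 : allR (rChk l5 (leK 5)) 43250 250 = true := by decide +kernel
theorem r5_174 : allR (rChk l5 (leK 5)) 43500 180 = true := by decide +kernel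

end Vale.Agent.P183L.Tab
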