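import Vale.Agent.P183L.Tab

/-! r6 -/

namespace Vale.Agent.P183L.Tab

theorem r6_0 : allR (rChk l6 (leK 6)) 0 250 = true := by decide +kernel
theorem r6_1 : allR (rChk l6 (leK 6)) 250 250 = true := by decide +kernel
theorem r6_2 : allR (rChk l6 (leK 6)) 500 250 = true := by decide +kernel
theorem r6_3 : allR (rChk l6 (leK 6)) 750 250 = true := by decide +kernel
theorem r6_4 : allR (rChk l6 (leK 6)) 1000 250 = true := by decide +kernel
theorem r6_5 : allR (rChk l6 (leK 6)) 1250 250 = true := by decide +kernel
theorem r6_6 : allR (rChk l6 (leK 6)) 1500 250 = true := by decide +kernel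
theorem r6_7 : allR (rChk l6 (leK 6)) 1750 250 = true := by decide +kernel
theorem r6_8 : allR (rChk l6 (leK 6)) 2000 250 = true := by decide +kernel
theorem r6_9 : allR (rChk l6 (leK 6)) 2250 250 = true := by decide +kernel
theorem r6_10 : allR (rChk l6 (leK 6)) 2500 250 = true := by decide +kernel
theorem r6_11 : allR (rChk l6 (leK 6)) 2750 250 = true := by decide +kernel
theorem r6_12 : allR (rChk l6 (leK 6)) 3000 250 = true := by decide +kernel
theorem r6_13 : allR (rChk l6 (leK 6)) 3250 250 = true := by decide +kernel
theorem r6_14 : allR (rChk l6 (leK 6)) 3500 250 = true := by decide +kernel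
theorem r6_15 : allR (rChk l6 (leK 6)) 3750 250 = true := by decide +kernel
theorem r6_16 : allR (rChk l6 (leK 6)) 4000 250 = true := by decide +kernel
theorem r6_17 : allR (rChk l6 (leK 6)) 4250 250 = true := by decide +kernel
theorem r6_18 : allR (rChk l6 (leK 6)) 4500 250 = true := by decide +kernel
theorem r6_19 : allR (rChk l6 (leK 6)) 4750 250 = true := by decide +kernel
theorem r6_20 : allR (rChk l6 (leK 6)) 5000 250 = true := by decide +kernel
theorem r6_21 : allR (rChk l6 (leK 6)) 5250 250 = true := by decide +kernel
theorem r6_22 : allR (rChk l6 (leK 6)) 5500 250 = true := by decide +kernel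
theorem r6_23 : allR (rChk l6 (leK 6)) 5750 250 = true := by decide +kernel
theorem r6_24 : allR (rChk l6 (leK 6)) 6000 250 = true := by decide +kernel
theorem r6_25 : allR (rChk l6 (leK 6)) 6250 250 = true := by decide +kernel
theorem r6_26 : allR (rChk l6 (leK 6)) 6500 250 = true := by decide +kernel
theorem r6_27 : allR (rChk l6 (leK 6)) 6750 250 = true := by decide +kernel
theorem r6_28 : allR (rChk l6 (leK 6)) 7000 250 = true := by decide +kernel
theorem r6_29 : allR (rChk l6 (leK 6)) 7250 250 = true := by decide +kernel
theorem r6_30 : allR (rChk l6 (leK 6)) 7500 250 = true := by decide +kernel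
theorem r6_31 : allR (rChk l6 (leK 6)) 7750 250 = true := by decide +kernel
theorem r6_32 : allR (rChk l6 (leK 6)) 8000 250 = true := by decide +kernel
theorem r6_33 : allR (rChk l6 (leK 6)) 8250 250 = true := by decide +kernel
theorem r6_34 : allR (rChk l6 (leK 6)) 8500 250 = true := by decide +kernel
theorem r6_35 : allR (rChk l6 (leK 6)) 8750 250 = true := by decide +kernel
theorem r6_36 : allR (rChk l6 (leK 6)) 9000 250 = true := by decide +kernel
theorem r6_37 : allR (rChk l6 (leK 6)) 9250 250 = true := by decide +kernel
theorem r6_38 : allR (rChk l6 (leK 6)) 9500 250 = true := by decide +kernel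
theorem r6_39 : allR (rChk l6 (leK 6)) 9750 250 = true := by decide +kernel
theorem r6_40 : allR (rChk l6 (leK 6)) 10000 250 = true := by decide +kernel
theorem r6_41 : allR (rChk l6 (leK 6)) 10250 250 = true := by decide +kernel
theorem r6_42 : allR (rChk l6 (leK 6)) 10500 250 = true := by decide +kernel
theorem r6_43 : allR (rChk l6 (leK 6)) 10750 250 = true := by decide +kernel
theorem r6_44 : allR (rChk l6 (leK 6)) 11000 250 = true := by decide +kernel
theorem r6_45 : allR (rChk l6 (leK 6)) 11250 250 = true := by decide +kernel
theorem r6_46 : allR (rChk l6 (leK 6)) 11500 250 = true := by decide +kernel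
theorem r6_47 : allR (rChk l6 (leK 6)) 11750 250 = true := by decide +kernel
theorem r6_48 : allR (rChk l6 (leK 6)) 12000 250 = true := by decide +kernel
theorem r6_49 : allR (rChk l6 (leK 6)) 12250 250 = true := by decide +kernel
theorem r6_50 : allR (rChk l6 (leK 6)) 12500 250 = true := by decide +kernel
theorem r6_51 : allR (rChk l6 (leK 6)) 12750 250 = true := by decide +kernel
theorem r6_52 : allR (rChk l6 (leK 6)) 13000 250 = true := by decide +kernel
theorem r6_53 : allR (rChk l6 (leK 6)) 13250 250 = true := by decide +kernel
theorem r6_54 : allR (rChk l6 (leK 6)) 13500 250 = true := by decide +kernel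
theorem r6_55 : allR (rChk l6 (leK 6)) 13750 250 = true := by decide +kernel
theorem r6_56 : allR (rChk l6 (leK 6)) 14000 250 = true := by decide +kernel
theorem r6_57 : allR (rChk l6 (leK 6)) 14250 250 = true := by decide +kernel
theorem r6_58 : allR (rChk l6 (leK 6)) 14500 250 = true := by decide +kernel
theorem r6_59 : allR (rChk l6 (leK 6)) 14750 250 = true := by decide +kernel
theorem r6_60 : allR (rChk l6 (leK 6)) 15000 250 = true := by decide +kernel
theorem r6_61 : allR (rChk l6 (leK 6)) 15250 250 = true := by decide +kernel
theorem r6_62 : allR (rChk l6 (leK 6)) 15500 250 = true := by decide +kernel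
theorem r6_63 : allR (rChk l6 (leK 6)) 15750 250 = true := by decide +kernel
theorem r6_64 : allR (rChk l6 (leK 6)) 16000 250 = true := by decide +kernel
theorem r6_65 : allR (rChk l6 (leK 6)) 16250 250 = true := by decide +kernel
theorem r6_66 : allR (rChk l6 (leK 6)) 16500 250 = true := by decide +kernel
theorem r6_67 : allR (rChk l6 (leK 6)) 16750 250 = true := by decide +kernel
theorem r6_68 : allR (rChk l6 (leK 6)) 17000 250 = true := by decide +kernel
theorem r6_69 : allR (rChk l6 (leK 6)) 17250 250 = true := by decide +kernel
theorem r6_70 : allR (rChk l6 (leK 6)) 17500 250 = true := by decide +kernel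
theorem r6_71 : allR (rChk l6 (leK 6)) 17750 250 = true := by decide +kernel
theorem r6_72 : allR (rChk l6 (leK 6)) 18000 250 = true := by decide +kernel
theorem r6_73 : allR (rChk l6 (leK 6)) 18250 250 = true := by decide +kernel
theorem r6_74 : allR (rChk l6 (leK 6)) 18500 250 = true := by decide +kernel
theorem r6_75 : allR (rChk l6 (leK 6)) 18750 250 = true := by decide +kernel
theorem r6_76 : allR (rChk l6 (leK 6)) 19000 250 = true := by decide +kernel
theorem r6_77 : allR (rChk l6 (leK 6)) 19250 250 = true := by decide +kernel
theorem r6_78 : allR (rChk l6 (leK 6)) 19500 250 = true := by decide +kernel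
theorem r6_79 : allR (rChk l6 (leK 6)) 19750 250 = true := by decide +kernel
theorem r6_80 : allR (rChk l6 (leK 6)) 20000 250 = true := by decide +kernel
theorem r6_81 : allR (rChk l6 (leK 6)) 20250 250 = true := by decide +kernel
theorem r6_82 : allR (rChk l6 (leK 6)) 20500 250 = true := by decide +kernel
theorem r6_83 : allR (rChk l6 (leK 6)) 20750 250 = true := by decide +kernel
theorem r6_84 : allR (rChk l6 (leK 6)) 21000 250 = true := by decide +kernel
theorem r6_85 : allR (rChk l6 (leK 6)) 21250 250 = true := by decide +kernel
theorem r6_86 : allR (rChk l6 (leK 6)) 21500 250 = true := by decide +kernel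
theorem r6_87 : allR (rChk l6 (leK 6)) 21750 250 = true := by decide +kernel
theorem r6_88 : allR (rChk l6 (leK 6)) 22000 250 = true := by decide +kernel
theorem r6_89 : allR (rChk l6 (leK 6)) 22250 250 = true := by decide +kernel
theorem r6_90 : allR (rChk l6 (leK 6)) 22500 250 = true := by decide +kernel
theorem r6_91 : allR (rChk l6 (leK 6)) 22750 250 = true := by decide +kernel
theorem r6_92 : allR (rChk l6 (leK 6)) 23000 250 = true := by decide +kernel
theorem r6_93 : allR (rChk l6 (leK 6)) 23250 250 = true := by decide +kernel
theorem r6_94 : allR (rChk l6 (leK 6)) 23500 250 = true := by decide +kernel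
theorem r6_95 : allR (rChk l6 (leK 6)) 23750 250 = true := by decide +kernel
theorem r6_96 : allR (rChk l6 (leK 6)) 24000 250 = true := by decide +kernel
theorem r6_97 : allR (rChk l6 (leK 6)) 24250 250 = true := by decide +kernel
theorem r6_98 : allR (rChk l6 (leK 6)) 24500 250 = true := by decide +kernel
theorem r6_99 : allR (rChk l6 (leK 6)) 24750 250 = true := by decide +kernel
theorem r6_100 : allR (rChk l6 (leK 6)) 25000 250 = true := by decide +kernel
theorem r6_101 : allR (rChk l6 (leK 6)) 25250 250 = true := by decide +kernel
theorem r6_102 : allR (rChk l6 (leK 6)) 25500 250 = true := by decide +kernel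
theorem r6_103 : allR (rChk l6 (leK 6)) 25750 250 = true := by decide +kernel
theorem r6_104 : allR (rChk l6 (leK 6)) 26000 250 = true := by decide +kernel
theorem r6_105 : allR (rChk l6 (leK 6)) 26250 250 = true := by decide +kernel
theorem r6_106 : allR (rChk l6 (leK 6)) 26500 250 = true := by decide +kernel
theorem r6_107 : allR (rChk l6 (leK 6)) 26750 250 = true := by decide +kernel
theorem r6_108 : allR (rChk l6 (leK 6)) 27000 250 = true := by decide +kernel
theorem r6_109 : allR (rChk l6 (leK 6)) 27250 250 = true := by decide +kernel
theorem r6_110 : allR (rChk l6 (leK 6)) 27500 250 = true := by decide +kernel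
theorem r6_111 : allR (rChk l6 (leK 6)) 27750 250 = true := by decide +kernel
theorem r6_112 : allR (rChk l6 (leK 6)) 28000 250 = true := by decide +kernel
theorem r6_113 : allR (rChk l6 (leK 6)) 28250 250 = true := by decide +kernel
theorem r6_114 : allR (rChk l6 (leK 6)) 28500 250 = true := by decide +kernel
theorem r6_115 : allR (rChk l6 (leK 6)) 28750 250 = true := by decide +kernel
theorem r6_116 : allR (rChk l6 (leK 6)) 29000 250 = true := by decide +kernel
theorem r6_117 : allR (rChk l6 (leK 6)) 29250 250 = true := by decide +kernel
theorem r6_118 : allR (rChk l6 (leK 6)) 29500 250 = true := by decide +kernel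
theorem r6_119 : allR (rChk l6 (leK 6)) 29750 250 = true := by decide +kernel
theorem r6_120 : allR (rChk l6 (leK 6)) 30000 250 = true := by decide +kernel
theorem r6_121 : allR (rChk l6 (leK 6)) 30250 250 = true := by decide +kernel
theorem r6_122 : allR (rChk l6 (leK 6)) 30500 250 = true := by decide +kernel
theorem r6_123 : allR (rChk l6 (leK 6)) 30750 250 = true := by decide +kernel
theorem r6_124 : allR (rChk l6 (leK 6)) 31000 250 = true := by decide +kernel
theorem r6_125 : allR (rChk l6 (leK 6)) 31250 250 = true := by decide +kernel
theorem r6_126 : allR (rChk l6 (leK 6)) 31500 250 = true := by decide +kernel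
theorem r6_127 : allR (rChk l6 (leK 6)) 31750 250 = true := by decide +kernel
theorem r6_128 : allR (rChk l6 (leK 6)) 32000 250 = true := by decide +kernel
theorem r6_129 : allR (rChk l6 (leK 6)) 32250 250 = true := by decide +kernel
theorem r6_130 : allR (rChk l6 (leK 6)) 32500 250 = true := by decide +kernel
theorem r6_131 : allR (rChk l6 (leK 6)) 32750 250 = true := by decide +kernel
theorem r6_132 : allR (rChk l6 (leK 6)) 33000 250 = true := by decide +kernel
theorem r6_133 : allR (rChk l6 (leK 6)) 33250 250 = true := by decide +kernel
theorem r6_134 : allR (rChk l6 (leK 6)) 33500 250 = true := by decide +kernel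
theorem r6_135 : allR (rChk l6 (leK 6)) 33750 250 = true := by decide +kernel
theorem r6_136 : allR (rChk l6 (leK 6)) 34000 250 = true := by decide +kernel
theorem r6_137 : allR (rChk l6 (leK 6)) 34250 250 = true := by decide +kernel
theorem r6_138 : allR (rChk l6 (leK 6)) 34500 250 = true := by decide +kernel
theorem r6_139 : allR (rChk l6 (leK 6)) 34750 250 = true := by decide +kernel
theorem r6_140 : allR (rChk l6 (leK 6)) 35000 250 = true := by decide +kernel
theorem r6_141 : allR (rChk l6 (leK 6)) 35250 250 = true := by decide +kernel
theorem r6_142 : allR (rChk l6 (leK 6)) 35500 250 = true := by decide +kernel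
theorem r6_143 : allR (rChk l6 (leK 6)) 35750 250 = true := by decide +kernel
theorem r6_144 : allR (rChk l6 (leK 6)) 36000 250 = true := by decide +kernel
theorem r6_145 : allR (rChk l6 (leK 6)) 36250 250 = true := by decide +kernel
theorem r6_146 : allR (rChk l6 (leK 6)) 36500 250 = true := by decide +kernel
theorem r6_147 : allR (rChk l6 (leK 6)) 36750 250 = true := by decide +kernel
theorem r6_148 : allR (rChk l6 (leK 6)) 37000 250 = true := by decide +kernel
theorem r6_149 : allR (rChk l6 (leK 6)) 37250 250 = true := by decide +kernel
theorem r6_150 : allR (rChk l6 (leK 6)) 37500 250 = true := by decide +kernel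
theorem r6_151 : allR (rChk l6 (leK 6)) 37750 250 = true := by decide +kernel
theorem r6_152 : allR (rChk l6 (leK 6)) 38000 250 = true := by decide +kernel
theorem r6_153 : allR (rChk l6 (leK 6)) 38250 250 = true := by decide +kernel
theorem r6_154 : allR (rChk l6 (leK 6)) 38500 250 = true := by decide +kernel
theorem r6_155 : allR (rChk l6 (leK 6)) 38750 250 = true := by decide +kernel
theorem r6_156 : allR (rChk l6 (leK 6)) 39000 250 = true := by decide +kernel
theorem r6_157 : allR (rChk l6 (leK 6)) 39250 250 = true := by decide +kernel
theorem r6_158 : allR (rChk l6 (leK 6)) 39500 250 = true := by decide +kernel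
theorem r6_159 : allR (rChk l6 (leK 6)) 39750 250 = true := by decide +kernel
theorem r6_160 : allR (rChk l6 (leK 6)) 40000 250 = true := by decide +kernel
theorem r6_161 : allR (rChk l6 (leK 6)) 40250 250 = true := by decide +kernel
theorem r6_162 : allR (rChk l6 (leK 6)) 40500 250 = true := by decide +kernel
theorem r6_163 : allR (rChk l6 (leK 6)) 40750 250 = true := by decide +kernel
theorem r6_164 : allR (rChk l6 (leK 6)) 41000 250 = true := by decide +kernel
theorem r6_165 : allR (rChk l6 (leK 6)) 41250 250 = true := by decide +kernel
theorem r6_166 : allR (rChk l6 (leK 6)) 41500 250 = true := by decide +kernel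
theorem r6_167 : allR (rChk l6 (leK 6)) 41750 250 = true := by decide +kernel
theorem r6_168 : allR (rChk l6 (leK 6)) 42000 250 = true := by decide +kernel
theorem r6_169 : allR (rChk l6 (leK 6)) 42250 250 = true := by decide +kernel
theorem r6_170 : allR (rChk l6 (leK 6)) 42500 250 = true := by decide +kernel
theorem r6_171 : allR (rChk l6 (leK 6)) 42750 250 = true := by decide +kernel
theorem r6_172 : allR (rChk l6 (leK 6)) 43000 250 = true := by decide +kernel
theorem r6_173 : allR (rChk l6 (leK 6)) 43250 250 = true := by decide +kernel
theorem r6_174 : allR (rChk l6 (leK 6)) 43500 180 = true := by decide +kernel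

end Vale.Agent.P183L.Tab
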