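import Vale.Agent.P183L.Tab

/-! rbd -/

namespace Vale.Agent.P183L.Tab

theorem rbd_0 : allR (fun x => Nat.ble (Nat.add (rT x) 1) 7) 0 500 = true := by decide +kernel
theorem rbd_1 : allR (fun x => Nat.ble (Nat.add (rT x) 1) 7) 500 500 = true := by decide +kernel
theorem rbd_2 : allR (fun x => Nat.ble (Nat.add (rT x) 1) 7) 1000 500 = true := by decide +kernel
theorem rbd_3 : allR (fun x => Nat.ble (Nat.add (rT x) 1) 7) 1500 500 = true := by decide +kernel
theorem rbd_4 : allR (fun x => Nat.ble (Nat.add (rT x) 1) 7) 2000 500 = true := by decide +kernel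
theorem rbd_5 : allR (fun x => Nat.ble (Nat.add (rT x) 1) 7) 2500 500 = true := by decide +kernel
theorem rbd_6 : allR (fun x => Nat.ble (Nat.add (rT x) 1) 7) 3000 500 = true := by decide +kernel
theorem rbd_7 : allR (fun x => Nat.ble (Nat.add (rT x) 1) 7) 3500 500 = true := by decide +kernel
theorem rbd_8 : allR (fun x => Nat.ble (Nat.add (rT x) 1) 7) 4000 500 = true := by decide +kernel
theorem rbd_9 : allR (fun x => Nat.ble (Nat.add (rT x) 1) 7) 4500 500 = true := by decide +kernel
theorem rbd_10 : allR (fun x => Nat.ble (Nat.add (rT x) 1) 7) 5000 500 = true := by decide +kernel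
theorem rbd_11 : allR (fun x => Nat.ble (Nat.add (rT x) 1) 7) 5500 500 = true := by decide +kernel
theorem rbd_12 : allR (fun x => Nat.ble (Nat.add (rT x) 1) 7) 6000 500 = true := by decide +kernel
theorem rbd_13 : allR (fun x => Nat.ble (Nat.add (rT x) 1) 7) 6500 500 = true := by decide +kernel
theorem rbd_14 : allR (fun x => Nat.ble (Nat.add (rT x) 1) 7) 7000 500 = true := by decide +kernel
theorem rbd_15 : allR (fun x => Nat.ble (Nat.add (rT x) 1) 7) 7500 500 = true := by decide +kernel
theorem rbd_16 : allR (fun x => Nat.ble (Nat.add (rT x) 1) 7) 8000 500 = true := by decide +kernel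
theorem rbd_17 : allR (fun x => Nat.ble (Nat.add (rT x) 1) 7) 8500 500 = true := by decide +kernel
theorem rbd_18 : allR (fun x => Nat.ble (Nat.add (rT x) 1) 7) 9000 500 = true := by decide +kernel
theorem rbd_19 : allR (fun x => Nat.ble (Nat.add (rT x) 1) 7) 9500 500 = true := by decide +kernel
theorem rbd_20 : allR (fun x => Nat.ble (Nat.add (rT x) 1) 7) 10000 500 = true := by decide +kernel
theorem rbd_21 : allR (fun x => Nat.ble (Nat.add (rT x) 1) 7) 10500 500 = true := by decide +kernel
theorem rbd_22 : allR (fun x => Nat.ble (Nat.add (rT x) 1) 7) 11000 500 = true := by decide +kernel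
theorem rbd_23 : allR (fun x => Nat.ble (Nat.add (rT x) 1) 7) 11500 500 = true := by decide +kernel
theorem rbd_24 : allR (fun x => Nat.ble (Nat.add (rT x) 1) 7) 12000 500 = true := by decide +kernel
theorem rbd_25 : allR (fun x => Nat.ble (Nat.add (rT x) 1) 7) 12500 500 = true := by decide +kernel
theorem rbd_26 : allR (fun x => Nat.ble (Nat.add (rT x) 1) 7) 13000 500 = true := by decide +kernel
theorem rbd_27 : allR (fun x => Nat.ble (Nat.add (rT x) 1) 7) 13500 500 = true := by decide +kernel
theorem rbd_28 : allR (fun x => Nat.ble (Nat.add (rT x) 1) 7) 14000 500 = true := by decide +kernel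
theorem rbd_29 : allR (fun x => Nat.ble (Nat.add (rT x) 1) 7) 14500 500 = true := by decide +kernel
theorem rbd_30 : allR (fun x => Nat.ble (Nat.add (rT x) 1) 7) 15000 500 = true := by decide +kernel
theorem rbd_31 : allR (fun x => Nat.ble (Nat.add (rT x) 1) 7) 15500 500 = true := by decide +kernel
theorem rbd_32 : allR (fun x => Nat.ble (Nat.add (rT x) 1) 7) 16000 500 = true := by decide +kernel
theorem rbd_33 : allR (fun x => Nat.ble (Nat.add (rT x) 1) 7) 16500 500 = true := by decide +kernel
theorem rbd_34 : allR (fun x => Nat.ble (Nat.add (rT x) 1) 7) 17000 500 = true := by decide +kernel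
theorem rbd_35 : allR (fun x => Nat.ble (Nat.add (rT x) 1) 7) 17500 500 = true := by decide +kernel
theorem rbd_36 : allR (fun x => Nat.ble (Nat.add (rT x) 1) 7) 18000 500 = true := by decide +kernel
theorem rbd_37 : allR (fun x => Nat.ble (Nat.add (rT x) 1) 7) 18500 500 = true := by decide +kernel
theorem rbd_38 : allR (fun x => Nat.ble (Nat.add (rT x) 1) 7) 19000 500 = true := by decide +kernel
theorem rbd_39 : allR (fun x => Nat.ble (Nat.add (rT x) 1) 7) 19500 500 = true := by decide +kernel
theorem rbd_40 : allR (fun x => Nat.ble (Nat.add (rT x) 1) 7) 20000 500 = true := by decide +kernel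
theorem rbd_41 : allR (fun x => Nat.ble (Nat.add (rT x) 1) 7) 20500 500 = true := by decide +kernel
theorem rbd_42 : allR (fun x => Nat.ble (Nat.add (rT x) 1) 7) 21000 500 = true := by decide +kernel
theorem rbd_43 : allR (fun x => Nat.ble (Nat.add (rT x) 1) 7) 21500 500 = true := by decide +kernel
theorem rbd_44 : allR (fun x => Nat.ble (Nat.add (rT x) 1) 7) 22000 500 = true := by decide +kernel
theorem rbd_45 : allR (fun x => Nat.ble (Nat.add (rT x) 1) 7) 22500 500 = true := by decide +kernel
theorem rbd_46 : allR (fun x => Nat.ble (Nat.add (rT x) 1) 7) 23000 500 = true := by decide +kernel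
theorem rbd_47 : allR (fun x => Nat.ble (Nat.add (rT x) 1) 7) 23500 500 = true := by decide +kernel
theorem rbd_48 : allR (fun x => Nat.ble (Nat.add (rT x) 1) 7) 24000 500 = true := by decide +kernel
theorem rbd_49 : allR (fun x => Nat.ble (Nat.add (rT x) 1) 7) 24500 500 = true := by decide +kernel
theorem rbd_50 : allR (fun x => Nat.ble (Nat.add (rT x) 1) 7) 25000 500 = true := by decide +kernel
theorem rbd_51 : allR (fun x => Nat.ble (Nat.add (rT x) 1) 7) 25500 500 = true := by decide +kernel
theorem rbd_52 : allR (fun x => Nat.ble (Nat.add (rT x) 1) 7) 26000 500 = true := by decide +kernel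
theorem rbd_53 : allR (fun x => Nat.ble (Nat.add (rT x) 1) 7) 26500 500 = true := by decide +kernel
theorem rbd_54 : allR (fun x => Nat.ble (Nat.add (rT x) 1) 7) 27000 500 = true := by decide +kernel
theorem rbd_55 : allR (fun x => Nat.ble (Nat.add (rT x) 1) 7) 27500 500 = true := by decide +kernel
theorem rbd_56 : allR (fun x => Nat.ble (Nat.add (rT x) 1) 7) 28000 500 = true := by decide +kernel
theorem rbd_57 : allR (fun x => Nat.ble (Nat.add (rT x) 1) 7) 28500 500 = true := by decide +kernel
theorem rbd_58 : allR (fun x => Nat.ble (Nat.add (rT x) 1) 7) 29000 500 = true := by decide +kernel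
theorem rbd_59 : allR (fun x => Nat.ble (Nat.add (rT x) 1) 7) 29500 500 = true := by decide +kernel
theorem rbd_60 : allR (fun x => Nat.ble (Nat.add (rT x) 1) 7) 30000 500 = true := by decide +kernel
theorem rbd_61 : allR (fun x => Nat.ble (Nat.add (rT x) 1) 7) 30500 500 = true := by decide +kernel
theorem rbd_62 : allR (fun x => Nat.ble (Nat.add (rT x) 1) 7) 31000 500 = true := by decide +kernel
theorem rbd_63 : allR (fun x => Nat.ble (Nat.add (rT x) 1) 7) 31500 500 = true := by decide +kernel
theorem rbd_64 : allR (fun x => Nat.ble (Nat.add (rT x) 1) 7) 32000 500 = true := by decide +kernel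
theorem rbd_65 : allR (fun x => Nat.ble (Nat.add (rT x) 1) 7) 32500 500 = true := by decide +kernel
theorem rbd_66 : allR (fun x => Nat.ble (Nat.add (rT x) 1) 7) 33000 500 = true := by decide +kernel
theorem rbd_67 : allR (fun x => Nat.ble (Nat.add (rT x) 1) 7) 33500 500 = true := by decide +kernel
theorem rbd_68 : allR (fun x => Nat.ble (Nat.add (rT x) 1) 7) 34000 500 = true := by decide +kernel
theorem rbd_69 : allR (fun x => Nat.ble (Nat.add (rT x) 1) 7) 34500 500 = true := by decide +kernel
theorem rbd_70 : allR (fun x => Nat.ble (Nat.add (rT x) 1) 7) 35000 500 = true := by decide +kernel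
theorem rbd_71 : allR (fun x => Nat.ble (Nat.add (rT x) 1) 7) 35500 500 = true := by decide +kernel
theorem rbd_72 : allR (fun x => Nat.ble (Nat.add (rT x) 1) 7) 36000 500 = true := by decide +kernel
theorem rbd_73 : allR (fun x => Nat.ble (Nat.add (rT x) 1) 7) 36500 500 = true := by decide +kernel
theorem rbd_74 : allR (fun x => Nat.ble (Nat.add (rT x) 1) 7) 37000 500 = true := by decide +kernel
theorem rbd_75 : allR (fun x => Nat.ble (Nat.add (rT x) 1) 7) 37500 500 = true := by decide +kernel
theorem rbd_76 : allR (fun x => Nat.ble (Nat.add (rT x) 1) 7) 38000 500 = true := by decide +kernel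
theorem rbd_77 : allR (fun x => Nat.ble (Nat.add (rT x) 1) 7) 38500 500 = true := by decide +kernel
theorem rbd_78 : allR (fun x => Nat.ble (Nat.add (rT x) 1) 7) 39000 500 = true := by decide +kernel
theorem rbd_79 : allR (fun x => Nat.ble (Nat.add (rT x) 1) 7) 39500 500 = true := by decide +kernel
theorem rbd_80 : allR (fun x => Nat.ble (Nat.add (rT x) 1) 7) 40000 500 = true := by decide +kernel
theorem rbd_81 : allR (fun x => Nat.ble (Nat.add (rT x) 1) 7) 40500 500 = true := by decide +kernel
theorem rbd_82 : allR (fun x => Nat.ble (Nat.add (rT x) 1) 7) 41000 500 = true := by decide +kernel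
theorem rbd_83 : allR (fun x => Nat.ble (Nat.add (rT x) 1) 7) 41500 500 = true := by decide +kernel
theorem rbd_84 : allR (fun x => Nat.ble (Nat.add (rT x) 1) 7) 42000 500 = true := by decide +kernel
theorem rbd_85 : allR (fun x => Nat.ble (Nat.add (rT x) 1) 7) 42500 500 = true := by decide +kernel
theorem rbd_86 : allR (fun x => Nat.ble (Nat.add (rT x) 1) 7) 43000 500 = true := by decide +kernel
theorem rbd_87 : allR (fun x => Nat.ble (Nat.add (rT x) 1) 7) 43500 180 = true := by decide +kernel

end Vale.Agent.P183L.Tab
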