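import Vale.Agent.P183L.Tab

/-! step -/

namespace Vale.Agent.P183L.Tab

theorem step_0 : allR (stepChk tt cc hi N rk rT term) 0 40 = true := by decide +kernel
theorem step_1 : allR (stepChk tt cc hi N rk rT term) 40 40 = true := by decide +kernel
theorem step_2 : allR (stepChk tt cc hi N rk rT term) 80 40 = true := by decide +kernel
theorem step_3 : allR (stepChk tt cc hi N rk rT term) 120 40 = true := by decide +kernel
theorem step_4 : allR (stepChk tt cc hi N rk rT term) 160 40 = true := by decide +kernel
theorem step_5 : allR (stepChk tt cc hi N rk rT term) 200 40 = true := by decide +kernel
theorem step_6 : allR (stepChk tt cc hi N rk rT term) 240 40 = true := by decide +kernel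
theorem step_7 : allR (stepChk tt cc hi N rk rT term) 280 40 = true := by decide +kernel
theorem step_8 : allR (stepChk tt cc hi N rk rT term) 320 40 = true := by decide +kernel
theorem step_9 : allR (stepChk tt cc hi N rk rT term) 360 40 = true := by decide +kernel
theorem step_10 : allR (stepChk tt cc hi N rk rT term) 400 40 = true := by decide +kernel
theorem step_11 : allR (stepChk tt cc hi N rk rT term) 440 40 = true := by decide +kernel
theorem step_12 : allR (stepChk tt cc hi N rk rT term) 480 40 = true := by decide +kernel
theorem step_13 : allR (stepChk tt cc hi N rk rT term) 520 40 = true := by decide +kernel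
theorem step_14 : allR (stepChk tt cc hi N rk rT term) 560 40 = true := by decide +kernel
theorem step_15 : allR (stepChk tt cc hi N rk rT term) 600 40 = true := by decide +kernel
theorem step_16 : allR (stepChk tt cc hi N rk rT term) 640 40 = true := by decide +kernel
theorem step_17 : allR (stepChk tt cc hi N rk rT term) 680 40 = true := by decide +kernel
theorem step_18 : allR (stepChk tt cc hi N rk rT term) 720 40 = true := by decide +kernel
theorem step_19 : allR (stepChk tt cc hi N rk rT term) 760 40 = true := by decide +kernel
theorem step_20 : allR (stepChk tt cc hi N rk rT term) 800 40 = true := by decide +kernel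
theorem step_21 : allR (stepChk tt cc hi N rk rT term) 840 40 = true := by decide +kernel
theorem step_22 : allR (stepChk tt cc hi N rk rT term) 880 40 = true := by decide +kernel
theorem step_23 : allR (stepChk tt cc hi N rk rT term) 920 40 = true := by decide +kernel
theorem step_24 : allR (stepChk tt cc hi N rk rT term) 960 40 = true := by decide +kernel
theorem step_25 : allR (stepChk tt cc hi N rk rT term) 1000 40 = true := by decide +kernel
theorem step_26 : allR (stepChk tt cc hi N rk rT term) 1040 40 = true := by decide +kernel
theorem step_27 : allR (stepChk tt cc hi N rk rT term) 1080 40 = true := by decide +kernel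
theorem step_28 : allR (stepChk tt cc hi N rk rT term) 1120 40 = true := by decide +kernel
theorem step_29 : allR (stepChk tt cc hi N rk rT term) 1160 40 = true := by decide +kernel
theorem step_30 : allR (stepChk tt cc hi N rk rT term) 1200 40 = true := by decide +kernel
theorem step_31 : allR (stepChk tt cc hi N rk rT term) 1240 40 = true := by decide +kernel
theorem step_32 : allR (stepChk tt cc hi N rk rT term) 1280 40 = true := by decide +kernel
theorem step_33 : allR (stepChk tt cc hi N rk rT term) 1320 40 = true := by decide +kernel
theorem step_34 : allR (stepChk tt cc hi N rk rT term) 1360 40 = true := by decide +kernel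
theorem step_35 : allR (stepChk tt cc hi N rk rT term) 1400 40 = true := by decide +kernel
theorem step_36 : allR (stepChk tt cc hi N rk rT term) 1440 40 = true := by decide +kernel
theorem step_37 : allR (stepChk tt cc hi N rk rT term) 1480 40 = true := by decide +kernel
theorem step_38 : allR (stepChk tt cc hi N rk rT term) 1520 40 = true := by decide +kernel
theorem step_39 : allR (stepChk tt cc hi N rk rT term) 1560 40 = true := by decide +kernel
theorem step_40 : allR (stepChk tt cc hi N rk rT term) 1600 40 = true := by decide +kernel
theorem step_41 : allR (stepChk tt cc hi N rk rT term) 1640 40 = true := by decide +kernel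
theorem step_42 : allR (stepChk tt cc hi N rk rT term) 1680 40 = true := by decide +kernel
theorem step_43 : allR (stepChk tt cc hi N rk rT term) 1720 40 = true := by decide +kernel
theorem step_44 : allR (stepChk tt cc hi N rk rT term) 1760 40 = true := by decide +kernel
theorem step_45 : allR (stepChk tt cc hi N rk rT term) 1800 40 = true := by decide +kernel
theorem step_46 : allR (stepChk tt cc hi N rk rT term) 1840 40 = true := by decide +kernel
theorem step_47 : allR (stepChk tt cc hi N rk rT term) 1880 40 = true := by decide +kernel
theorem step_48 : allR (stepChk tt cc hi N rk rT term) 1920 40 = true := by decide +kernel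
theorem step_49 : allR (stepChk tt cc hi N rk rT term) 1960 40 = true := by decide +kernel
theorem step_50 : allR (stepChk tt cc hi N rk rT term) 2000 40 = true := by decide +kernel
theorem step_51 : allR (stepChk tt cc hi N rk rT term) 2040 40 = true := by decide +kernel
theorem step_52 : allR (stepChk tt cc hi N rk rT term) 2080 40 = true := by decide +kernel
theorem step_53 : allR (stepChk tt cc hi N rk rT term) 2120 40 = true := by decide +kernel
theorem step_54 : allR (stepChk tt cc hi N rk rT term) 2160 40 = true := by decide +kernel
theorem step_55 : allR (stepChk tt cc hi N rk rT term) 2200 40 = true := by decide +kernel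
theorem step_56 : allR (stepChk tt cc hi N rk rT term) 2240 40 = true := by decide +kernel
theorem step_57 : allR (stepChk tt cc hi N rk rT term) 2280 40 = true := by decide +kernel
theorem step_58 : allR (stepChk tt cc hi N rk rT term) 2320 40 = true := by decide +kernel
theorem step_59 : allR (stepChk tt cc hi N rk rT term) 2360 40 = true := by decide +kernel
theorem step_60 : allR (stepChk tt cc hi N rk rT term) 2400 40 = true := by decide +kernel
theorem step_61 : allR (stepChk tt cc hi N rk rT term) 2440 40 = true := by decide +kernel
theorem step_62 : allR (stepChk tt cc hi N rk rT term) 2480 40 = true := by decide +kernel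
theorem step_63 : allR (stepChk tt cc hi N rk rT term) 2520 40 = true := by decide +kernel
theorem step_64 : allR (stepChk tt cc hi N rk rT term) 2560 40 = true := by decide +kernel
theorem step_65 : allR (stepChk tt cc hi N rk rT term) 2600 40 = true := by decide +kernel
theorem step_66 : allR (stepChk tt cc hi N rk rT term) 2640 40 = true := by decide +kernel
theorem step_67 : allR (stepChk tt cc hi N rk rT term) 2680 40 = true := by decide +kernel
theorem step_68 : allR (stepChk tt cc hi N rk rT term) 2720 40 = true := by decide +kernel
theorem step_69 : allR (stepChk tt cc hi N rk rT term) 2760 40 = true := by decide +kernel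
theorem step_70 : allR (stepChk tt cc hi N rk rT term) 2800 40 = true := by decide +kernel
theorem step_71 : allR (stepChk tt cc hi N rk rT term) 2840 40 = true := by decide +kernel
theorem step_72 : allR (stepChk tt cc hi N rk rT term) 2880 40 = true := by decide +kernel
theorem step_73 : allR (stepChk tt cc hi N rk rT term) 2920 40 = true := by decide +kernel
theorem step_74 : allR (stepChk tt cc hi N rk rT term) 2960 40 = true := by decide +kernel
theorem step_75 : allR (stepChk tt cc hi N rk rT term) 3000 40 = true := by decide +kernel
theorem step_76 : allR (stepChk tt cc hi N rk rT term) 3040 40 = true := by decide +kernel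
theorem step_77 : allR (stepChk tt cc hi N rk rT term) 3080 40 = true := by decide +kernel
theorem step_78 : allR (stepChk tt cc hi N rk rT term) 3120 40 = true := by decide +kernel
theorem step_79 : allR (stepChk tt cc hi N rk rT term) 3160 40 = true := by decide +kernel
theorem step_80 : allR (stepChk tt cc hi N rk rT term) 3200 40 = true := by decide +kernel
theorem step_81 : allR (stepChk tt cc hi N rk rT term) 3240 40 = true := by decide +kernel
theorem step_82 : allR (stepChk tt cc hi N rk rT term) 3280 40 = true := by decide +kernel
theorem step_83 : allR (stepChk tt cc hi N rk rT term) 3320 40 = true := by decide +kernel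
theorem step_84 : allR (stepChk tt cc hi N rk rT term) 3360 40 = true := by decide +kernel
theorem step_85 : allR (stepChk tt cc hi N rk rT term) 3400 40 = true := by decide +kernel
theorem step_86 : allR (stepChk tt cc hi N rk rT term) 3440 40 = true := by decide +kernel
theorem step_87 : allR (stepChk tt cc hi N rk rT term) 3480 40 = true := by decide +kernel
theorem step_88 : allR (stepChk tt cc hi N rk rT term) 3520 40 = true := by decide +kernel
theorem step_89 : allR (stepChk tt cc hi N rk rT term) 3560 40 = true := by decide +kernel
theorem step_90 : allR (stepChk tt cc hi N rk rT term) 3600 40 = true := by decide +kernel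
theorem step_91 : allR (stepChk tt cc hi N rk rT term) 3640 40 = true := by decide +kernel
theorem step_92 : allR (stepChk tt cc hi N rk rT term) 3680 40 = true := by decide +kernel
theorem step_93 : allR (stepChk tt cc hi N rk rT term) 3720 40 = true := by decide +kernel
theorem step_94 : allR (stepChk tt cc hi N rk rT term) 3760 40 = true := by decide +kernel
theorem step_95 : allR (stepChk tt cc hi N rk rT term) 3800 40 = true := by decide +kernel
theorem step_96 : allR (stepChk tt cc hi N rk rT term) 3840 40 = true := by decide +kernel
theorem step_97 : allR (stepChk tt cc hi N rk rT term) 3880 40 = true := by decide +kernel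
theorem step_98 : allR (stepChk tt cc hi N rk rT term) 3920 40 = true := by decide +kernel
theorem step_99 : allR (stepChk tt cc hi N rk rT term) 3960 40 = true := by decide +kernel
theorem step_100 : allR (stepChk tt cc hi N rk rT term) 4000 40 = true := by decide +kernel
theorem step_101 : allR (stepChk tt cc hi N rk rT term) 4040 40 = true := by decide +kernel
theorem step_102 : allR (stepChk tt cc hi N rk rT term) 4080 40 = true := by decide +kernel
theorem step_103 : allR (stepChk tt cc hi N rk rT term) 4120 40 = true := by decide +kernel
theorem step_104 : allR (stepChk tt cc hi N rk rT term) 4160 40 = true := by decide +kernel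
theorem step_105 : allR (stepChk tt cc hi N rk rT term) 4200 40 = true := by decide +kernel
theorem step_106 : allR (stepChk tt cc hi N rk rT term) 4240 40 = true := by decide +kernel
theorem step_107 : allR (stepChk tt cc hi N rk rT term) 4280 40 = true := by decide +kernel
theorem step_108 : allR (stepChk tt cc hi N rk rT term) 4320 40 = true := by decide +kernel
theorem step_109 : allR (stepChk tt cc hi N rk rT term) 4360 40 = true := by decide +kernel
theorem step_110 : allR (stepChk tt cc hi N rk rT term) 4400 40 = true := by decide +kernel
theorem step_111 : allR (stepChk tt cc hi N rk rT term) 4440 40 = true := by decide +kernel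
theorem step_112 : allR (stepChk tt cc hi N rk rT term) 4480 40 = true := by decide +kernel
theorem step_113 : allR (stepChk tt cc hi N rk rT term) 4520 40 = true := by decide +kernel
theorem step_114 : allR (stepChk tt cc hi N rk rT term) 4560 40 = true := by decide +kernel
theorem step_115 : allR (stepChk tt cc hi N rk rT term) 4600 40 = true := by decide +kernel
theorem step_116 : allR (stepChk tt cc hi N rk rT term) 4640 40 = true := by decide +kernel
theorem step_117 : allR (stepChk tt cc hi N rk rT term) 4680 40 = true := by decide +kernel
theorem step_118 : allR (stepChk tt cc hi N rk rT term) 4720 40 = true := by decide +kernel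
theorem step_119 : allR (stepChk tt cc hi N rk rT term) 4760 40 = true := by decide +kernel
theorem step_120 : allR (stepChk tt cc hi N rk rT term) 4800 40 = true := by decide +kernel
theorem step_121 : allR (stepChk tt cc hi N rk rT term) 4840 40 = true := by decide +kernel
theorem step_122 : allR (stepChk tt cc hi N rk rT term) 4880 40 = true := by decide +kernel
theorem step_123 : allR (stepChk tt cc hi N rk rT term) 4920 40 = true := by decide +kernel
theorem step_124 : allR (stepChk tt cc hi N rk rT term) 4960 40 = true := by decide +kernel
theorem step_125 : allR (stepChk tt cc hi N rk rT term) 5000 40 = true := by decide +kernel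
theorem step_126 : allR (stepChk tt cc hi N rk rT term) 5040 40 = true := by decide +kernel
theorem step_127 : allR (stepChk tt cc hi N rk rT term) 5080 40 = true := by decide +kernel
theorem step_128 : allR (stepChk tt cc hi N rk rT term) 5120 40 = true := by decide +kernel
theorem step_129 : allR (stepChk tt cc hi N rk rT term) 5160 40 = true := by decide +kernel
theorem step_130 : allR (stepChk tt cc hi N rk rT term) 5200 40 = true := by decide +kernel
theorem step_131 : allR (stepChk tt cc hi N rk rT term) 5240 40 = true := by decide +kernel
theorem step_132 : allR (stepChk tt cc hi N rk rT term) 5280 40 = true := by decide +kernel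
theorem step_133 : allR (stepChk tt cc hi N rk rT term) 5320 40 = true := by decide +kernel
theorem step_134 : allR (stepChk tt cc hi N rk rT term) 5360 40 = true := by decide +kernel
theorem step_135 : allR (stepChk tt cc hi N rk rT term) 5400 40 = true := by decide +kernel
theorem step_136 : allR (stepChk tt cc hi N rk rT term) 5440 40 = true := by decide +kernel
theorem step_137 : allR (stepChk tt cc hi N rk rT term) 5480 40 = true := by decide +kernel
theorem step_138 : allR (stepChk tt cc hi N rk rT term) 5520 40 = true := by decide +kernel
theorem step_139 : allR (stepChk tt cc hi N rk rT term) 5560 40 = true := by decide +kernel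
theorem step_140 : allR (stepChk tt cc hi N rk rT term) 5600 40 = true := by decide +kernel
theorem step_141 : allR (stepChk tt cc hi N rk rT term) 5640 40 = true := by decide +kernel
theorem step_142 : allR (stepChk tt cc hi N rk rT term) 5680 40 = true := by decide +kernel
theorem step_143 : allR (stepChk tt cc hi N rk rT term) 5720 40 = true := by decide +kernel
theorem step_144 : allR (stepChk tt cc hi N rk rT term) 5760 40 = true := by decide +kernel
theorem step_145 : allR (stepChk tt cc hi N rk rT term) 5800 40 = true := by decide +kernel
theorem step_146 : allR (stepChk tt cc hi N rk rT term) 5840 40 = true := by decide +kernel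
theorem step_147 : allR (stepChk tt cc hi N rk rT term) 5880 40 = true := by decide +kernel
theorem step_148 : allR (stepChk tt cc hi N rk rT term) 5920 40 = true := by decide +kernel
theorem step_149 : allR (stepChk tt cc hi N rk rT term) 5960 40 = true := by decide +kernel
theorem step_150 : allR (stepChk tt cc hi N rk rT term) 6000 40 = true := by decide +kernel
theorem step_151 : allR (stepChk tt cc hi N rk rT term) 6040 40 = true := by decide +kernel
theorem step_152 : allR (stepChk tt cc hi N rk rT term) 6080 40 = true := by decide +kernel
theorem step_153 : allR (stepChk tt cc hi N rk rT term) 6120 40 = true := by decide +kernel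
theorem step_154 : allR (stepChk tt cc hi N rk rT term) 6160 40 = true := by decide +kernel
theorem step_155 : allR (stepChk tt cc hi N rk rT term) 6200 40 = true := by decide +kernel
theorem step_156 : allR (stepChk tt cc hi N rk rT term) 6240 40 = true := by decide +kernel
theorem step_157 : allR (stepChk tt cc hi N rk rT term) 6280 40 = true := by decide +kernel
theorem step_158 : allR (stepChk tt cc hi N rk rT term) 6320 40 = true := by decide +kernel
theorem step_159 : allR (stepChk tt cc hi N rk rT term) 6360 40 = true := by decide +kernel
theorem step_160 : allR (stepChk tt cc hi N rk rT term) 6400 40 = true := by decide +kernel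
theorem step_161 : allR (stepChk tt cc hi N rk rT term) 6440 40 = true := by decide +kernel
theorem step_162 : allR (stepChk tt cc hi N rk rT term) 6480 40 = true := by decide +kernel
theorem step_163 : allR (stepChk tt cc hi N rk rT term) 6520 40 = true := by decide +kernel
theorem step_164 : allR (stepChk tt cc hi N rk rT term) 6560 40 = true := by decide +kernel
theorem step_165 : allR (stepChk tt cc hi N rk rT term) 6600 40 = true := by decide +kernel
theorem step_166 : allR (stepChk tt cc hi N rk rT term) 6640 40 = true := by decide +kernel
theorem step_167 : allR (stepChk tt cc hi N rk rT term) 6680 40 = true := by decide +kernel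
theorem step_168 : allR (stepChk tt cc hi N rk rT term) 6720 40 = true := by decide +kernel
theorem step_169 : allR (stepChk tt cc hi N rk rT term) 6760 40 = true := by decide +kernel
theorem step_170 : allR (stepChk tt cc hi N rk rT term) 6800 40 = true := by decide +kernel
theorem step_171 : allR (stepChk tt cc hi N rk rT term) 6840 40 = true := by decide +kernel
theorem step_172 : allR (stepChk tt cc hi N rk rT term) 6880 40 = true := by decide +kernel
theorem step_173 : allR (stepChk tt cc hi N rk rT term) 6920 40 = true := by decide +kernel
theorem step_174 : allR (stepChk tt cc hi N rk rT term) 6960 40 = true := by decide +kernel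
theorem step_175 : allR (stepChk tt cc hi N rk rT term) 7000 40 = true := by decide +kernel
theorem step_176 : allR (stepChk tt cc hi N rk rT term) 7040 40 = true := by decide +kernel
theorem step_177 : allR (stepChk tt cc hi N rk rT term) 7080 40 = true := by decide +kernel
theorem step_178 : allR (stepChk tt cc hi N rk rT term) 7120 40 = true := by decide +kernel
theorem step_179 : allR (stepChk tt cc hi N rk rT term) 7160 40 = true := by decide +kernel
theorem step_180 : allR (stepChk tt cc hi N rk rT term) 7200 40 = true := by decide +kernel
theorem step_181 : allR (stepChk tt cc hi N rk rT term) 7240 40 = true := by decide +kernel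
theorem step_182 : allR (stepChk tt cc hi N rk rT term) 7280 40 = true := by decide +kernel
theorem step_183 : allR (stepChk tt cc hi N rk rT term) 7320 40 = true := by decide +kernel
theorem step_184 : allR (stepChk tt cc hi N rk rT term) 7360 40 = true := by decide +kernel
theorem step_185 : allR (stepChk tt cc hi N rk rT term) 7400 40 = true := by decide +kernel
theorem step_186 : allR (stepChk tt cc hi N rk rT term) 7440 40 = true := by decide +kernel
theorem step_187 : allR (stepChk tt cc hi N rk rT term) 7480 40 = true := by decide +kernel
theorem step_188 : allR (stepChk tt cc hi N rk rT term) 7520 40 = true := by decide +kernel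
theorem step_189 : allR (stepChk tt cc hi N rk rT term) 7560 40 = true := by decide +kernel
theorem step_190 : allR (stepChk tt cc hi N rk rT term) 7600 40 = true := by decide +kernel
theorem step_191 : allR (stepChk tt cc hi N rk rT term) 7640 40 = true := by decide +kernel
theorem step_192 : allR (stepChk tt cc hi N rk rT term) 7680 40 = true := by decide +kernel
theorem step_193 : allR (stepChk tt cc hi N rk rT term) 7720 40 = true := by decide +kernel
theorem step_194 : allR (stepChk tt cc hi N rk rT term) 7760 40 = true := by decide +kernel
theorem step_195 : allR (stepChk tt cc hi N rk rT term) 7800 40 = true := by decide +kernel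
theorem step_196 : allR (stepChk tt cc hi N rk rT term) 7840 40 = true := by decide +kernel
theorem step_197 : allR (stepChk tt cc hi N rk rT term) 7880 40 = true := by decide +kernel
theorem step_198 : allR (stepChk tt cc hi N rk rT term) 7920 40 = true := by decide +kernel
theorem step_199 : allR (stepChk tt cc hi N rk rT term) 7960 40 = true := by decide +kernel
theorem step_200 : allR (stepChk tt cc hi N rk rT term) 8000 40 = true := by decide +kernel
theorem step_201 : allR (stepChk tt cc hi N rk rT term) 8040 40 = true := by decide +kernel
theorem step_202 : allR (stepChk tt cc hi N rk rT term) 8080 40 = true := by decide +kernel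
theorem step_203 : allR (stepChk tt cc hi N rk rT term) 8120 40 = true := by decide +kernel
theorem step_204 : allR (stepChk tt cc hi N rk rT term) 8160 40 = true := by decide +kernel
theorem step_205 : allR (stepChk tt cc hi N rk rT term) 8200 40 = true := by decide +kernel
theorem step_206 : allR (stepChk tt cc hi N rk rT term) 8240 40 = true := by decide +kernel
theorem step_207 : allR (stepChk tt cc hi N rk rT term) 8280 40 = true := by decide +kernel
theorem step_208 : allR (stepChk tt cc hi N rk rT term) 8320 40 = true := by decide +kernel
theorem step_209 : allR (stepChk tt cc hi N rk rT term) 8360 40 = true := by decide +kernel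
theorem step_210 : allR (stepChk tt cc hi N rk rT term) 8400 40 = true := by decide +kernel
theorem step_211 : allR (stepChk tt cc hi N rk rT term) 8440 40 = true := by decide +kernel
theorem step_212 : allR (stepChk tt cc hi N rk rT term) 8480 40 = true := by decide +kernel
theorem step_213 : allR (stepChk tt cc hi N rk rT term) 8520 40 = true := by decide +kernel
theorem step_214 : allR (stepChk tt cc hi N rk rT term) 8560 40 = true := by decide +kernel
theorem step_215 : allR (stepChk tt cc hi N rk rT term) 8600 40 = true := by decide +kernel
theorem step_216 : allR (stepChk tt cc hi N rk rT term) 8640 40 = true := by decide +kernel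
theorem step_217 : allR (stepChk tt cc hi N rk rT term) 8680 40 = true := by decide +kernel
theorem step_218 : allR (stepChk tt cc hi N rk rT term) 8720 40 = true := by decide +kernel
theorem step_219 : allR (stepChk tt cc hi N rk rT term) 8760 40 = true := by decide +kernel
theorem step_220 : allR (stepChk tt cc hi N rk rT term) 8800 40 = true := by decide +kernel
theorem step_221 : allR (stepChk tt cc hi N rk rT term) 8840 40 = true := by decide +kernel
theorem step_222 : allR (stepChk tt cc hi N rk rT term) 8880 40 = true := by decide +kernel
theorem step_223 : allR (stepChk tt cc hi N rk rT term) 8920 40 = true := by decide +kernel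
theorem step_224 : allR (stepChk tt cc hi N rk rT term) 8960 40 = true := by decide +kernel
theorem step_225 : allR (stepChk tt cc hi N rk rT term) 9000 40 = true := by decide +kernel
theorem step_226 : allR (stepChk tt cc hi N rk rT term) 9040 40 = true := by decide +kernel
theorem step_227 : allR (stepChk tt cc hi N rk rT term) 9080 40 = true := by decide +kernel
theorem step_228 : allR (stepChk tt cc hi N rk rT term) 9120 40 = true := by decide +kernel
theorem step_229 : allR (stepChk tt cc hi N rk rT term) 9160 40 = true := by decide +kernel
theorem step_230 : allR (stepChk tt cc hi N rk rT term) 9200 40 = true := by decide +kernel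
theorem step_231 : allR (stepChk tt cc hi N rk rT term) 9240 40 = true := by decide +kernel
theorem step_232 : allR (stepChk tt cc hi N rk rT term) 9280 40 = true := by decide +kernel
theorem step_233 : allR (stepChk tt cc hi N rk rT term) 9320 40 = true := by decide +kernel
theorem step_234 : allR (stepChk tt cc hi N rk rT term) 9360 40 = true := by decide +kernel
theorem step_235 : allR (stepChk tt cc hi N rk rT term) 9400 40 = true := by decide +kernel
theorem step_236 : allR (stepChk tt cc hi N rk rT term) 9440 40 = true := by decide +kernel
theorem step_237 : allR (stepChk tt cc hi N rk rT term) 9480 40 = true := by decide +kernel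
theorem step_238 : allR (stepChk tt cc hi N rk rT term) 9520 40 = true := by decide +kernel
theorem step_239 : allR (stepChk tt cc hi N rk rT term) 9560 40 = true := by decide +kernel
theorem step_240 : allR (stepChk tt cc hi N rk rT term) 9600 40 = true := by decide +kernel
theorem step_241 : allR (stepChk tt cc hi N rk rT term) 9640 40 = true := by decide +kernel
theorem step_242 : allR (stepChk tt cc hi N rk rT term) 9680 40 = true := by decide +kernel
theorem step_243 : allR (stepChk tt cc hi N rk rT term) 9720 40 = true := by decide +kernel
theorem step_244 : allR (stepChk tt cc hi N rk rT term) 9760 40 = true := by decide +kernel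
theorem step_245 : allR (stepChk tt cc hi N rk rT term) 9800 40 = true := by decide +kernel
theorem step_246 : allR (stepChk tt cc hi N rk rT term) 9840 40 = true := by decide +kernel
theorem step_247 : allR (stepChk tt cc hi N rk rT term) 9880 40 = true := by decide +kernel
theorem step_248 : allR (stepChk tt cc hi N rk rT term) 9920 40 = true := by decide +kernel
theorem step_249 : allR (stepChk tt cc hi N rk rT term) 9960 40 = true := by decide +kernel
theorem step_250 : allR (stepChk tt cc hi N rk rT term) 10000 40 = true := by decide +kernel
theorem step_251 : allR (stepChk tt cc hi N rk rT term) 10040 40 = true := by decide +kernel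
theorem step_252 : allR (stepChk tt cc hi N rk rT term) 10080 40 = true := by decide +kernel
theorem step_253 : allR (stepChk tt cc hi N rk rT term) 10120 40 = true := by decide +kernel
theorem step_254 : allR (stepChk tt cc hi N rk rT term) 10160 40 = true := by decide +kernel
theorem step_255 : allR (stepChk tt cc hi N rk rT term) 10200 40 = true := by decide +kernel
theorem step_256 : allR (stepChk tt cc hi N rk rT term) 10240 40 = true := by decide +kernel
theorem step_257 : allR (stepChk tt cc hi N rk rT term) 10280 40 = true := by decide +kernel
theorem step_258 : allR (stepChk tt cc hi N rk rT term) 10320 40 = true := by decide +kernel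
theorem step_259 : allR (stepChk tt cc hi N rk rT term) 10360 40 = true := by decide +kernel
theorem step_260 : allR (stepChk tt cc hi N rk rT term) 10400 40 = true := by decide +kernel
theorem step_261 : allR (stepChk tt cc hi N rk rT term) 10440 40 = true := by decide +kernel
theorem step_262 : allR (stepChk tt cc hi N rk rT term) 10480 40 = true := by decide +kernel
theorem step_263 : allR (stepChk tt cc hi N rk rT term) 10520 40 = true := by decide +kernel
theorem step_264 : allR (stepChk tt cc hi N rk rT term) 10560 40 = true := by decide +kernel
theorem step_265 : allR (stepChk tt cc hi N rk rT term) 10600 40 = true := by decide +kernel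
theorem step_266 : allR (stepChk tt cc hi N rk rT term) 10640 40 = true := by decide +kernel
theorem step_267 : allR (stepChk tt cc hi N rk rT term) 10680 40 = true := by decide +kernel
theorem step_268 : allR (stepChk tt cc hi N rk rT term) 10720 40 = true := by decide +kernel
theorem step_269 : allR (stepChk tt cc hi N rk rT term) 10760 40 = true := by decide +kernel
theorem step_270 : allR (stepChk tt cc hi N rk rT term) 10800 40 = true := by decide +kernel
theorem step_271 : allR (stepChk tt cc hi N rk rT term) 10840 40 = true := by decide +kernel
theorem step_272 : allR (stepChk tt cc hi N rk rT term) 10880 40 = true := by decide +kernel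

end Vale.Agent.P183L.Tab
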