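import Vale.Agent.P183L.Tab

/-! step -/

namespace Vale.Agent.P183L.Tab

theorem step_273 : allR (stepChk tt cc hi N rk rT term) 10920 40 = true := by decide +kernel
theorem step_274 : allR (stepChk tt cc hi N rk rT term) 10960 40 = true := by decide +kernel
theorem step_275 : allR (stepChk tt cc hi N rk rT term) 11000 40 = true := by decide +kernel
theorem step_276 : allR (stepChk tt cc hi N rk rT term) 11040 40 = true := by decide +kernel
theorem step_277 : allR (stepChk tt cc hi N rk rT term) 11080 40 = true := by decide +kernel
theorem step_278 : allR (stepChk tt cc hi N rk rT term) 11120 40 = true := by decide +kernel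
theorem step_279 : allR (stepChk tt cc hi N rk rT term) 11160 40 = true := by decide +kernel
theorem step_280 : allR (stepChk tt cc hi N rk rT term) 11200 40 = true := by decide +kernel
theorem step_281 : allR (stepChk tt cc hi N rk rT term) 11240 40 = true := by decide +kernel
theorem step_282 : allR (stepChk tt cc hi N rk rT term) 11280 40 = true := by decide +kernel
theorem step_283 : allR (stepChk tt cc hi N rk rT term) 11320 40 = true := by decide +kernel
theorem step_284 : allR (stepChk tt cc hi N rk rT term) 11360 40 = true := by decide +kernel
theorem step_285 : allR (stepChk tt cc hi N rk rT term) 11400 40 = true := by decide +kernel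
theorem step_286 : allR (stepChk tt cc hi N rk rT term) 11440 40 = true := by decide +kernel
theorem step_287 : allR (stepChk tt cc hi N rk rT term) 11480 40 = true := by decide +kernel
theorem step_288 : allR (stepChk tt cc hi N rk rT term) 11520 40 = true := by decide +kernel
theorem step_289 : allR (stepChk tt cc hi N rk rT term) 11560 40 = true := by decide +kernel
theorem step_290 : allR (stepChk tt cc hi N rk rT term) 11600 40 = true := by decide +kernel
theorem step_291 : allR (stepChk tt cc hi N rk rT term) 11640 40 = true := by decide +kernel
theorem step_292 : allR (stepChk tt cc hi N rk rT term) 11680 40 = true := by decide +kernel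
theorem step_293 : allR (stepChk tt cc hi N rk rT term) 11720 40 = true := by decide +kernel
theorem step_294 : allR (stepChk tt cc hi N rk rT term) 11760 40 = true := by decide +kernel
theorem step_295 : allR (stepChk tt cc hi N rk rT term) 11800 40 = true := by decide +kernel
theorem step_296 : allR (stepChk tt cc hi N rk rT term) 11840 40 = true := by decide +kernel
theorem step_297 : allR (stepChk tt cc hi N rk rT term) 11880 40 = true := by decide +kernel
theorem step_298 : allR (stepChk tt cc hi N rk rT term) 11920 40 = true := by decide +kernel
theorem step_299 : allR (stepChk tt cc hi N rk rT term) 11960 40 = true := by decide +kernel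
theorem step_300 : allR (stepChk tt cc hi N rk rT term) 12000 40 = true := by decide +kernel
theorem step_301 : allR (stepChk tt cc hi N rk rT term) 12040 40 = true := by decide +kernel
theorem step_302 : allR (stepChk tt cc hi N rk rT term) 12080 40 = true := by decide +kernel
theorem step_303 : allR (stepChk tt cc hi N rk rT term) 12120 40 = true := by decide +kernel
theorem step_304 : allR (stepChk tt cc hi N rk rT term) 12160 40 = true := by decide +kernel
theorem step_305 : allR (stepChk tt cc hi N rk rT term) 12200 40 = true := by decide +kernel
theorem step_306 : allR (stepChk tt cc hi N rk rT term) 12240 40 = true := by decide +kernel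
theorem step_307 : allR (stepChk tt cc hi N rk rT term) 12280 40 = true := by decide +kernel
theorem step_308 : allR (stepChk tt cc hi N rk rT term) 12320 40 = true := by decide +kernel
theorem step_309 : allR (stepChk tt cc hi N rk rT term) 12360 40 = true := by decide +kernel
theorem step_310 : allR (stepChk tt cc hi N rk rT term) 12400 40 = true := by decide +kernel
theorem step_311 : allR (stepChk tt cc hi N rk rT term) 12440 40 = true := by decide +kernel
theorem step_312 : allR (stepChk tt cc hi N rk rT term) 12480 40 = true := by decide +kernel
theorem step_313 : allR (stepChk tt cc hi N rk rT term) 12520 40 = true := by decide +kernel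
theorem step_314 : allR (stepChk tt cc hi N rk rT term) 12560 40 = true := by decide +kernel
theorem step_315 : allR (stepChk tt cc hi N rk rT term) 12600 40 = true := by decide +kernel
theorem step_316 : allR (stepChk tt cc hi N rk rT term) 12640 40 = true := by decide +kernel
theorem step_317 : allR (stepChk tt cc hi N rk rT term) 12680 40 = true := by decide +kernel
theorem step_318 : allR (stepChk tt cc hi N rk rT term) 12720 40 = true := by decide +kernel
theorem step_319 : allR (stepChk tt cc hi N rk rT term) 12760 40 = true := by decide +kernel
theorem step_320 : allR (stepChk tt cc hi N rk rT term) 12800 40 = true := by decide +kernel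
theorem step_321 : allR (stepChk tt cc hi N rk rT term) 12840 40 = true := by decide +kernel
theorem step_322 : allR (stepChk tt cc hi N rk rT term) 12880 40 = true := by decide +kernel
theorem step_323 : allR (stepChk tt cc hi N rk rT term) 12920 40 = true := by decide +kernel
theorem step_324 : allR (stepChk tt cc hi N rk rT term) 12960 40 = true := by decide +kernel
theorem step_325 : allR (stepChk tt cc hi N rk rT term) 13000 40 = true := by decide +kernel
theorem step_326 : allR (stepChk tt cc hi N rk rT term) 13040 40 = true := by decide +kernel
theorem step_327 : allR (stepChk tt cc hi N rk rT term) 13080 40 = true := by decide +kernel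
theorem step_328 : allR (stepChk tt cc hi N rk rT term) 13120 40 = true := by decide +kernel
theorem step_329 : allR (stepChk tt cc hi N rk rT term) 13160 40 = true := by decide +kernel
theorem step_330 : allR (stepChk tt cc hi N rk rT term) 13200 40 = true := by decide +kernel
theorem step_331 : allR (stepChk tt cc hi N rk rT term) 13240 40 = true := by decide +kernel
theorem step_332 : allR (stepChk tt cc hi N rk rT term) 13280 40 = true := by decide +kernel
theorem step_333 : allR (stepChk tt cc hi N rk rT term) 13320 40 = true := by decide +kernel
theorem step_334 : allR (stepChk tt cc hi N rk rT term) 13360 40 = true := by decide +kernel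
theorem step_335 : allR (stepChk tt cc hi N rk rT term) 13400 40 = true := by decide +kernel
theorem step_336 : allR (stepChk tt cc hi N rk rT term) 13440 40 = true := by decide +kernel
theorem step_337 : allR (stepChk tt cc hi N rk rT term) 13480 40 = true := by decide +kernel
theorem step_338 : allR (stepChk tt cc hi N rk rT term) 13520 40 = true := by decide +kernel
theorem step_339 : allR (stepChk tt cc hi N rk rT term) 13560 40 = true := by decide +kernel
theorem step_340 : allR (stepChk tt cc hi N rk rT term) 13600 40 = true := by decide +kernel
theorem step_341 : allR (stepChk tt cc hi N rk rT term) 13640 40 = true := by decide +kernel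
theorem step_342 : allR (stepChk tt cc hi N rk rT term) 13680 40 = true := by decide +kernel
theorem step_343 : allR (stepChk tt cc hi N rk rT term) 13720 40 = true := by decide +kernel
theorem step_344 : allR (stepChk tt cc hi N rk rT term) 13760 40 = true := by decide +kernel
theorem step_345 : allR (stepChk tt cc hi N rk rT term) 13800 40 = true := by decide +kernel
theorem step_346 : allR (stepChk tt cc hi N rk rT term) 13840 40 = true := by decide +kernel
theorem step_347 : allR (stepChk tt cc hi N rk rT term) 13880 40 = true := by decide +kernel
theorem step_348 : allR (stepChk tt cc hi N rk rT term) 13920 40 = true := by decide +kernel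
theorem step_349 : allR (stepChk tt cc hi N rk rT term) 13960 40 = true := by decide +kernel
theorem step_350 : allR (stepChk tt cc hi N rk rT term) 14000 40 = true := by decide +kernel
theorem step_351 : allR (stepChk tt cc hi N rk rT term) 14040 40 = true := by decide +kernel
theorem step_352 : allR (stepChk tt cc hi N rk rT term) 14080 40 = true := by decide +kernel
theorem step_353 : allR (stepChk tt cc hi N rk rT term) 14120 40 = true := by decide +kernel
theorem step_354 : allR (stepChk tt cc hi N rk rT term) 14160 40 = true := by decide +kernel
theorem step_355 : allR (stepChk tt cc hi N rk rT term) 14200 40 = true := by decide +kernel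
theorem step_356 : allR (stepChk tt cc hi N rk rT term) 14240 40 = true := by decide +kernel
theorem step_357 : allR (stepChk tt cc hi N rk rT term) 14280 40 = true := by decide +kernel
theorem step_358 : allR (stepChk tt cc hi N rk rT term) 14320 40 = true := by decide +kernel
theorem step_359 : allR (stepChk tt cc hi N rk rT term) 14360 40 = true := by decide +kernel
theorem step_360 : allR (stepChk tt cc hi N rk rT term) 14400 40 = true := by decide +kernel
theorem step_361 : allR (stepChk tt cc hi N rk rT term) 14440 40 = true := by decide +kernel
theorem step_362 : allR (stepChk tt cc hi N rk rT term) 14480 40 = true := by decide +kernel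
theorem step_363 : allR (stepChk tt cc hi N rk rT term) 14520 40 = true := by decide +kernel
theorem step_364 : allR (stepChk tt cc hi N rk rT term) 14560 40 = true := by decide +kernel
theorem step_365 : allR (stepChk tt cc hi N rk rT term) 14600 40 = true := by decide +kernel
theorem step_366 : allR (stepChk tt cc hi N rk rT term) 14640 40 = true := by decide +kernel
theorem step_367 : allR (stepChk tt cc hi N rk rT term) 14680 40 = true := by decide +kernel
theorem step_368 : allR (stepChk tt cc hi N rk rT term) 14720 40 = true := by decide +kernel
theorem step_369 : allR (stepChk tt cc hi N rk rT term) 14760 40 = true := by decide +kernel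
theorem step_370 : allR (stepChk tt cc hi N rk rT term) 14800 40 = true := by decide +kernel
theorem step_371 : allR (stepChk tt cc hi N rk rT term) 14840 40 = true := by decide +kernel
theorem step_372 : allR (stepChk tt cc hi N rk rT term) 14880 40 = true := by decide +kernel
theorem step_373 : allR (stepChk tt cc hi N rk rT term) 14920 40 = true := by decide +kernel
theorem step_374 : allR (stepChk tt cc hi N rk rT term) 14960 40 = true := by decide +kernel
theorem step_375 : allR (stepChk tt cc hi N rk rT term) 15000 40 = true := by decide +kernel
theorem step_376 : allR (stepChk tt cc hi N rk rT term) 15040 40 = true := by decide +kernel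
theorem step_377 : allR (stepChk tt cc hi N rk rT term) 15080 40 = true := by decide +kernel
theorem step_378 : allR (stepChk tt cc hi N rk rT term) 15120 40 = true := by decide +kernel
theorem step_379 : allR (stepChk tt cc hi N rk rT term) 15160 40 = true := by decide +kernel
theorem step_380 : allR (stepChk tt cc hi N rk rT term) 15200 40 = true := by decide +kernel
theorem step_381 : allR (stepChk tt cc hi N rk rT term) 15240 40 = true := by decide +kernel
theorem step_382 : allR (stepChk tt cc hi N rk rT term) 15280 40 = true := by decide +kernel
theorem step_383 : allR (stepChk tt cc hi N rk rT term) 15320 40 = true := by decide +kernel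
theorem step_384 : allR (stepChk tt cc hi N rk rT term) 15360 40 = true := by decide +kernel
theorem step_385 : allR (stepChk tt cc hi N rk rT term) 15400 40 = true := by decide +kernel
theorem step_386 : allR (stepChk tt cc hi N rk rT term) 15440 40 = true := by decide +kernel
theorem step_387 : allR (stepChk tt cc hi N rk rT term) 15480 40 = true := by decide +kernel
theorem step_388 : allR (stepChk tt cc hi N rk rT term) 15520 40 = true := by decide +kernel
theorem step_389 : allR (stepChk tt cc hi N rk rT term) 15560 40 = true := by decide +kernel
theorem step_390 : allR (stepChk tt cc hi N rk rT term) 15600 40 = true := by decide +kernel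
theorem step_391 : allR (stepChk tt cc hi N rk rT term) 15640 40 = true := by decide +kernel
theorem step_392 : allR (stepChk tt cc hi N rk rT term) 15680 40 = true := by decide +kernel
theorem step_393 : allR (stepChk tt cc hi N rk rT term) 15720 40 = true := by decide +kernel
theorem step_394 : allR (stepChk tt cc hi N rk rT term) 15760 40 = true := by decide +kernel
theorem step_395 : allR (stepChk tt cc hi N rk rT term) 15800 40 = true := by decide +kernel
theorem step_396 : allR (stepChk tt cc hi N rk rT term) 15840 40 = true := by decide +kernel
theorem step_397 : allR (stepChk tt cc hi N rk rT term) 15880 40 = true := by decide +kernel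
theorem step_398 : allR (stepChk tt cc hi N rk rT term) 15920 40 = true := by decide +kernel
theorem step_399 : allR (stepChk tt cc hi N rk rT term) 15960 40 = true := by decide +kernel
theorem step_400 : allR (stepChk tt cc hi N rk rT term) 16000 40 = true := by decide +kernel
theorem step_401 : allR (stepChk tt cc hi N rk rT term) 16040 40 = true := by decide +kernel
theorem step_402 : allR (stepChk tt cc hi N rk rT term) 16080 40 = true := by decide +kernel
theorem step_403 : allR (stepChk tt cc hi N rk rT term) 16120 40 = true := by decide +kernel
theorem step_404 : allR (stepChk tt cc hi N rk rT term) 16160 40 = true := by decide +kernel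
theorem step_405 : allR (stepChk tt cc hi N rk rT term) 16200 40 = true := by decide +kernel
theorem step_406 : allR (stepChk tt cc hi N rk rT term) 16240 40 = true := by decide +kernel
theorem step_407 : allR (stepChk tt cc hi N rk rT term) 16280 40 = true := by decide +kernel
theorem step_408 : allR (stepChk tt cc hi N rk rT term) 16320 40 = true := by decide +kernel
theorem step_409 : allR (stepChk tt cc hi N rk rT term) 16360 40 = true := by decide +kernel
theorem step_410 : allR (stepChk tt cc hi N rk rT term) 16400 40 = true := by decide +kernel
theorem step_411 : allR (stepChk tt cc hi N rk rT term) 16440 40 = true := by decide +kernel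
theorem step_412 : allR (stepChk tt cc hi N rk rT term) 16480 40 = true := by decide +kernel
theorem step_413 : allR (stepChk tt cc hi N rk rT term) 16520 40 = true := by decide +kernel
theorem step_414 : allR (stepChk tt cc hi N rk rT term) 16560 40 = true := by decide +kernel
theorem step_415 : allR (stepChk tt cc hi N rk rT term) 16600 40 = true := by decide +kernel
theorem step_416 : allR (stepChk tt cc hi N rk rT term) 16640 40 = true := by decide +kernel
theorem step_417 : allR (stepChk tt cc hi N rk rT term) 16680 40 = true := by decide +kernel
theorem step_418 : allR (stepChk tt cc hi N rk rT term) 16720 40 = true := by decide +kernel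
theorem step_419 : allR (stepChk tt cc hi N rk rT term) 16760 40 = true := by decide +kernel
theorem step_420 : allR (stepChk tt cc hi N rk rT term) 16800 40 = true := by decide +kernel
theorem step_421 : allR (stepChk tt cc hi N rk rT term) 16840 40 = true := by decide +kernel
theorem step_422 : allR (stepChk tt cc hi N rk rT term) 16880 40 = true := by decide +kernel
theorem step_423 : allR (stepChk tt cc hi N rk rT term) 16920 40 = true := by decide +kernel
theorem step_424 : allR (stepChk tt cc hi N rk rT term) 16960 40 = true := by decide +kernel
theorem step_425 : allR (stepChk tt cc hi N rk rT term) 17000 40 = true := by decide +kernel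
theorem step_426 : allR (stepChk tt cc hi N rk rT term) 17040 40 = true := by decide +kernel
theorem step_427 : allR (stepChk tt cc hi N rk rT term) 17080 40 = true := by decide +kernel
theorem step_428 : allR (stepChk tt cc hi N rk rT term) 17120 40 = true := by decide +kernel
theorem step_429 : allR (stepChk tt cc hi N rk rT term) 17160 40 = true := by decide +kernel
theorem step_430 : allR (stepChk tt cc hi N rk rT term) 17200 40 = true := by decide +kernel
theorem step_431 : allR (stepChk tt cc hi N rk rT term) 17240 40 = true := by decide +kernel
theorem step_432 : allR (stepChk tt cc hi N rk rT term) 17280 40 = true := by decide +kernel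
theorem step_433 : allR (stepChk tt cc hi N rk rT term) 17320 40 = true := by decide +kernel
theorem step_434 : allR (stepChk tt cc hi N rk rT term) 17360 40 = true := by decide +kernel
theorem step_435 : allR (stepChk tt cc hi N rk rT term) 17400 40 = true := by decide +kernel
theorem step_436 : allR (stepChk tt cc hi N rk rT term) 17440 40 = true := by decide +kernel
theorem step_437 : allR (stepChk tt cc hi N rk rT term) 17480 40 = true := by decide +kernel
theorem step_438 : allR (stepChk tt cc hi N rk rT term) 17520 40 = true := by decide +kernel
theorem step_439 : allR (stepChk tt cc hi N rk rT term) 17560 40 = true := by decide +kernel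
theorem step_440 : allR (stepChk tt cc hi N rk rT term) 17600 40 = true := by decide +kernel
theorem step_441 : allR (stepChk tt cc hi N rk rT term) 17640 40 = true := by decide +kernel
theorem step_442 : allR (stepChk tt cc hi N rk rT term) 17680 40 = true := by decide +kernel
theorem step_443 : allR (stepChk tt cc hi N rk rT term) 17720 40 = true := by decide +kernel
theorem step_444 : allR (stepChk tt cc hi N rk rT term) 17760 40 = true := by decide +kernel
theorem step_445 : allR (stepChk tt cc hi N rk rT term) 17800 40 = true := by decide +kernel
theorem step_446 : allR (stepChk tt cc hi N rk rT term) 17840 40 = true := by decide +kernel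
theorem step_447 : allR (stepChk tt cc hi N rk rT term) 17880 40 = true := by decide +kernel
theorem step_448 : allR (stepChk tt cc hi N rk rT term) 17920 40 = true := by decide +kernel
theorem step_449 : allR (stepChk tt cc hi N rk rT term) 17960 40 = true := by decide +kernel
theorem step_450 : allR (stepChk tt cc hi N rk rT term) 18000 40 = true := by decide +kernel
theorem step_451 : allR (stepChk tt cc hi N rk rT term) 18040 40 = true := by decide +kernel
theorem step_452 : allR (stepChk tt cc hi N rk rT term) 18080 40 = true := by decide +kernel
theorem step_453 : allR (stepChk tt cc hi N rk rT term) 18120 40 = true := by decide +kernel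
theorem step_454 : allR (stepChk tt cc hi N rk rT term) 18160 40 = true := by decide +kernel
theorem step_455 : allR (stepChk tt cc hi N rk rT term) 18200 40 = true := by decide +kernel
theorem step_456 : allR (stepChk tt cc hi N rk rT term) 18240 40 = true := by decide +kernel
theorem step_457 : allR (stepChk tt cc hi N rk rT term) 18280 40 = true := by decide +kernel
theorem step_458 : allR (stepChk tt cc hi N rk rT term) 18320 40 = true := by decide +kernel
theorem step_459 : allR (stepChk tt cc hi N rk rT term) 18360 40 = true := by decide +kernel
theorem step_460 : allR (stepChk tt cc hi N rk rT term) 18400 40 = true := by decide +kernel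
theorem step_461 : allR (stepChk tt cc hi N rk rT term) 18440 40 = true := by decide +kernel
theorem step_462 : allR (stepChk tt cc hi N rk rT term) 18480 40 = true := by decide +kernel
theorem step_463 : allR (stepChk tt cc hi N rk rT term) 18520 40 = true := by decide +kernel
theorem step_464 : allR (stepChk tt cc hi N rk rT term) 18560 40 = true := by decide +kernel
theorem step_465 : allR (stepChk tt cc hi N rk rT term) 18600 40 = true := by decide +kernel
theorem step_466 : allR (stepChk tt cc hi N rk rT term) 18640 40 = true := by decide +kernel
theorem step_467 : allR (stepChk tt cc hi N rk rT term) 18680 40 = true := by decide +kernel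
theorem step_468 : allR (stepChk tt cc hi N rk rT term) 18720 40 = true := by decide +kernel
theorem step_469 : allR (stepChk tt cc hi N rk rT term) 18760 40 = true := by decide +kernel
theorem step_470 : allR (stepChk tt cc hi N rk rT term) 18800 40 = true := by decide +kernel
theorem step_471 : allR (stepChk tt cc hi N rk rT term) 18840 40 = true := by decide +kernel
theorem step_472 : allR (stepChk tt cc hi N rk rT term) 18880 40 = true := by decide +kernel
theorem step_473 : allR (stepChk tt cc hi N rk rT term) 18920 40 = true := by decide +kernel
theorem step_474 : allR (stepChk tt cc hi N rk rT term) 18960 40 = true := by decide +kernel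
theorem step_475 : allR (stepChk tt cc hi N rk rT term) 19000 40 = true := by decide +kernel
theorem step_476 : allR (stepChk tt cc hi N rk rT term) 19040 40 = true := by decide +kernel
theorem step_477 : allR (stepChk tt cc hi N rk rT term) 19080 40 = true := by decide +kernel
theorem step_478 : allR (stepChk tt cc hi N rk rT term) 19120 40 = true := by decide +kernel
theorem step_479 : allR (stepChk tt cc hi N rk rT term) 19160 40 = true := by decide +kernel
theorem step_480 : allR (stepChk tt cc hi N rk rT term) 19200 40 = true := by decide +kernel
theorem step_481 : allR (stepChk tt cc hi N rk rT term) 19240 40 = true := by decide +kernel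
theorem step_482 : allR (stepChk tt cc hi N rk rT term) 19280 40 = true := by decide +kernel
theorem step_483 : allR (stepChk tt cc hi N rk rT term) 19320 40 = true := by decide +kernel
theorem step_484 : allR (stepChk tt cc hi N rk rT term) 19360 40 = true := by decide +kernel
theorem step_485 : allR (stepChk tt cc hi N rk rT term) 19400 40 = true := by decide +kernel
theorem step_486 : allR (stepChk tt cc hi N rk rT term) 19440 40 = true := by decide +kernel
theorem step_487 : allR (stepChk tt cc hi N rk rT term) 19480 40 = true := by decide +kernel
theorem step_488 : allR (stepChk tt cc hi N rk rT term) 19520 40 = true := by decide +kernel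
theorem step_489 : allR (stepChk tt cc hi N rk rT term) 19560 40 = true := by decide +kernel
theorem step_490 : allR (stepChk tt cc hi N rk rT term) 19600 40 = true := by decide +kernel
theorem step_491 : allR (stepChk tt cc hi N rk rT term) 19640 40 = true := by decide +kernel
theorem step_492 : allR (stepChk tt cc hi N rk rT term) 19680 40 = true := by decide +kernel
theorem step_493 : allR (stepChk tt cc hi N rk rT term) 19720 40 = true := by decide +kernel
theorem step_494 : allR (stepChk tt cc hi N rk rT term) 19760 40 = true := by decide +kernel
theorem step_495 : allR (stepChk tt cc hi N rk rT term) 19800 40 = true := by decide +kernel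
theorem step_496 : allR (stepChk tt cc hi N rk rT term) 19840 40 = true := by decide +kernel
theorem step_497 : allR (stepChk tt cc hi N rk rT term) 19880 40 = true := by decide +kernel
theorem step_498 : allR (stepChk tt cc hi N rk rT term) 19920 40 = true := by decide +kernel
theorem step_499 : allR (stepChk tt cc hi N rk rT term) 19960 40 = true := by decide +kernel
theorem step_500 : allR (stepChk tt cc hi N rk rT term) 20000 40 = true := by decide +kernel
theorem step_501 : allR (stepChk tt cc hi N rk rT term) 20040 40 = true := by decide +kernel
theorem step_502 : allR (stepChk tt cc hi N rk rT term) 20080 40 = true := by decide +kernel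
theorem step_503 : allR (stepChk tt cc hi N rk rT term) 20120 40 = true := by decide +kernel
theorem step_504 : allR (stepChk tt cc hi N rk rT term) 20160 40 = true := by decide +kernel
theorem step_505 : allR (stepChk tt cc hi N rk rT term) 20200 40 = true := by decide +kernel
theorem step_506 : allR (stepChk tt cc hi N rk rT term) 20240 40 = true := by decide +kernel
theorem step_507 : allR (stepChk tt cc hi N rk rT term) 20280 40 = true := by decide +kernel
theorem step_508 : allR (stepChk tt cc hi N rk rT term) 20320 40 = true := by decide +kernel
theorem step_509 : allR (stepChk tt cc hi N rk rT term) 20360 40 = true := by decide +kernel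
theorem step_510 : allR (stepChk tt cc hi N rk rT term) 20400 40 = true := by decide +kernel
theorem step_511 : allR (stepChk tt cc hi N rk rT term) 20440 40 = true := by decide +kernel
theorem step_512 : allR (stepChk tt cc hi N rk rT term) 20480 40 = true := by decide +kernel
theorem step_513 : allR (stepChk tt cc hi N rk rT term) 20520 40 = true := by decide +kernel
theorem step_514 : allR (stepChk tt cc hi N rk rT term) 20560 40 = true := by decide +kernel
theorem step_515 : allR (stepChk tt cc hi N rk rT term) 20600 40 = true := by decide +kernel
theorem step_516 : allR (stepChk tt cc hi N rk rT term) 20640 40 = true := by decide +kernel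
theorem step_517 : allR (stepChk tt cc hi N rk rT term) 20680 40 = true := by decide +kernel
theorem step_518 : allR (stepChk tt cc hi N rk rT term) 20720 40 = true := by decide +kernel
theorem step_519 : allR (stepChk tt cc hi N rk rT term) 20760 40 = true := by decide +kernel
theorem step_520 : allR (stepChk tt cc hi N rk rT term) 20800 40 = true := by decide +kernel
theorem step_521 : allR (stepChk tt cc hi N rk rT term) 20840 40 = true := by decide +kernel
theorem step_522 : allR (stepChk tt cc hi N rk rT term) 20880 40 = true := by decide +kernel
theorem step_523 : allR (stepChk tt cc hi N rk rT term) 20920 40 = true := by decide +kernel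
theorem step_524 : allR (stepChk tt cc hi N rk rT term) 20960 40 = true := by decide +kernel
theorem step_525 : allR (stepChk tt cc hi N rk rT term) 21000 40 = true := by decide +kernel
theorem step_526 : allR (stepChk tt cc hi N rk rT term) 21040 40 = true := by decide +kernel
theorem step_527 : allR (stepChk tt cc hi N rk rT term) 21080 40 = true := by decide +kernel
theorem step_528 : allR (stepChk tt cc hi N rk rT term) 21120 40 = true := by decide +kernel
theorem step_529 : allR (stepChk tt cc hi N rk rT term) 21160 40 = true := by decide +kernel
theorem step_530 : allR (stepChk tt cc hi N rk rT term) 21200 40 = true := by decide +kernel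
theorem step_531 : allR (stepChk tt cc hi N rk rT term) 21240 40 = true := by decide +kernel
theorem step_532 : allR (stepChk tt cc hi N rk rT term) 21280 40 = true := by decide +kernel
theorem step_533 : allR (stepChk tt cc hi N rk rT term) 21320 40 = true := by decide +kernel
theorem step_534 : allR (stepChk tt cc hi N rk rT term) 21360 40 = true := by decide +kernel
theorem step_535 : allR (stepChk tt cc hi N rk rT term) 21400 40 = true := by decide +kernel
theorem step_536 : allR (stepChk tt cc hi N rk rT term) 21440 40 = true := by decide +kernel
theorem step_537 : allR (stepChk tt cc hi N rk rT term) 21480 40 = true := by decide +kernel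
theorem step_538 : allR (stepChk tt cc hi N rk rT term) 21520 40 = true := by decide +kernel
theorem step_539 : allR (stepChk tt cc hi N rk rT term) 21560 40 = true := by decide +kernel
theorem step_540 : allR (stepChk tt cc hi N rk rT term) 21600 40 = true := by decide +kernel
theorem step_541 : allR (stepChk tt cc hi N rk rT term) 21640 40 = true := by decide +kernel
theorem step_542 : allR (stepChk tt cc hi N rk rT term) 21680 40 = true := by decide +kernel
theorem step_543 : allR (stepChk tt cc hi N rk rT term) 21720 40 = true := by decide +kernel
theorem step_544 : allR (stepChk tt cc hi N rk rT term) 21760 40 = true := by decide +kernel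
theorem step_545 : allR (stepChk tt cc hi N rk rT term) 21800 40 = true := by decide +kernel

end Vale.Agent.P183L.Tab
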