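import Vale.Agent.P183L.Tab

/-! step -/

namespace Vale.Agent.P183L.Tab

theorem step_546 : allR (stepChk tt cc hi N rk rT term) 21840 40 = true := by decide +kernel
theorem step_547 : allR (stepChk tt cc hi N rk rT term) 21880 40 = true := by decide +kernel
theorem step_548 : allR (stepChk tt cc hi N rk rT term) 21920 40 = true := by decide +kernel
theorem step_549 : allR (stepChk tt cc hi N rk rT term) 21960 40 = true := by decide +kernel
theorem step_550 : allR (stepChk tt cc hi N rk rT term) 22000 40 = true := by decide +kernel
theorem step_551 : allR (stepChk tt cc hi N rk rT term) 22040 40 = true := by decide +kernel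
theorem step_552 : allR (stepChk tt cc hi N rk rT term) 22080 40 = true := by decide +kernel
theorem step_553 : allR (stepChk tt cc hi N rk rT term) 22120 40 = true := by decide +kernel
theorem step_554 : allR (stepChk tt cc hi N rk rT term) 22160 40 = true := by decide +kernel
theorem step_555 : allR (stepChk tt cc hi N rk rT term) 22200 40 = true := by decide +kernel
theorem step_556 : allR (stepChk tt cc hi N rk rT term) 22240 40 = true := by decide +kernel
theorem step_557 : allR (stepChk tt cc hi N rk rT term) 22280 40 = true := by decide +kernel
theorem step_558 : allR (stepChk tt cc hi N rk rT term) 22320 40 = true := by decide +kernel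
theorem step_559 : allR (stepChk tt cc hi N rk rT term) 22360 40 = true := by decide +kernel
theorem step_560 : allR (stepChk tt cc hi N rk rT term) 22400 40 = true := by decide +kernel
theorem step_561 : allR (stepChk tt cc hi N rk rT term) 22440 40 = true := by decide +kernel
theorem step_562 : allR (stepChk tt cc hi N rk rT term) 22480 40 = true := by decide +kernel
theorem step_563 : allR (stepChk tt cc hi N rk rT term) 22520 40 = true := by decide +kernel
theorem step_564 : allR (stepChk tt cc hi N rk rT term) 22560 40 = true := by decide +kernel
theorem step_565 : allR (stepChk tt cc hi N rk rT term) 22600 40 = true := by decide +kernel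
theorem step_566 : allR (stepChk tt cc hi N rk rT term) 22640 40 = true := by decide +kernel
theorem step_567 : allR (stepChk tt cc hi N rk rT term) 22680 40 = true := by decide +kernel
theorem step_568 : allR (stepChk tt cc hi N rk rT term) 22720 40 = true := by decide +kernel
theorem step_569 : allR (stepChk tt cc hi N rk rT term) 22760 40 = true := by decide +kernel
theorem step_570 : allR (stepChk tt cc hi N rk rT term) 22800 40 = true := by decide +kernel
theorem step_571 : allR (stepChk tt cc hi N rk rT term) 22840 40 = true := by decide +kernel
theorem step_572 : allR (stepChk tt cc hi N rk rT term) 22880 40 = true := by decide +kernel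
theorem step_573 : allR (stepChk tt cc hi N rk rT term) 22920 40 = true := by decide +kernel
theorem step_574 : allR (stepChk tt cc hi N rk rT term) 22960 40 = true := by decide +kernel
theorem step_575 : allR (stepChk tt cc hi N rk rT term) 23000 40 = true := by decide +kernel
theorem step_576 : allR (stepChk tt cc hi N rk rT term) 23040 40 = true := by decide +kernel
theorem step_577 : allR (stepChk tt cc hi N rk rT term) 23080 40 = true := by decide +kernel
theorem step_578 : allR (stepChk tt cc hi N rk rT term) 23120 40 = true := by decide +kernel
theorem step_579 : allR (stepChk tt cc hi N rk rT term) 23160 40 = true := by decide +kernel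
theorem step_580 : allR (stepChk tt cc hi N rk rT term) 23200 40 = true := by decide +kernel
theorem step_581 : allR (stepChk tt cc hi N rk rT term) 23240 40 = true := by decide +kernel
theorem step_582 : allR (stepChk tt cc hi N rk rT term) 23280 40 = true := by decide +kernel
theorem step_583 : allR (stepChk tt cc hi N rk rT term) 23320 40 = true := by decide +kernel
theorem step_584 : allR (stepChk tt cc hi N rk rT term) 23360 40 = true := by decide +kernel
theorem step_585 : allR (stepChk tt cc hi N rk rT term) 23400 40 = true := by decide +kernel
theorem step_586 : allR (stepChk tt cc hi N rk rT term) 23440 40 = true := by decide +kernel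
theorem step_587 : allR (stepChk tt cc hi N rk rT term) 23480 40 = true := by decide +kernel
theorem step_588 : allR (stepChk tt cc hi N rk rT term) 23520 40 = true := by decide +kernel
theorem step_589 : allR (stepChk tt cc hi N rk rT term) 23560 40 = true := by decide +kernel
theorem step_590 : allR (stepChk tt cc hi N rk rT term) 23600 40 = true := by decide +kernel
theorem step_591 : allR (stepChk tt cc hi N rk rT term) 23640 40 = true := by decide +kernel
theorem step_592 : allR (stepChk tt cc hi N rk rT term) 23680 40 = true := by decide +kernel
theorem step_593 : allR (stepChk tt cc hi N rk rT term) 23720 40 = true := by decide +kernel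
theorem step_594 : allR (stepChk tt cc hi N rk rT term) 23760 40 = true := by decide +kernel
theorem step_595 : allR (stepChk tt cc hi N rk rT term) 23800 40 = true := by decide +kernel
theorem step_596 : allR (stepChk tt cc hi N rk rT term) 23840 40 = true := by decide +kernel
theorem step_597 : allR (stepChk tt cc hi N rk rT term) 23880 40 = true := by decide +kernel
theorem step_598 : allR (stepChk tt cc hi N rk rT term) 23920 40 = true := by decide +kernel
theorem step_599 : allR (stepChk tt cc hi N rk rT term) 23960 40 = true := by decide +kernel
theorem step_600 : allR (stepChk tt cc hi N rk rT term) 24000 40 = true := by decide +kernel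
theorem step_601 : allR (stepChk tt cc hi N rk rT term) 24040 40 = true := by decide +kernel
theorem step_602 : allR (stepChk tt cc hi N rk rT term) 24080 40 = true := by decide +kernel
theorem step_603 : allR (stepChk tt cc hi N rk rT term) 24120 40 = true := by decide +kernel
theorem step_604 : allR (stepChk tt cc hi N rk rT term) 24160 40 = true := by decide +kernel
theorem step_605 : allR (stepChk tt cc hi N rk rT term) 24200 40 = true := by decide +kernel
theorem step_606 : allR (stepChk tt cc hi N rk rT term) 24240 40 = true := by decide +kernel
theorem step_607 : allR (stepChk tt cc hi N rk rT term) 24280 40 = true := by decide +kernel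
theorem step_608 : allR (stepChk tt cc hi N rk rT term) 24320 40 = true := by decide +kernel
theorem step_609 : allR (stepChk tt cc hi N rk rT term) 24360 40 = true := by decide +kernel
theorem step_610 : allR (stepChk tt cc hi N rk rT term) 24400 40 = true := by decide +kernel
theorem step_611 : allR (stepChk tt cc hi N rk rT term) 24440 40 = true := by decide +kernel
theorem step_612 : allR (stepChk tt cc hi N rk rT term) 24480 40 = true := by decide +kernel
theorem step_613 : allR (stepChk tt cc hi N rk rT term) 24520 40 = true := by decide +kernel
theorem step_614 : allR (stepChk tt cc hi N rk rT term) 24560 40 = true := by decide +kernel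
theorem step_615 : allR (stepChk tt cc hi N rk rT term) 24600 40 = true := by decide +kernel
theorem step_616 : allR (stepChk tt cc hi N rk rT term) 24640 40 = true := by decide +kernel
theorem step_617 : allR (stepChk tt cc hi N rk rT term) 24680 40 = true := by decide +kernel
theorem step_618 : allR (stepChk tt cc hi N rk rT term) 24720 40 = true := by decide +kernel
theorem step_619 : allR (stepChk tt cc hi N rk rT term) 24760 40 = true := by decide +kernel
theorem step_620 : allR (stepChk tt cc hi N rk rT term) 24800 40 = true := by decide +kernel
theorem step_621 : allR (stepChk tt cc hi N rk rT term) 24840 40 = true := by decide +kernel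
theorem step_622 : allR (stepChk tt cc hi N rk rT term) 24880 40 = true := by decide +kernel
theorem step_623 : allR (stepChk tt cc hi N rk rT term) 24920 40 = true := by decide +kernel
theorem step_624 : allR (stepChk tt cc hi N rk rT term) 24960 40 = true := by decide +kernel
theorem step_625 : allR (stepChk tt cc hi N rk rT term) 25000 40 = true := by decide +kernel
theorem step_626 : allR (stepChk tt cc hi N rk rT term) 25040 40 = true := by decide +kernel
theorem step_627 : allR (stepChk tt cc hi N rk rT term) 25080 40 = true := by decide +kernel
theorem step_628 : allR (stepChk tt cc hi N rk rT term) 25120 40 = true := by decide +kernel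
theorem step_629 : allR (stepChk tt cc hi N rk rT term) 25160 40 = true := by decide +kernel
theorem step_630 : allR (stepChk tt cc hi N rk rT term) 25200 40 = true := by decide +kernel
theorem step_631 : allR (stepChk tt cc hi N rk rT term) 25240 40 = true := by decide +kernel
theorem step_632 : allR (stepChk tt cc hi N rk rT term) 25280 40 = true := by decide +kernel
theorem step_633 : allR (stepChk tt cc hi N rk rT term) 25320 40 = true := by decide +kernel
theorem step_634 : allR (stepChk tt cc hi N rk rT term) 25360 40 = true := by decide +kernel
theorem step_635 : allR (stepChk tt cc hi N rk rT term) 25400 40 = true := by decide +kernel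
theorem step_636 : allR (stepChk tt cc hi N rk rT term) 25440 40 = true := by decide +kernel
theorem step_637 : allR (stepChk tt cc hi N rk rT term) 25480 40 = true := by decide +kernel
theorem step_638 : allR (stepChk tt cc hi N rk rT term) 25520 40 = true := by decide +kernel
theorem step_639 : allR (stepChk tt cc hi N rk rT term) 25560 40 = true := by decide +kernel
theorem step_640 : allR (stepChk tt cc hi N rk rT term) 25600 40 = true := by decide +kernel
theorem step_641 : allR (stepChk tt cc hi N rk rT term) 25640 40 = true := by decide +kernel
theorem step_642 : allR (stepChk tt cc hi N rk rT term) 25680 40 = true := by decide +kernel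
theorem step_643 : allR (stepChk tt cc hi N rk rT term) 25720 40 = true := by decide +kernel
theorem step_644 : allR (stepChk tt cc hi N rk rT term) 25760 40 = true := by decide +kernel
theorem step_645 : allR (stepChk tt cc hi N rk rT term) 25800 40 = true := by decide +kernel
theorem step_646 : allR (stepChk tt cc hi N rk rT term) 25840 40 = true := by decide +kernel
theorem step_647 : allR (stepChk tt cc hi N rk rT term) 25880 40 = true := by decide +kernel
theorem step_648 : allR (stepChk tt cc hi N rk rT term) 25920 40 = true := by decide +kernel
theorem step_649 : allR (stepChk tt cc hi N rk rT term) 25960 40 = true := by decide +kernel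
theorem step_650 : allR (stepChk tt cc hi N rk rT term) 26000 40 = true := by decide +kernel
theorem step_651 : allR (stepChk tt cc hi N rk rT term) 26040 40 = true := by decide +kernel
theorem step_652 : allR (stepChk tt cc hi N rk rT term) 26080 40 = true := by decide +kernel
theorem step_653 : allR (stepChk tt cc hi N rk rT term) 26120 40 = true := by decide +kernel
theorem step_654 : allR (stepChk tt cc hi N rk rT term) 26160 40 = true := by decide +kernel
theorem step_655 : allR (stepChk tt cc hi N rk rT term) 26200 40 = true := by decide +kernel
theorem step_656 : allR (stepChk tt cc hi N rk rT term) 26240 40 = true := by decide +kernel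
theorem step_657 : allR (stepChk tt cc hi N rk rT term) 26280 40 = true := by decide +kernel
theorem step_658 : allR (stepChk tt cc hi N rk rT term) 26320 40 = true := by decide +kernel
theorem step_659 : allR (stepChk tt cc hi N rk rT term) 26360 40 = true := by decide +kernel
theorem step_660 : allR (stepChk tt cc hi N rk rT term) 26400 40 = true := by decide +kernel
theorem step_661 : allR (stepChk tt cc hi N rk rT term) 26440 40 = true := by decide +kernel
theorem step_662 : allR (stepChk tt cc hi N rk rT term) 26480 40 = true := by decide +kernel
theorem step_663 : allR (stepChk tt cc hi N rk rT term) 26520 40 = true := by decide +kernel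
theorem step_664 : allR (stepChk tt cc hi N rk rT term) 26560 40 = true := by decide +kernel
theorem step_665 : allR (stepChk tt cc hi N rk rT term) 26600 40 = true := by decide +kernel
theorem step_666 : allR (stepChk tt cc hi N rk rT term) 26640 40 = true := by decide +kernel
theorem step_667 : allR (stepChk tt cc hi N rk rT term) 26680 40 = true := by decide +kernel
theorem step_668 : allR (stepChk tt cc hi N rk rT term) 26720 40 = true := by decide +kernel
theorem step_669 : allR (stepChk tt cc hi N rk rT term) 26760 40 = true := by decide +kernel
theorem step_670 : allR (stepChk tt cc hi N rk rT term) 26800 40 = true := by decide +kernel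
theorem step_671 : allR (stepChk tt cc hi N rk rT term) 26840 40 = true := by decide +kernel
theorem step_672 : allR (stepChk tt cc hi N rk rT term) 26880 40 = true := by decide +kernel
theorem step_673 : allR (stepChk tt cc hi N rk rT term) 26920 40 = true := by decide +kernel
theorem step_674 : allR (stepChk tt cc hi N rk rT term) 26960 40 = true := by decide +kernel
theorem step_675 : allR (stepChk tt cc hi N rk rT term) 27000 40 = true := by decide +kernel
theorem step_676 : allR (stepChk tt cc hi N rk rT term) 27040 40 = true := by decide +kernel
theorem step_677 : allR (stepChk tt cc hi N rk rT term) 27080 40 = true := by decide +kernel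
theorem step_678 : allR (stepChk tt cc hi N rk rT term) 27120 40 = true := by decide +kernel
theorem step_679 : allR (stepChk tt cc hi N rk rT term) 27160 40 = true := by decide +kernel
theorem step_680 : allR (stepChk tt cc hi N rk rT term) 27200 40 = true := by decide +kernel
theorem step_681 : allR (stepChk tt cc hi N rk rT term) 27240 40 = true := by decide +kernel
theorem step_682 : allR (stepChk tt cc hi N rk rT term) 27280 40 = true := by decide +kernel
theorem step_683 : allR (stepChk tt cc hi N rk rT term) 27320 40 = true := by decide +kernel
theorem step_684 : allR (stepChk tt cc hi N rk rT term) 27360 40 = true := by decide +kernel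
theorem step_685 : allR (stepChk tt cc hi N rk rT term) 27400 40 = true := by decide +kernel
theorem step_686 : allR (stepChk tt cc hi N rk rT term) 27440 40 = true := by decide +kernel
theorem step_687 : allR (stepChk tt cc hi N rk rT term) 27480 40 = true := by decide +kernel
theorem step_688 : allR (stepChk tt cc hi N rk rT term) 27520 40 = true := by decide +kernel
theorem step_689 : allR (stepChk tt cc hi N rk rT term) 27560 40 = true := by decide +kernel
theorem step_690 : allR (stepChk tt cc hi N rk rT term) 27600 40 = true := by decide +kernel
theorem step_691 : allR (stepChk tt cc hi N rk rT term) 27640 40 = true := by decide +kernel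
theorem step_692 : allR (stepChk tt cc hi N rk rT term) 27680 40 = true := by decide +kernel
theorem step_693 : allR (stepChk tt cc hi N rk rT term) 27720 40 = true := by decide +kernel
theorem step_694 : allR (stepChk tt cc hi N rk rT term) 27760 40 = true := by decide +kernel
theorem step_695 : allR (stepChk tt cc hi N rk rT term) 27800 40 = true := by decide +kernel
theorem step_696 : allR (stepChk tt cc hi N rk rT term) 27840 40 = true := by decide +kernel
theorem step_697 : allR (stepChk tt cc hi N rk rT term) 27880 40 = true := by decide +kernel
theorem step_698 : allR (stepChk tt cc hi N rk rT term) 27920 40 = true := by decide +kernel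
theorem step_699 : allR (stepChk tt cc hi N rk rT term) 27960 40 = true := by decide +kernel
theorem step_700 : allR (stepChk tt cc hi N rk rT term) 28000 40 = true := by decide +kernel
theorem step_701 : allR (stepChk tt cc hi N rk rT term) 28040 40 = true := by decide +kernel
theorem step_702 : allR (stepChk tt cc hi N rk rT term) 28080 40 = true := by decide +kernel
theorem step_703 : allR (stepChk tt cc hi N rk rT term) 28120 40 = true := by decide +kernel
theorem step_704 : allR (stepChk tt cc hi N rk rT term) 28160 40 = true := by decide +kernel
theorem step_705 : allR (stepChk tt cc hi N rk rT term) 28200 40 = true := by decide +kernel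
theorem step_706 : allR (stepChk tt cc hi N rk rT term) 28240 40 = true := by decide +kernel
theorem step_707 : allR (stepChk tt cc hi N rk rT term) 28280 40 = true := by decide +kernel
theorem step_708 : allR (stepChk tt cc hi N rk rT term) 28320 40 = true := by decide +kernel
theorem step_709 : allR (stepChk tt cc hi N rk rT term) 28360 40 = true := by decide +kernel
theorem step_710 : allR (stepChk tt cc hi N rk rT term) 28400 40 = true := by decide +kernel
theorem step_711 : allR (stepChk tt cc hi N rk rT term) 28440 40 = true := by decide +kernel
theorem step_712 : allR (stepChk tt cc hi N rk rT term) 28480 40 = true := by decide +kernel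
theorem step_713 : allR (stepChk tt cc hi N rk rT term) 28520 40 = true := by decide +kernel
theorem step_714 : allR (stepChk tt cc hi N rk rT term) 28560 40 = true := by decide +kernel
theorem step_715 : allR (stepChk tt cc hi N rk rT term) 28600 40 = true := by decide +kernel
theorem step_716 : allR (stepChk tt cc hi N rk rT term) 28640 40 = true := by decide +kernel
theorem step_717 : allR (stepChk tt cc hi N rk rT term) 28680 40 = true := by decide +kernel
theorem step_718 : allR (stepChk tt cc hi N rk rT term) 28720 40 = true := by decide +kernel
theorem step_719 : allR (stepChk tt cc hi N rk rT term) 28760 40 = true := by decide +kernel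
theorem step_720 : allR (stepChk tt cc hi N rk rT term) 28800 40 = true := by decide +kernel
theorem step_721 : allR (stepChk tt cc hi N rk rT term) 28840 40 = true := by decide +kernel
theorem step_722 : allR (stepChk tt cc hi N rk rT term) 28880 40 = true := by decide +kernel
theorem step_723 : allR (stepChk tt cc hi N rk rT term) 28920 40 = true := by decide +kernel
theorem step_724 : allR (stepChk tt cc hi N rk rT term) 28960 40 = true := by decide +kernel
theorem step_725 : allR (stepChk tt cc hi N rk rT term) 29000 40 = true := by decide +kernel
theorem step_726 : allR (stepChk tt cc hi N rk rT term) 29040 40 = true := by decide +kernel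
theorem step_727 : allR (stepChk tt cc hi N rk rT term) 29080 40 = true := by decide +kernel
theorem step_728 : allR (stepChk tt cc hi N rk rT term) 29120 40 = true := by decide +kernel
theorem step_729 : allR (stepChk tt cc hi N rk rT term) 29160 40 = true := by decide +kernel
theorem step_730 : allR (stepChk tt cc hi N rk rT term) 29200 40 = true := by decide +kernel
theorem step_731 : allR (stepChk tt cc hi N rk rT term) 29240 40 = true := by decide +kernel
theorem step_732 : allR (stepChk tt cc hi N rk rT term) 29280 40 = true := by decide +kernel
theorem step_733 : allR (stepChk tt cc hi N rk rT term) 29320 40 = true := by decide +kernel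
theorem step_734 : allR (stepChk tt cc hi N rk rT term) 29360 40 = true := by decide +kernel
theorem step_735 : allR (stepChk tt cc hi N rk rT term) 29400 40 = true := by decide +kernel
theorem step_736 : allR (stepChk tt cc hi N rk rT term) 29440 40 = true := by decide +kernel
theorem step_737 : allR (stepChk tt cc hi N rk rT term) 29480 40 = true := by decide +kernel
theorem step_738 : allR (stepChk tt cc hi N rk rT term) 29520 40 = true := by decide +kernel
theorem step_739 : allR (stepChk tt cc hi N rk rT term) 29560 40 = true := by decide +kernel
theorem step_740 : allR (stepChk tt cc hi N rk rT term) 29600 40 = true := by decide +kernel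
theorem step_741 : allR (stepChk tt cc hi N rk rT term) 29640 40 = true := by decide +kernel
theorem step_742 : allR (stepChk tt cc hi N rk rT term) 29680 40 = true := by decide +kernel
theorem step_743 : allR (stepChk tt cc hi N rk rT term) 29720 40 = true := by decide +kernel
theorem step_744 : allR (stepChk tt cc hi N rk rT term) 29760 40 = true := by decide +kernel
theorem step_745 : allR (stepChk tt cc hi N rk rT term) 29800 40 = true := by decide +kernel
theorem step_746 : allR (stepChk tt cc hi N rk rT term) 29840 40 = true := by decide +kernel
theorem step_747 : allR (stepChk tt cc hi N rk rT term) 29880 40 = true := by decide +kernel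
theorem step_748 : allR (stepChk tt cc hi N rk rT term) 29920 40 = true := by decide +kernel
theorem step_749 : allR (stepChk tt cc hi N rk rT term) 29960 40 = true := by decide +kernel
theorem step_750 : allR (stepChk tt cc hi N rk rT term) 30000 40 = true := by decide +kernel
theorem step_751 : allR (stepChk tt cc hi N rk rT term) 30040 40 = true := by decide +kernel
theorem step_752 : allR (stepChk tt cc hi N rk rT term) 30080 40 = true := by decide +kernel
theorem step_753 : allR (stepChk tt cc hi N rk rT term) 30120 40 = true := by decide +kernel
theorem step_754 : allR (stepChk tt cc hi N rk rT term) 30160 40 = true := by decide +kernel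
theorem step_755 : allR (stepChk tt cc hi N rk rT term) 30200 40 = true := by decide +kernel
theorem step_756 : allR (stepChk tt cc hi N rk rT term) 30240 40 = true := by decide +kernel
theorem step_757 : allR (stepChk tt cc hi N rk rT term) 30280 40 = true := by decide +kernel
theorem step_758 : allR (stepChk tt cc hi N rk rT term) 30320 40 = true := by decide +kernel
theorem step_759 : allR (stepChk tt cc hi N rk rT term) 30360 40 = true := by decide +kernel
theorem step_760 : allR (stepChk tt cc hi N rk rT term) 30400 40 = true := by decide +kernel
theorem step_761 : allR (stepChk tt cc hi N rk rT term) 30440 40 = true := by decide +kernel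
theorem step_762 : allR (stepChk tt cc hi N rk rT term) 30480 40 = true := by decide +kernel
theorem step_763 : allR (stepChk tt cc hi N rk rT term) 30520 40 = true := by decide +kernel
theorem step_764 : allR (stepChk tt cc hi N rk rT term) 30560 40 = true := by decide +kernel
theorem step_765 : allR (stepChk tt cc hi N rk rT term) 30600 40 = true := by decide +kernel
theorem step_766 : allR (stepChk tt cc hi N rk rT term) 30640 40 = true := by decide +kernel
theorem step_767 : allR (stepChk tt cc hi N rk rT term) 30680 40 = true := by decide +kernel
theorem step_768 : allR (stepChk tt cc hi N rk rT term) 30720 40 = true := by decide +kernel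
theorem step_769 : allR (stepChk tt cc hi N rk rT term) 30760 40 = true := by decide +kernel
theorem step_770 : allR (stepChk tt cc hi N rk rT term) 30800 40 = true := by decide +kernel
theorem step_771 : allR (stepChk tt cc hi N rk rT term) 30840 40 = true := by decide +kernel
theorem step_772 : allR (stepChk tt cc hi N rk rT term) 30880 40 = true := by decide +kernel
theorem step_773 : allR (stepChk tt cc hi N rk rT term) 30920 40 = true := by decide +kernel
theorem step_774 : allR (stepChk tt cc hi N rk rT term) 30960 40 = true := by decide +kernel
theorem step_775 : allR (stepChk tt cc hi N rk rT term) 31000 40 = true := by decide +kernel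
theorem step_776 : allR (stepChk tt cc hi N rk rT term) 31040 40 = true := by decide +kernel
theorem step_777 : allR (stepChk tt cc hi N rk rT term) 31080 40 = true := by decide +kernel
theorem step_778 : allR (stepChk tt cc hi N rk rT term) 31120 40 = true := by decide +kernel
theorem step_779 : allR (stepChk tt cc hi N rk rT term) 31160 40 = true := by decide +kernel
theorem step_780 : allR (stepChk tt cc hi N rk rT term) 31200 40 = true := by decide +kernel
theorem step_781 : allR (stepChk tt cc hi N rk rT term) 31240 40 = true := by decide +kernel
theorem step_782 : allR (stepChk tt cc hi N rk rT term) 31280 40 = true := by decide +kernel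
theorem step_783 : allR (stepChk tt cc hi N rk rT term) 31320 40 = true := by decide +kernel
theorem step_784 : allR (stepChk tt cc hi N rk rT term) 31360 40 = true := by decide +kernel
theorem step_785 : allR (stepChk tt cc hi N rk rT term) 31400 40 = true := by decide +kernel
theorem step_786 : allR (stepChk tt cc hi N rk rT term) 31440 40 = true := by decide +kernel
theorem step_787 : allR (stepChk tt cc hi N rk rT term) 31480 40 = true := by decide +kernel
theorem step_788 : allR (stepChk tt cc hi N rk rT term) 31520 40 = true := by decide +kernel
theorem step_789 : allR (stepChk tt cc hi N rk rT term) 31560 40 = true := by decide +kernel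
theorem step_790 : allR (stepChk tt cc hi N rk rT term) 31600 40 = true := by decide +kernel
theorem step_791 : allR (stepChk tt cc hi N rk rT term) 31640 40 = true := by decide +kernel
theorem step_792 : allR (stepChk tt cc hi N rk rT term) 31680 40 = true := by decide +kernel
theorem step_793 : allR (stepChk tt cc hi N rk rT term) 31720 40 = true := by decide +kernel
theorem step_794 : allR (stepChk tt cc hi N rk rT term) 31760 40 = true := by decide +kernel
theorem step_795 : allR (stepChk tt cc hi N rk rT term) 31800 40 = true := by decide +kernel
theorem step_796 : allR (stepChk tt cc hi N rk rT term) 31840 40 = true := by decide +kernel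
theorem step_797 : allR (stepChk tt cc hi N rk rT term) 31880 40 = true := by decide +kernel
theorem step_798 : allR (stepChk tt cc hi N rk rT term) 31920 40 = true := by decide +kernel
theorem step_799 : allR (stepChk tt cc hi N rk rT term) 31960 40 = true := by decide +kernel
theorem step_800 : allR (stepChk tt cc hi N rk rT term) 32000 40 = true := by decide +kernel
theorem step_801 : allR (stepChk tt cc hi N rk rT term) 32040 40 = true := by decide +kernel
theorem step_802 : allR (stepChk tt cc hi N rk rT term) 32080 40 = true := by decide +kernel
theorem step_803 : allR (stepChk tt cc hi N rk rT term) 32120 40 = true := by decide +kernel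
theorem step_804 : allR (stepChk tt cc hi N rk rT term) 32160 40 = true := by decide +kernel
theorem step_805 : allR (stepChk tt cc hi N rk rT term) 32200 40 = true := by decide +kernel
theorem step_806 : allR (stepChk tt cc hi N rk rT term) 32240 40 = true := by decide +kernel
theorem step_807 : allR (stepChk tt cc hi N rk rT term) 32280 40 = true := by decide +kernel
theorem step_808 : allR (stepChk tt cc hi N rk rT term) 32320 40 = true := by decide +kernel
theorem step_809 : allR (stepChk tt cc hi N rk rT term) 32360 40 = true := by decide +kernel
theorem step_810 : allR (stepChk tt cc hi N rk rT term) 32400 40 = true := by decide +kernel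
theorem step_811 : allR (stepChk tt cc hi N rk rT term) 32440 40 = true := by decide +kernel
theorem step_812 : allR (stepChk tt cc hi N rk rT term) 32480 40 = true := by decide +kernel
theorem step_813 : allR (stepChk tt cc hi N rk rT term) 32520 40 = true := by decide +kernel
theorem step_814 : allR (stepChk tt cc hi N rk rT term) 32560 40 = true := by decide +kernel
theorem step_815 : allR (stepChk tt cc hi N rk rT term) 32600 40 = true := by decide +kernel
theorem step_816 : allR (stepChk tt cc hi N rk rT term) 32640 40 = true := by decide +kernel
theorem step_817 : allR (stepChk tt cc hi N rk rT term) 32680 40 = true := by decide +kernel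
theorem step_818 : allR (stepChk tt cc hi N rk rT term) 32720 40 = true := by decide +kernel

end Vale.Agent.P183L.Tab
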