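import Vale.Agent.P183L.Tab

/-! step -/

namespace Vale.Agent.P183L.Tab

theorem step_819 : allR (stepChk tt cc hi N rk rT term) 32760 40 = true := by decide +kernel
theorem step_820 : allR (stepChk tt cc hi N rk rT term) 32800 40 = true := by decide +kernel
theorem step_821 : allR (stepChk tt cc hi N rk rT term) 32840 40 = true := by decide +kernel
theorem step_822 : allR (stepChk tt cc hi N rk rT term) 32880 40 = true := by decide +kernel
theorem step_823 : allR (stepChk tt cc hi N rk rT term) 32920 40 = true := by decide +kernel
theorem step_824 : allR (stepChk tt cc hi N rk rT term) 32960 40 = true := by decide +kernel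
theorem step_825 : allR (stepChk tt cc hi N rk rT term) 33000 40 = true := by decide +kernel
theorem step_826 : allR (stepChk tt cc hi N rk rT term) 33040 40 = true := by decide +kernel
theorem step_827 : allR (stepChk tt cc hi N rk rT term) 33080 40 = true := by decide +kernel
theorem step_828 : allR (stepChk tt cc hi N rk rT term) 33120 40 = true := by decide +kernel
theorem step_829 : allR (stepChk tt cc hi N rk rT term) 33160 40 = true := by decide +kernel
theorem step_830 : allR (stepChk tt cc hi N rk rT term) 33200 40 = true := by decide +kernel
theorem step_831 : allR (stepChk tt cc hi N rk rT term) 33240 40 = true := by decide +kernel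
theorem step_832 : allR (stepChk tt cc hi N rk rT term) 33280 40 = true := by decide +kernel
theorem step_833 : allR (stepChk tt cc hi N rk rT term) 33320 40 = true := by decide +kernel
theorem step_834 : allR (stepChk tt cc hi N rk rT term) 33360 40 = true := by decide +kernel
theorem step_835 : allR (stepChk tt cc hi N rk rT term) 33400 40 = true := by decide +kernel
theorem step_836 : allR (stepChk tt cc hi N rk rT term) 33440 40 = true := by decide +kernel
theorem step_837 : allR (stepChk tt cc hi N rk rT term) 33480 40 = true := by decide +kernel
theorem step_838 : allR (stepChk tt cc hi N rk rT term) 33520 40 = true := by decide +kernel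
theorem step_839 : allR (stepChk tt cc hi N rk rT term) 33560 40 = true := by decide +kernel
theorem step_840 : allR (stepChk tt cc hi N rk rT term) 33600 40 = true := by decide +kernel
theorem step_841 : allR (stepChk tt cc hi N rk rT term) 33640 40 = true := by decide +kernel
theorem step_842 : allR (stepChk tt cc hi N rk rT term) 33680 40 = true := by decide +kernel
theorem step_843 : allR (stepChk tt cc hi N rk rT term) 33720 40 = true := by decide +kernel
theorem step_844 : allR (stepChk tt cc hi N rk rT term) 33760 40 = true := by decide +kernel
theorem step_845 : allR (stepChk tt cc hi N rk rT term) 33800 40 = true := by decide +kernel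
theorem step_846 : allR (stepChk tt cc hi N rk rT term) 33840 40 = true := by decide +kernel
theorem step_847 : allR (stepChk tt cc hi N rk rT term) 33880 40 = true := by decide +kernel
theorem step_848 : allR (stepChk tt cc hi N rk rT term) 33920 40 = true := by decide +kernel
theorem step_849 : allR (stepChk tt cc hi N rk rT term) 33960 40 = true := by decide +kernel
theorem step_850 : allR (stepChk tt cc hi N rk rT term) 34000 40 = true := by decide +kernel
theorem step_851 : allR (stepChk tt cc hi N rk rT term) 34040 40 = true := by decide +kernel
theorem step_852 : allR (stepChk tt cc hi N rk rT term) 34080 40 = true := by decide +kernel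
theorem step_853 : allR (stepChk tt cc hi N rk rT term) 34120 40 = true := by decide +kernel
theorem step_854 : allR (stepChk tt cc hi N rk rT term) 34160 40 = true := by decide +kernel
theorem step_855 : allR (stepChk tt cc hi N rk rT term) 34200 40 = true := by decide +kernel
theorem step_856 : allR (stepChk tt cc hi N rk rT term) 34240 40 = true := by decide +kernel
theorem step_857 : allR (stepChk tt cc hi N rk rT term) 34280 40 = true := by decide +kernel
theorem step_858 : allR (stepChk tt cc hi N rk rT term) 34320 40 = true := by decide +kernel
theorem step_859 : allR (stepChk tt cc hi N rk rT term) 34360 40 = true := by decide +kernel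
theorem step_860 : allR (stepChk tt cc hi N rk rT term) 34400 40 = true := by decide +kernel
theorem step_861 : allR (stepChk tt cc hi N rk rT term) 34440 40 = true := by decide +kernel
theorem step_862 : allR (stepChk tt cc hi N rk rT term) 34480 40 = true := by decide +kernel
theorem step_863 : allR (stepChk tt cc hi N rk rT term) 34520 40 = true := by decide +kernel
theorem step_864 : allR (stepChk tt cc hi N rk rT term) 34560 40 = true := by decide +kernel
theorem step_865 : allR (stepChk tt cc hi N rk rT term) 34600 40 = true := by decide +kernel
theorem step_866 : allR (stepChk tt cc hi N rk rT term) 34640 40 = true := by decide +kernel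
theorem step_867 : allR (stepChk tt cc hi N rk rT term) 34680 40 = true := by decide +kernel
theorem step_868 : allR (stepChk tt cc hi N rk rT term) 34720 40 = true := by decide +kernel
theorem step_869 : allR (stepChk tt cc hi N rk rT term) 34760 40 = true := by decide +kernel
theorem step_870 : allR (stepChk tt cc hi N rk rT term) 34800 40 = true := by decide +kernel
theorem step_871 : allR (stepChk tt cc hi N rk rT term) 34840 40 = true := by decide +kernel
theorem step_872 : allR (stepChk tt cc hi N rk rT term) 34880 40 = true := by decide +kernel
theorem step_873 : allR (stepChk tt cc hi N rk rT term) 34920 40 = true := by decide +kernel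
theorem step_874 : allR (stepChk tt cc hi N rk rT term) 34960 40 = true := by decide +kernel
theorem step_875 : allR (stepChk tt cc hi N rk rT term) 35000 40 = true := by decide +kernel
theorem step_876 : allR (stepChk tt cc hi N rk rT term) 35040 40 = true := by decide +kernel
theorem step_877 : allR (stepChk tt cc hi N rk rT term) 35080 40 = true := by decide +kernel
theorem step_878 : allR (stepChk tt cc hi N rk rT term) 35120 40 = true := by decide +kernel
theorem step_879 : allR (stepChk tt cc hi N rk rT term) 35160 40 = true := by decide +kernel
theorem step_880 : allR (stepChk tt cc hi N rk rT term) 35200 40 = true := by decide +kernel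
theorem step_881 : allR (stepChk tt cc hi N rk rT term) 35240 40 = true := by decide +kernel
theorem step_882 : allR (stepChk tt cc hi N rk rT term) 35280 40 = true := by decide +kernel
theorem step_883 : allR (stepChk tt cc hi N rk rT term) 35320 40 = true := by decide +kernel
theorem step_884 : allR (stepChk tt cc hi N rk rT term) 35360 40 = true := by decide +kernel
theorem step_885 : allR (stepChk tt cc hi N rk rT term) 35400 40 = true := by decide +kernel
theorem step_886 : allR (stepChk tt cc hi N rk rT term) 35440 40 = true := by decide +kernel
theorem step_887 : allR (stepChk tt cc hi N rk rT term) 35480 40 = true := by decide +kernel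
theorem step_888 : allR (stepChk tt cc hi N rk rT term) 35520 40 = true := by decide +kernel
theorem step_889 : allR (stepChk tt cc hi N rk rT term) 35560 40 = true := by decide +kernel
theorem step_890 : allR (stepChk tt cc hi N rk rT term) 35600 40 = true := by decide +kernel
theorem step_891 : allR (stepChk tt cc hi N rk rT term) 35640 40 = true := by decide +kernel
theorem step_892 : allR (stepChk tt cc hi N rk rT term) 35680 40 = true := by decide +kernel
theorem step_893 : allR (stepChk tt cc hi N rk rT term) 35720 40 = true := by decide +kernel
theorem step_894 : allR (stepChk tt cc hi N rk rT term) 35760 40 = true := by decide +kernel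
theorem step_895 : allR (stepChk tt cc hi N rk rT term) 35800 40 = true := by decide +kernel
theorem step_896 : allR (stepChk tt cc hi N rk rT term) 35840 40 = true := by decide +kernel
theorem step_897 : allR (stepChk tt cc hi N rk rT term) 35880 40 = true := by decide +kernel
theorem step_898 : allR (stepChk tt cc hi N rk rT term) 35920 40 = true := by decide +kernel
theorem step_899 : allR (stepChk tt cc hi N rk rT term) 35960 40 = true := by decide +kernel
theorem step_900 : allR (stepChk tt cc hi N rk rT term) 36000 40 = true := by decide +kernel
theorem step_901 : allR (stepChk tt cc hi N rk rT term) 36040 40 = true := by decide +kernel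
theorem step_902 : allR (stepChk tt cc hi N rk rT term) 36080 40 = true := by decide +kernel
theorem step_903 : allR (stepChk tt cc hi N rk rT term) 36120 40 = true := by decide +kernel
theorem step_904 : allR (stepChk tt cc hi N rk rT term) 36160 40 = true := by decide +kernel
theorem step_905 : allR (stepChk tt cc hi N rk rT term) 36200 40 = true := by decide +kernel
theorem step_906 : allR (stepChk tt cc hi N rk rT term) 36240 40 = true := by decide +kernel
theorem step_907 : allR (stepChk tt cc hi N rk rT term) 36280 40 = true := by decide +kernel
theorem step_908 : allR (stepChk tt cc hi N rk rT term) 36320 40 = true := by decide +kernel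
theorem step_909 : allR (stepChk tt cc hi N rk rT term) 36360 40 = true := by decide +kernel
theorem step_910 : allR (stepChk tt cc hi N rk rT term) 36400 40 = true := by decide +kernel
theorem step_911 : allR (stepChk tt cc hi N rk rT term) 36440 40 = true := by decide +kernel
theorem step_912 : allR (stepChk tt cc hi N rk rT term) 36480 40 = true := by decide +kernel
theorem step_913 : allR (stepChk tt cc hi N rk rT term) 36520 40 = true := by decide +kernel
theorem step_914 : allR (stepChk tt cc hi N rk rT term) 36560 40 = true := by decide +kernel
theorem step_915 : allR (stepChk tt cc hi N rk rT term) 36600 40 = true := by decide +kernel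
theorem step_916 : allR (stepChk tt cc hi N rk rT term) 36640 40 = true := by decide +kernel
theorem step_917 : allR (stepChk tt cc hi N rk rT term) 36680 40 = true := by decide +kernel
theorem step_918 : allR (stepChk tt cc hi N rk rT term) 36720 40 = true := by decide +kernel
theorem step_919 : allR (stepChk tt cc hi N rk rT term) 36760 40 = true := by decide +kernel
theorem step_920 : allR (stepChk tt cc hi N rk rT term) 36800 40 = true := by decide +kernel
theorem step_921 : allR (stepChk tt cc hi N rk rT term) 36840 40 = true := by decide +kernel
theorem step_922 : allR (stepChk tt cc hi N rk rT term) 36880 40 = true := by decide +kernel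
theorem step_923 : allR (stepChk tt cc hi N rk rT term) 36920 40 = true := by decide +kernel
theorem step_924 : allR (stepChk tt cc hi N rk rT term) 36960 40 = true := by decide +kernel
theorem step_925 : allR (stepChk tt cc hi N rk rT term) 37000 40 = true := by decide +kernel
theorem step_926 : allR (stepChk tt cc hi N rk rT term) 37040 40 = true := by decide +kernel
theorem step_927 : allR (stepChk tt cc hi N rk rT term) 37080 40 = true := by decide +kernel
theorem step_928 : allR (stepChk tt cc hi N rk rT term) 37120 40 = true := by decide +kernel
theorem step_929 : allR (stepChk tt cc hi N rk rT term) 37160 40 = true := by decide +kernel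
theorem step_930 : allR (stepChk tt cc hi N rk rT term) 37200 40 = true := by decide +kernel
theorem step_931 : allR (stepChk tt cc hi N rk rT term) 37240 40 = true := by decide +kernel
theorem step_932 : allR (stepChk tt cc hi N rk rT term) 37280 40 = true := by decide +kernel
theorem step_933 : allR (stepChk tt cc hi N rk rT term) 37320 40 = true := by decide +kernel
theorem step_934 : allR (stepChk tt cc hi N rk rT term) 37360 40 = true := by decide +kernel
theorem step_935 : allR (stepChk tt cc hi N rk rT term) 37400 40 = true := by decide +kernel
theorem step_936 : allR (stepChk tt cc hi N rk rT term) 37440 40 = true := by decide +kernel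
theorem step_937 : allR (stepChk tt cc hi N rk rT term) 37480 40 = true := by decide +kernel
theorem step_938 : allR (stepChk tt cc hi N rk rT term) 37520 40 = true := by decide +kernel
theorem step_939 : allR (stepChk tt cc hi N rk rT term) 37560 40 = true := by decide +kernel
theorem step_940 : allR (stepChk tt cc hi N rk rT term) 37600 40 = true := by decide +kernel
theorem step_941 : allR (stepChk tt cc hi N rk rT term) 37640 40 = true := by decide +kernel
theorem step_942 : allR (stepChk tt cc hi N rk rT term) 37680 40 = true := by decide +kernel
theorem step_943 : allR (stepChk tt cc hi N rk rT term) 37720 40 = true := by decide +kernel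
theorem step_944 : allR (stepChk tt cc hi N rk rT term) 37760 40 = true := by decide +kernel
theorem step_945 : allR (stepChk tt cc hi N rk rT term) 37800 40 = true := by decide +kernel
theorem step_946 : allR (stepChk tt cc hi N rk rT term) 37840 40 = true := by decide +kernel
theorem step_947 : allR (stepChk tt cc hi N rk rT term) 37880 40 = true := by decide +kernel
theorem step_948 : allR (stepChk tt cc hi N rk rT term) 37920 40 = true := by decide +kernel
theorem step_949 : allR (stepChk tt cc hi N rk rT term) 37960 40 = true := by decide +kernel
theorem step_950 : allR (stepChk tt cc hi N rk rT term) 38000 40 = true := by decide +kernel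
theorem step_951 : allR (stepChk tt cc hi N rk rT term) 38040 40 = true := by decide +kernel
theorem step_952 : allR (stepChk tt cc hi N rk rT term) 38080 40 = true := by decide +kernel
theorem step_953 : allR (stepChk tt cc hi N rk rT term) 38120 40 = true := by decide +kernel
theorem step_954 : allR (stepChk tt cc hi N rk rT term) 38160 40 = true := by decide +kernel
theorem step_955 : allR (stepChk tt cc hi N rk rT term) 38200 40 = true := by decide +kernel
theorem step_956 : allR (stepChk tt cc hi N rk rT term) 38240 40 = true := by decide +kernel
theorem step_957 : allR (stepChk tt cc hi N rk rT term) 38280 40 = true := by decide +kernel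
theorem step_958 : allR (stepChk tt cc hi N rk rT term) 38320 40 = true := by decide +kernel
theorem step_959 : allR (stepChk tt cc hi N rk rT term) 38360 40 = true := by decide +kernel
theorem step_960 : allR (stepChk tt cc hi N rk rT term) 38400 40 = true := by decide +kernel
theorem step_961 : allR (stepChk tt cc hi N rk rT term) 38440 40 = true := by decide +kernel
theorem step_962 : allR (stepChk tt cc hi N rk rT term) 38480 40 = true := by decide +kernel
theorem step_963 : allR (stepChk tt cc hi N rk rT term) 38520 40 = true := by decide +kernel
theorem step_964 : allR (stepChk tt cc hi N rk rT term) 38560 40 = true := by decide +kernel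
theorem step_965 : allR (stepChk tt cc hi N rk rT term) 38600 40 = true := by decide +kernel
theorem step_966 : allR (stepChk tt cc hi N rk rT term) 38640 40 = true := by decide +kernel
theorem step_967 : allR (stepChk tt cc hi N rk rT term) 38680 40 = true := by decide +kernel
theorem step_968 : allR (stepChk tt cc hi N rk rT term) 38720 40 = true := by decide +kernel
theorem step_969 : allR (stepChk tt cc hi N rk rT term) 38760 40 = true := by decide +kernel
theorem step_970 : allR (stepChk tt cc hi N rk rT term) 38800 40 = true := by decide +kernel
theorem step_971 : allR (stepChk tt cc hi N rk rT term) 38840 40 = true := by decide +kernel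
theorem step_972 : allR (stepChk tt cc hi N rk rT term) 38880 40 = true := by decide +kernel
theorem step_973 : allR (stepChk tt cc hi N rk rT term) 38920 40 = true := by decide +kernel
theorem step_974 : allR (stepChk tt cc hi N rk rT term) 38960 40 = true := by decide +kernel
theorem step_975 : allR (stepChk tt cc hi N rk rT term) 39000 40 = true := by decide +kernel
theorem step_976 : allR (stepChk tt cc hi N rk rT term) 39040 40 = true := by decide +kernel
theorem step_977 : allR (stepChk tt cc hi N rk rT term) 39080 40 = true := by decide +kernel
theorem step_978 : allR (stepChk tt cc hi N rk rT term) 39120 40 = true := by decide +kernel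
theorem step_979 : allR (stepChk tt cc hi N rk rT term) 39160 40 = true := by decide +kernel
theorem step_980 : allR (stepChk tt cc hi N rk rT term) 39200 40 = true := by decide +kernel
theorem step_981 : allR (stepChk tt cc hi N rk rT term) 39240 40 = true := by decide +kernel
theorem step_982 : allR (stepChk tt cc hi N rk rT term) 39280 40 = true := by decide +kernel
theorem step_983 : allR (stepChk tt cc hi N rk rT term) 39320 40 = true := by decide +kernel
theorem step_984 : allR (stepChk tt cc hi N rk rT term) 39360 40 = true := by decide +kernel
theorem step_985 : allR (stepChk tt cc hi N rk rT term) 39400 40 = true := by decide +kernel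
theorem step_986 : allR (stepChk tt cc hi N rk rT term) 39440 40 = true := by decide +kernel
theorem step_987 : allR (stepChk tt cc hi N rk rT term) 39480 40 = true := by decide +kernel
theorem step_988 : allR (stepChk tt cc hi N rk rT term) 39520 40 = true := by decide +kernel
theorem step_989 : allR (stepChk tt cc hi N rk rT term) 39560 40 = true := by decide +kernel
theorem step_990 : allR (stepChk tt cc hi N rk rT term) 39600 40 = true := by decide +kernel
theorem step_991 : allR (stepChk tt cc hi N rk rT term) 39640 40 = true := by decide +kernel
theorem step_992 : allR (stepChk tt cc hi N rk rT term) 39680 40 = true := by decide +kernel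
theorem step_993 : allR (stepChk tt cc hi N rk rT term) 39720 40 = true := by decide +kernel
theorem step_994 : allR (stepChk tt cc hi N rk rT term) 39760 40 = true := by decide +kernel
theorem step_995 : allR (stepChk tt cc hi N rk rT term) 39800 40 = true := by decide +kernel
theorem step_996 : allR (stepChk tt cc hi N rk rT term) 39840 40 = true := by decide +kernel
theorem step_997 : allR (stepChk tt cc hi N rk rT term) 39880 40 = true := by decide +kernel
theorem step_998 : allR (stepChk tt cc hi N rk rT term) 39920 40 = true := by decide +kernel
theorem step_999 : allR (stepChk tt cc hi N rk rT term) 39960 40 = true := by decide +kernel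
theorem step_1000 : allR (stepChk tt cc hi N rk rT term) 40000 40 = true := by decide +kernel
theorem step_1001 : allR (stepChk tt cc hi N rk rT term) 40040 40 = true := by decide +kernel
theorem step_1002 : allR (stepChk tt cc hi N rk rT term) 40080 40 = true := by decide +kernel
theorem step_1003 : allR (stepChk tt cc hi N rk rT term) 40120 40 = true := by decide +kernel
theorem step_1004 : allR (stepChk tt cc hi N rk rT term) 40160 40 = true := by decide +kernel
theorem step_1005 : allR (stepChk tt cc hi N rk rT term) 40200 40 = true := by decide +kernel
theorem step_1006 : allR (stepChk tt cc hi N rk rT term) 40240 40 = true := by decide +kernel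
theorem step_1007 : allR (stepChk tt cc hi N rk rT term) 40280 40 = true := by decide +kernel
theorem step_1008 : allR (stepChk tt cc hi N rk rT term) 40320 40 = true := by decide +kernel
theorem step_1009 : allR (stepChk tt cc hi N rk rT term) 40360 40 = true := by decide +kernel
theorem step_1010 : allR (stepChk tt cc hi N rk rT term) 40400 40 = true := by decide +kernel
theorem step_1011 : allR (stepChk tt cc hi N rk rT term) 40440 40 = true := by decide +kernel
theorem step_1012 : allR (stepChk tt cc hi N rk rT term) 40480 40 = true := by decide +kernel
theorem step_1013 : allR (stepChk tt cc hi N rk rT term) 40520 40 = true := by decide +kernel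
theorem step_1014 : allR (stepChk tt cc hi N rk rT term) 40560 40 = true := by decide +kernel
theorem step_1015 : allR (stepChk tt cc hi N rk rT term) 40600 40 = true := by decide +kernel
theorem step_1016 : allR (stepChk tt cc hi N rk rT term) 40640 40 = true := by decide +kernel
theorem step_1017 : allR (stepChk tt cc hi N rk rT term) 40680 40 = true := by decide +kernel
theorem step_1018 : allR (stepChk tt cc hi N rk rT term) 40720 40 = true := by decide +kernel
theorem step_1019 : allR (stepChk tt cc hi N rk rT term) 40760 40 = true := by decide +kernel
theorem step_1020 : allR (stepChk tt cc hi N rk rT term) 40800 40 = true := by decide +kernel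
theorem step_1021 : allR (stepChk tt cc hi N rk rT term) 40840 40 = true := by decide +kernel
theorem step_1022 : allR (stepChk tt cc hi N rk rT term) 40880 40 = true := by decide +kernel
theorem step_1023 : allR (stepChk tt cc hi N rk rT term) 40920 40 = true := by decide +kernel
theorem step_1024 : allR (stepChk tt cc hi N rk rT term) 40960 40 = true := by decide +kernel
theorem step_1025 : allR (stepChk tt cc hi N rk rT term) 41000 40 = true := by decide +kernel
theorem step_1026 : allR (stepChk tt cc hi N rk rT term) 41040 40 = true := by decide +kernel
theorem step_1027 : allR (stepChk tt cc hi N rk rT term) 41080 40 = true := by decide +kernel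
theorem step_1028 : allR (stepChk tt cc hi N rk rT term) 41120 40 = true := by decide +kernel
theorem step_1029 : allR (stepChk tt cc hi N rk rT term) 41160 40 = true := by decide +kernel
theorem step_1030 : allR (stepChk tt cc hi N rk rT term) 41200 40 = true := by decide +kernel
theorem step_1031 : allR (stepChk tt cc hi N rk rT term) 41240 40 = true := by decide +kernel
theorem step_1032 : allR (stepChk tt cc hi N rk rT term) 41280 40 = true := by decide +kernel
theorem step_1033 : allR (stepChk tt cc hi N rk rT term) 41320 40 = true := by decide +kernel
theorem step_1034 : allR (stepChk tt cc hi N rk rT term) 41360 40 = true := by decide +kernel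
theorem step_1035 : allR (stepChk tt cc hi N rk rT term) 41400 40 = true := by decide +kernel
theorem step_1036 : allR (stepChk tt cc hi N rk rT term) 41440 40 = true := by decide +kernel
theorem step_1037 : allR (stepChk tt cc hi N rk rT term) 41480 40 = true := by decide +kernel
theorem step_1038 : allR (stepChk tt cc hi N rk rT term) 41520 40 = true := by decide +kernel
theorem step_1039 : allR (stepChk tt cc hi N rk rT term) 41560 40 = true := by decide +kernel
theorem step_1040 : allR (stepChk tt cc hi N rk rT term) 41600 40 = true := by decide +kernel
theorem step_1041 : allR (stepChk tt cc hi N rk rT term) 41640 40 = true := by decide +kernel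
theorem step_1042 : allR (stepChk tt cc hi N rk rT term) 41680 40 = true := by decide +kernel
theorem step_1043 : allR (stepChk tt cc hi N rk rT term) 41720 40 = true := by decide +kernel
theorem step_1044 : allR (stepChk tt cc hi N rk rT term) 41760 40 = true := by decide +kernel
theorem step_1045 : allR (stepChk tt cc hi N rk rT term) 41800 40 = true := by decide +kernel
theorem step_1046 : allR (stepChk tt cc hi N rk rT term) 41840 40 = true := by decide +kernel
theorem step_1047 : allR (stepChk tt cc hi N rk rT term) 41880 40 = true := by decide +kernel
theorem step_1048 : allR (stepChk tt cc hi N rk rT term) 41920 40 = true := by decide +kernel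
theorem step_1049 : allR (stepChk tt cc hi N rk rT term) 41960 40 = true := by decide +kernel
theorem step_1050 : allR (stepChk tt cc hi N rk rT term) 42000 40 = true := by decide +kernel
theorem step_1051 : allR (stepChk tt cc hi N rk rT term) 42040 40 = true := by decide +kernel
theorem step_1052 : allR (stepChk tt cc hi N rk rT term) 42080 40 = true := by decide +kernel
theorem step_1053 : allR (stepChk tt cc hi N rk rT term) 42120 40 = true := by decide +kernel
theorem step_1054 : allR (stepChk tt cc hi N rk rT term) 42160 40 = true := by decide +kernel
theorem step_1055 : allR (stepChk tt cc hi N rk rT term) 42200 40 = true := by decide +kernel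
theorem step_1056 : allR (stepChk tt cc hi N rk rT term) 42240 40 = true := by decide +kernel
theorem step_1057 : allR (stepChk tt cc hi N rk rT term) 42280 40 = true := by decide +kernel
theorem step_1058 : allR (stepChk tt cc hi N rk rT term) 42320 40 = true := by decide +kernel
theorem step_1059 : allR (stepChk tt cc hi N rk rT term) 42360 40 = true := by decide +kernel
theorem step_1060 : allR (stepChk tt cc hi N rk rT term) 42400 40 = true := by decide +kernel
theorem step_1061 : allR (stepChk tt cc hi N rk rT term) 42440 40 = true := by decide +kernel
theorem step_1062 : allR (stepChk tt cc hi N rk rT term) 42480 40 = true := by decide +kernel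
theorem step_1063 : allR (stepChk tt cc hi N rk rT term) 42520 40 = true := by decide +kernel
theorem step_1064 : allR (stepChk tt cc hi N rk rT term) 42560 40 = true := by decide +kernel
theorem step_1065 : allR (stepChk tt cc hi N rk rT term) 42600 40 = true := by decide +kernel
theorem step_1066 : allR (stepChk tt cc hi N rk rT term) 42640 40 = true := by decide +kernel
theorem step_1067 : allR (stepChk tt cc hi N rk rT term) 42680 40 = true := by decide +kernel
theorem step_1068 : allR (stepChk tt cc hi N rk rT term) 42720 40 = true := by decide +kernel
theorem step_1069 : allR (stepChk tt cc hi N rk rT term) 42760 40 = true := by decide +kernel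
theorem step_1070 : allR (stepChk tt cc hi N rk rT term) 42800 40 = true := by decide +kernel
theorem step_1071 : allR (stepChk tt cc hi N rk rT term) 42840 40 = true := by decide +kernel
theorem step_1072 : allR (stepChk tt cc hi N rk rT term) 42880 40 = true := by decide +kernel
theorem step_1073 : allR (stepChk tt cc hi N rk rT term) 42920 40 = true := by decide +kernel
theorem step_1074 : allR (stepChk tt cc hi N rk rT term) 42960 40 = true := by decide +kernel
theorem step_1075 : allR (stepChk tt cc hi N rk rT term) 43000 40 = true := by decide +kernel
theorem step_1076 : allR (stepChk tt cc hi N rk rT term) 43040 40 = true := by decide +kernel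
theorem step_1077 : allR (stepChk tt cc hi N rk rT term) 43080 40 = true := by decide +kernel
theorem step_1078 : allR (stepChk tt cc hi N rk rT term) 43120 40 = true := by decide +kernel
theorem step_1079 : allR (stepChk tt cc hi N rk rT term) 43160 40 = true := by decide +kernel
theorem step_1080 : allR (stepChk tt cc hi N rk rT term) 43200 40 = true := by decide +kernel
theorem step_1081 : allR (stepChk tt cc hi N rk rT term) 43240 40 = true := by decide +kernel
theorem step_1082 : allR (stepChk tt cc hi N rk rT term) 43280 40 = true := by decide +kernel
theorem step_1083 : allR (stepChk tt cc hi N rk rT term) 43320 40 = true := by decide +kernel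
theorem step_1084 : allR (stepChk tt cc hi N rk rT term) 43360 40 = true := by decide +kernel
theorem step_1085 : allR (stepChk tt cc hi N rk rT term) 43400 40 = true := by decide +kernel
theorem step_1086 : allR (stepChk tt cc hi N rk rT term) 43440 40 = true := by decide +kernel
theorem step_1087 : allR (stepChk tt cc hi N rk rT term) 43480 40 = true := by decide +kernel
theorem step_1088 : allR (stepChk tt cc hi N rk rT term) 43520 40 = true := by decide +kernel
theorem step_1089 : allR (stepChk tt cc hi N rk rT term) 43560 40 = true := by decide +kernel
theorem step_1090 : allR (stepChk tt cc hi N rk rT term) 43600 40 = true := by decide +kernel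
theorem step_1091 : allR (stepChk tt cc hi N rk rT term) 43640 40 = true := by decide +kernel

end Vale.Agent.P183L.Tab
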