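import Vale.Agent.P183L.Chk_gen0
import Vale.Agent.P183L.Chk_gen1
import Vale.Agent.P183L.Chk_gen2
import Vale.Agent.P183L.Chk_par
import Vale.Agent.P183L.Chk_r0
import Vale.Agent.P183L.Chk_r1
import Vale.Agent.P183L.Chk_r2
import Vale.Agent.P183L.Chk_r3
import Vale.Agent.P183L.Chk_r4
import Vale.Agent.P183L.Chk_r5
import Vale.Agent.P183L.Chk_r6
import Vale.Agent.P183L.Chk_rbd
import Vale.Agent.P183L.Chk_b1
import Vale.Agent.P183L.Chk_b2
import Vale.Agent.P183L.Chk_b3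
import Vale.Agent.P183L.Chk_b4
import Vale.Agent.P183L.Chk_b5
import Vale.Agent.P183L.Chk_c1_00
import Vale.Agent.P183L.Chk_c1_01
import Vale.Agent.P183L.Chk_c1_10
import Vale.Agent.P183L.Chk_c1_11
import Vale.Agent.P183L.Chk_c1_20
import Vale.Agent.P183L.Chk_c1_21
import Vale.Agent.P183L.Chk_c2_00
import Vale.Agent.P183L.Chk_c2_01
import Vale.Agent.P183L.Chk_c2_10
import Vale.Agent.P183L.Chk_c2_11
import Vale.Agent.P183L.Chk_c2_20
import Vale.Agent.P183L.Chk_c2_21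
import Vale.Agent.P183L.Chk_c3_00
import Vale.Agent.P183L.Chk_c3_01
import Vale.Agent.P183L.Chk_c3_10
import Vale.Agent.P183L.Chk_c3_11
import Vale.Agent.P183L.Chk_c3_20
import Vale.Agent.P183L.Chk_c3_21
import Vale.Agent.P183L.Chk_c4_00
import Vale.Agent.P183L.Chk_c4_01
import Vale.Agent.P183L.Chk_c4_10
import Vale.Agent.P183L.Chk_c4_11
import Vale.Agent.P183L.Chk_c4_20
import Vale.Agent.P183L.Chk_c4_21
import Vale.Agent.P183L.Chk_c5_00
import Vale.Agent.P183L.Chk_c5_01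
import Vale.Agent.P183L.Chk_c5_10
import Vale.Agent.P183L.Chk_c5_11
import Vale.Agent.P183L.Chk_c5_20
import Vale.Agent.P183L.Chk_c5_21
import Vale.Agent.P183L.Chk_step0
import Vale.Agent.P183L.Chk_step1
import Vale.Agent.P183L.Chk_step2
import Vale.Agent.P183L.Chk_step3
import Vale.Agent.P183L.Chk_prog

/-! All checks. -/

namespace Vale.Agent.P183L.Tab

theorem all_gen0 : ∀ x, x < N → (genChk t0 N) x = true :=
  of_chain (allR_glue (allR_glue (allR_glue (allR_glue (allR_glue (allR_glue (allR_glue (gen0_0) (gen0_1) rfl) (allR_glue (gen0_2) (allR_glue (gen0_3) (gen0_4) rfl) rfl) rfl) (allR_glue (allR_glue (gen0_5) (gen0_6) rfl) (allR_glue (gen0_7) (allR_glue (gen0_8) (gen0_9) rfl) rfl) rfl) rfl) (allR_glue (allR_glue (allR_glue (gen0_10) (gen0_11) rfl) (allR_glue (gen0_12) (allR_glue (gen0_13) (gen0_14) rfl) rfl) rfl) (allR_glue (allR_glue (gen0_15) (allR_glue (gen0_16) (gen0_17) rfl) rfl) (allR_glue (gen0_18)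 (allR_glue (gen0_19) (gen0_20) rfl) rfl) rfl) rfl) rfl) (allR_glue (allR_glue (allR_glue (allR_glue (gen0_21) (gen0_22) rfl) (allR_glue (gen0_23) (allR_glue (gen0_24) (gen0_25) rfl) rfl) rfl) (allR_glue (allR_glue (gen0_26) (allR_glue (gen0_27) (gen0_28) rfl) rfl) (allR_glue (gen0_29) (allR_glue (gen0_30) (gen0_31) rfl) rfl) rfl) rfl) (allR_glue (allR_glue (allR_glue (gen0_32) (gen0_33) rfl) (allR_glue (gen0_34) (allR_glue (gen0_35) (gen0_36) rfl) rfl) rfl) (allR_glue (allR_glue (gen0_37) (allR_glue (gen0_38) (gen0_39) rfl) rfl) (allR_glue (gen0_40) (allR_glue (gen0_41) (gen0_42) rfl) rfl) rfl) rfl) rfl) rfl) (allR_glue (allR_glue (allR_glue (allR_glue (allR_glue (gen0_43) (gen0_44) rfl) (allR_glue (gen0_45) (allR_glue (gen0_46) (gen0_47) rfl) rfl) rfl) (allR_glue (allR_glue (gen0_48) (allR_glue (gen0_49) (gen0_50) rfl) rfl) (allR_glue (gen0_51) (allR_glue (gen0_52) (gen0_53) rfl) rfl) rfl) rfl) (allR_glue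 (allR_glue (allR_glue (gen0_54) (gen0_55) rfl) (allR_glue (gen0_56) (allR_glue (gen0_57) (gen0_58) rfl) rfl) rfl) (allR_glue (allR_glue (gen0_59) (allR_glue (gen0_60) (gen0_61) rfl) rfl) (allR_glue (gen0_62) (allR_glue (gen0_63) (gen0_64) rfl) rfl) rfl) rfl) rfl) (allR_glue (allR_glue (allR_glue (allR_glue (gen0_65) (gen0_66) rfl) (allR_glue (gen0_67) (allR_glue (gen0_68) (gen0_69) rfl) rfl) rfl) (allR_glue (allR_glue (gen0_70) (allR_glue (gen0_71) (gen0_72) rfl) rfl) (allR_glue (gen0_73) (allR_glue (gen0_74) (gen0_75) rfl) rfl) rfl) rfl) (allR_glue (allR_glue (allR_glue (gen0_76) (gen0_77) rfl) (allR_glue (gen0_78) (allR_glue (gen0_79) (gen0_80) rfl) rfl) rfl) (allR_glue (allR_glue (gen0_81) (allR_glue (gen0_82) (gen0_83) rfl) rfl) (allR_glue (gen0_84) (allR_glue (gen0_85) (gen0_86) rfl) rfl) rfl) rfl) rfl) rfl) rfl) (allR_glue (allR_glue (allR_glue (allR_glue (allR_glue (allR_glue (gen0_87) (gen0_88)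 rfl) (allR_glue (gen0_89) (allR_glue (gen0_90) (gen0_91) rfl) rfl) rfl) (allR_glue (allR_glue (gen0_92) (allR_glue (gen0_93) (gen0_94) rfl) rfl) (allR_glue (gen0_95) (allR_glue (gen0_96) (gen0_97) rfl) rfl) rfl) rfl) (allR_glue (allR_glue (allR_glue (gen0_98) (gen0_99) rfl) (allR_glue (gen0_100) (allR_glue (gen0_101) (gen0_102) rfl) rfl) rfl) (allR_glue (allR_glue (gen0_103) (allR_glue (gen0_104) (gen0_105) rfl) rfl) (allR_glue (gen0_106) (allR_glue (gen0_107) (gen0_108) rfl) rfl) rfl) rfl) rfl) (allR_glue (allR_glue (allR_glue (allR_glue (gen0_109) (gen0_110) rfl) (allR_glue (gen0_111) (allR_glue (gen0_112) (gen0_113) rfl) rfl) rfl) (allR_glue (allR_glue (gen0_114) (allR_glue (gen0_115) (gen0_116) rfl) rfl) (allR_glue (gen0_117) (allR_glue (gen0_118) (gen0_119) rfl) rfl) rfl) rfl) (allR_glue (allR_glue (allR_glue (gen0_120) (gen0_121) rfl) (allR_glue (gen0_122) (allR_glue (gen0_123) (gen0_124) rfl) rfl)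 rfl) (allR_glue (allR_glue (gen0_125) (allR_glue (gen0_126) (gen0_127) rfl) rfl) (allR_glue (gen0_128) (allR_glue (gen0_129) (gen0_130) rfl) rfl) rfl) rfl) rfl) rfl) (allR_glue (allR_glue (allR_glue (allR_glue (allR_glue (gen0_131) (gen0_132) rfl) (allR_glue (gen0_133) (allR_glue (gen0_134) (gen0_135) rfl) rfl) rfl) (allR_glue (allR_glue (gen0_136) (allR_glue (gen0_137) (gen0_138) rfl) rfl) (allR_glue (gen0_139) (allR_glue (gen0_140) (gen0_141) rfl) rfl) rfl) rfl) (allR_glue (allR_glue (allR_glue (gen0_142) (gen0_143) rfl) (allR_glue (gen0_144) (allR_glue (gen0_145) (gen0_146) rfl) rfl) rfl) (allR_glue (allR_glue (gen0_147) (allR_glue (gen0_148) (gen0_149) rfl) rfl) (allR_glue (gen0_150) (allR_glue (gen0_151) (gen0_152) rfl) rfl) rfl) rfl) rfl) (allR_glue (allR_glue (allR_glue (allR_glue (gen0_153) (gen0_154) rfl) (allR_glue (gen0_155) (allR_glue (gen0_156) (gen0_157) rfl) rfl) rfl) (allR_glue (allR_glue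 (gen0_158) (allR_glue (gen0_159) (gen0_160) rfl) rfl) (allR_glue (gen0_161) (allR_glue (gen0_162) (gen0_163) rfl) rfl) rfl) rfl) (allR_glue (allR_glue (allR_glue (gen0_164) (gen0_165) rfl) (allR_glue (gen0_166) (allR_glue (gen0_167) (gen0_168) rfl) rfl) rfl) (allR_glue (allR_glue (gen0_169) (allR_glue (gen0_170) (gen0_171) rfl) rfl) (allR_glue (gen0_172) (allR_glue (gen0_173) (gen0_174) rfl) rfl) rfl) rfl) rfl) rfl) rfl) rfl) rfl

theorem all_gen1 : ∀ x, x < N → (genChk t1 N) x = true :=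
  of_chain (allR_glue (allR_glue (allR_glue (allR_glue (allR_glue (allR_glue (allR_glue (gen1_0) (gen1_1) rfl) (allR_glue (gen1_2) (allR_glue (gen1_3) (gen1_4) rfl) rfl) rfl) (allR_glue (allR_glue (gen1_5) (gen1_6) rfl) (allR_glue (gen1_7) (allR_glue (gen1_8) (gen1_9) rfl) rfl) rfl) rfl) (allR_glue (allR_glue (allR_glue (gen1_10) (gen1_11) rfl) (allR_glue (gen1_12) (allR_glue (gen1_13) (gen1_14) rfl) rfl) rfl) (allR_glue (allR_glue (gen1_15) (allR_glue (gen1_16) (gen1_17) rfl) rfl) (allR_glue (gen1_18) (allR_glue (gen1_19) (gen1_20) rfl) rfl) rfl) rfl) rfl) (allR_glue (allR_glue (allR_glue (allR_glue (gen1_21) (gen1_22) rfl) (allR_glue (gen1_23) (allR_glue (gen1_24) (gen1_25) rfl) rfl) rfl) (allR_glue (allR_glue (gen1_26) (allR_glue (gen1_27) (gen1_28) rfl) rfl) (allR_glue (gen1_29) (allR_glue (gen1_30) (gen1_31) rfl) rfl) rfl) rfl) (allR_glue (allR_glue (allR_glue (gen1_32) (gen1_33) rfl) (allR_glue (gen1_34)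 (allR_glue (gen1_35) (gen1_36) rfl) rfl) rfl) (allR_glue (allR_glue (gen1_37) (allR_glue (gen1_38) (gen1_39) rfl) rfl) (allR_glue (gen1_40) (allR_glue (gen1_41) (gen1_42) rfl) rfl) rfl) rfl) rfl) rfl) (allR_glue (allR_glue (allR_glue (allR_glue (allR_glue (gen1_43) (gen1_44) rfl) (allR_glue (gen1_45) (allR_glue (gen1_46) (gen1_47) rfl) rfl) rfl) (allR_glue (allR_glue (gen1_48) (allR_glue (gen1_49) (gen1_50) rfl) rfl) (allR_glue (gen1_51) (allR_glue (gen1_52) (gen1_53) rfl) rfl) rfl) rfl) (allR_glue (allR_glue (allR_glue (gen1_54) (gen1_55) rfl) (allR_glue (gen1_56) (allR_glue (gen1_57) (gen1_58) rfl) rfl) rfl) (allR_glue (allR_glue (gen1_59) (allR_glue (gen1_60) (gen1_61) rfl) rfl) (allR_glue (gen1_62) (allR_glue (gen1_63) (gen1_64) rfl) rfl) rfl) rfl) rfl) (allR_glue (allR_glue (allR_glue (allR_glue (gen1_65) (gen1_66) rfl) (allR_glue (gen1_67) (allR_glue (gen1_68) (gen1_69) rfl) rfl) rfl) (allR_glue (allR_glue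 (gen1_70) (allR_glue (gen1_71) (gen1_72) rfl) rfl) (allR_glue (gen1_73) (allR_glue (gen1_74) (gen1_75) rfl) rfl) rfl) rfl) (allR_glue (allR_glue (allR_glue (gen1_76) (gen1_77) rfl) (allR_glue (gen1_78) (allR_glue (gen1_79) (gen1_80) rfl) rfl) rfl) (allR_glue (allR_glue (gen1_81) (allR_glue (gen1_82) (gen1_83) rfl) rfl) (allR_glue (gen1_84) (allR_glue (gen1_85) (gen1_86) rfl) rfl) rfl) rfl) rfl) rfl) rfl) (allR_glue (allR_glue (allR_glue (allR_glue (allR_glue (allR_glue (gen1_87) (gen1_88) rfl) (allR_glue (gen1_89) (allR_glue (gen1_90) (gen1_91) rfl) rfl) rfl) (allR_glue (allR_glue (gen1_92) (allR_glue (gen1_93) (gen1_94) rfl) rfl) (allR_glue (gen1_95) (allR_glue (gen1_96) (gen1_97) rfl) rfl) rfl) rfl) (allR_glue (allR_glue (allR_glue (gen1_98) (gen1_99) rfl) (allR_glue (gen1_100) (allR_glue (gen1_101) (gen1_102) rfl) rfl) rfl) (allR_glue (allR_glue (gen1_103) (allR_glue (gen1_104) (gen1_105) rfl) rfl) (allR_glue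 (gen1_106) (allR_glue (gen1_107) (gen1_108) rfl) rfl) rfl) rfl) rfl) (allR_glue (allR_glue (allR_glue (allR_glue (gen1_109) (gen1_110) rfl) (allR_glue (gen1_111) (allR_glue (gen1_112) (gen1_113) rfl) rfl) rfl) (allR_glue (allR_glue (gen1_114) (allR_glue (gen1_115) (gen1_116) rfl) rfl) (allR_glue (gen1_117) (allR_glue (gen1_118) (gen1_119) rfl) rfl) rfl) rfl) (allR_glue (allR_glue (allR_glue (gen1_120) (gen1_121) rfl) (allR_glue (gen1_122) (allR_glue (gen1_123) (gen1_124) rfl) rfl) rfl) (allR_glue (allR_glue (gen1_125) (allR_glue (gen1_126) (gen1_127) rfl) rfl) (allR_glue (gen1_128) (allR_glue (gen1_129) (gen1_130) rfl) rfl) rfl) rfl) rfl) rfl) (allR_glue (allR_glue (allR_glue (allR_glue (allR_glue (gen1_131) (gen1_132) rfl) (allR_glue (gen1_133) (allR_glue (gen1_134) (gen1_135) rfl) rfl) rfl) (allR_glue (allR_glue (gen1_136) (allR_glue (gen1_137) (gen1_138) rfl) rfl) (allR_glue (gen1_139) (allR_glue (gen1_140)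 (gen1_141) rfl) rfl) rfl) rfl) (allR_glue (allR_glue (allR_glue (gen1_142) (gen1_143) rfl) (allR_glue (gen1_144) (allR_glue (gen1_145) (gen1_146) rfl) rfl) rfl) (allR_glue (allR_glue (gen1_147) (allR_glue (gen1_148) (gen1_149) rfl) rfl) (allR_glue (gen1_150) (allR_glue (gen1_151) (gen1_152) rfl) rfl) rfl) rfl) rfl) (allR_glue (allR_glue (allR_glue (allR_glue (gen1_153) (gen1_154) rfl) (allR_glue (gen1_155) (allR_glue (gen1_156) (gen1_157) rfl) rfl) rfl) (allR_glue (allR_glue (gen1_158) (allR_glue (gen1_159) (gen1_160) rfl) rfl) (allR_glue (gen1_161) (allR_glue (gen1_162) (gen1_163) rfl) rfl) rfl) rfl) (allR_glue (allR_glue (allR_glue (gen1_164) (gen1_165) rfl) (allR_glue (gen1_166) (allR_glue (gen1_167) (gen1_168) rfl) rfl) rfl) (allR_glue (allR_glue (gen1_169) (allR_glue (gen1_170) (gen1_171) rfl) rfl) (allR_glue (gen1_172) (allR_glue (gen1_173) (gen1_174) rfl) rfl) rfl) rfl) rfl) rfl) rfl) rfl) rfl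

theorem all_gen2 : ∀ x, x < N → (genChk t2 N) x = true :=
  of_chain (allR_glue (allR_glue (allR_glue (allR_glue (allR_glue (allR_glue (allR_glue (gen2_0) (gen2_1) rfl) (allR_glue (gen2_2) (allR_glue (gen2_3) (gen2_4) rfl) rfl) rfl) (allR_glue (allR_glue (gen2_5) (gen2_6) rfl) (allR_glue (gen2_7) (allR_glue (gen2_8) (gen2_9) rfl) rfl) rfl) rfl) (allR_glue (allR_glue (allR_glue (gen2_10) (gen2_11) rfl) (allR_glue (gen2_12) (allR_glue (gen2_13) (gen2_14) rfl) rfl) rfl) (allR_glue (allR_glue (gen2_15) (allR_glue (gen2_16) (gen2_17) rfl) rfl) (allR_glue (gen2_18) (allR_glue (gen2_19) (gen2_20) rfl) rfl) rfl) rfl) rfl) (allR_glue (allR_glue (allR_glue (allR_glue (gen2_21) (gen2_22) rfl) (allR_glue (gen2_23) (allR_glue (gen2_24) (gen2_25) rfl) rfl) rfl) (allR_glue (allR_glue (gen2_26) (allR_glue (gen2_27) (gen2_28) rfl) rfl) (allR_glue (gen2_29) (allR_glue (gen2_30) (gen2_31) rfl) rfl) rfl) rfl) (allR_glue (allR_glue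 (allR_glue (gen2_32) (gen2_33) rfl) (allR_glue (gen2_34) (allR_glue (gen2_35) (gen2_36) rfl) rfl) rfl) (allR_glue (allR_glue (gen2_37) (allR_glue (gen2_38) (gen2_39) rfl) rfl) (allR_glue (gen2_40) (allR_glue (gen2_41) (gen2_42) rfl) rfl) rfl) rfl) rfl) rfl) (allR_glue (allR_glue (allR_glue (allR_glue (allR_glue (gen2_43) (gen2_44) rfl) (allR_glue (gen2_45) (allR_glue (gen2_46) (gen2_47) rfl) rfl) rfl) (allR_glue (allR_glue (gen2_48) (allR_glue (gen2_49) (gen2_50) rfl) rfl) (allR_glue (gen2_51) (allR_glue (gen2_52) (gen2_53) rfl) rfl) rfl) rfl) (allR_glue (allR_glue (allR_glue (gen2_54) (gen2_55) rfl) (allR_glue (gen2_56) (allR_glue (gen2_57) (gen2_58) rfl) rfl) rfl) (allR_glue (allR_glue (gen2_59) (allR_glue (gen2_60) (gen2_61) rfl) rfl) (allR_glue (gen2_62) (allR_glue (gen2_63) (gen2_64) rfl) rfl) rfl) rfl) rfl) (allR_glue (allR_glue (allR_glue (allR_glue (gen2_65) (gen2_66) rfl) (allR_glue (gen2_67) (allR_glue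 (gen2_68) (gen2_69) rfl) rfl) rfl) (allR_glue (allR_glue (gen2_70) (allR_glue (gen2_71) (gen2_72) rfl) rfl) (allR_glue (gen2_73) (allR_glue (gen2_74) (gen2_75) rfl) rfl) rfl) rfl) (allR_glue (allR_glue (allR_glue (gen2_76) (gen2_77) rfl) (allR_glue (gen2_78) (allR_glue (gen2_79) (gen2_80) rfl) rfl) rfl) (allR_glue (allR_glue (gen2_81) (allR_glue (gen2_82) (gen2_83) rfl) rfl) (allR_glue (gen2_84) (allR_glue (gen2_85) (gen2_86) rfl) rfl) rfl) rfl) rfl) rfl) rfl) (allR_glue (allR_glue (allR_glue (allR_glue (allR_glue (allR_glue (gen2_87) (gen2_88) rfl) (allR_glue (gen2_89) (allR_glue (gen2_90) (gen2_91) rfl) rfl) rfl) (allR_glue (allR_glue (gen2_92) (allR_glue (gen2_93) (gen2_94) rfl) rfl) (allR_glue (gen2_95) (allR_glue (gen2_96) (gen2_97) rfl) rfl) rfl) rfl) (allR_glue (allR_glue (allR_glue (gen2_98) (gen2_99) rfl) (allR_glue (gen2_100) (allR_glue (gen2_101) (gen2_102) rfl) rfl) rfl) (allR_glue (allR_glue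 (gen2_103) (allR_glue (gen2_104) (gen2_105) rfl) rfl) (allR_glue (gen2_106) (allR_glue (gen2_107) (gen2_108) rfl) rfl) rfl) rfl) rfl) (allR_glue (allR_glue (allR_glue (allR_glue (gen2_109) (gen2_110) rfl) (allR_glue (gen2_111) (allR_glue (gen2_112) (gen2_113) rfl) rfl) rfl) (allR_glue (allR_glue (gen2_114) (allR_glue (gen2_115) (gen2_116) rfl) rfl) (allR_glue (gen2_117) (allR_glue (gen2_118) (gen2_119) rfl) rfl) rfl) rfl) (allR_glue (allR_glue (allR_glue (gen2_120) (gen2_121) rfl) (allR_glue (gen2_122) (allR_glue (gen2_123) (gen2_124) rfl) rfl) rfl) (allR_glue (allR_glue (gen2_125) (allR_glue (gen2_126) (gen2_127) rfl) rfl) (allR_glue (gen2_128) (allR_glue (gen2_129) (gen2_130) rfl) rfl) rfl) rfl) rfl) rfl) (allR_glue (allR_glue (allR_glue (allR_glue (allR_glue (gen2_131) (gen2_132) rfl) (allR_glue (gen2_133) (allR_glue (gen2_134) (gen2_135) rfl) rfl) rfl) (allR_glue (allR_glue (gen2_136) (allR_glue (gen2_137)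 (gen2_138) rfl) rfl) (allR_glue (gen2_139) (allR_glue (gen2_140) (gen2_141) rfl) rfl) rfl) rfl) (allR_glue (allR_glue (allR_glue (gen2_142) (gen2_143) rfl) (allR_glue (gen2_144) (allR_glue (gen2_145) (gen2_146) rfl) rfl) rfl) (allR_glue (allR_glue (gen2_147) (allR_glue (gen2_148) (gen2_149) rfl) rfl) (allR_glue (gen2_150) (allR_glue (gen2_151) (gen2_152) rfl) rfl) rfl) rfl) rfl) (allR_glue (allR_glue (allR_glue (allR_glue (gen2_153) (gen2_154) rfl) (allR_glue (gen2_155) (allR_glue (gen2_156) (gen2_157) rfl) rfl) rfl) (allR_glue (allR_glue (gen2_158) (allR_glue (gen2_159) (gen2_160) rfl) rfl) (allR_glue (gen2_161) (allR_glue (gen2_162) (gen2_163) rfl) rfl) rfl) rfl) (allR_glue (allR_glue (allR_glue (gen2_164) (gen2_165) rfl) (allR_glue (gen2_166) (allR_glue (gen2_167) (gen2_168) rfl) rfl) rfl) (allR_glue (allR_glue (gen2_169) (allR_glue (gen2_170) (gen2_171) rfl) rfl) (allR_glue (gen2_172) (allR_glue (gen2_173)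 (gen2_174) rfl) rfl) rfl) rfl) rfl) rfl) rfl) rfl) rfl

theorem all_par : ∀ x, x < N → (parChk tt cc 3) x = true :=
  of_chain (allR_glue (allR_glue (allR_glue (allR_glue (allR_glue (allR_glue (allR_glue (par_0) (par_1) rfl) (allR_glue (par_2) (allR_glue (par_3) (par_4) rfl) rfl) rfl) (allR_glue (allR_glue (par_5) (par_6) rfl) (allR_glue (par_7) (allR_glue (par_8) (par_9) rfl) rfl) rfl) rfl) (allR_glue (allR_glue (allR_glue (par_10) (par_11) rfl) (allR_glue (par_12) (allR_glue (par_13) (par_14) rfl) rfl) rfl) (allR_glue (allR_glue (par_15) (allR_glue (par_16) (par_17) rfl) rfl) (allR_glue (par_18) (allR_glue (par_19) (par_20) rfl) rfl) rfl) rfl) rfl) (allR_glue (allR_glue (allR_glue (allR_glue (par_21) (par_22) rfl) (allR_glue (par_23) (allR_glue (par_24) (par_25) rfl) rfl) rfl) (allR_glue (allR_glue (par_26) (allR_glue (par_27) (par_28) rfl) rfl) (allR_glue (par_29) (allR_glue (par_30) (par_31) rfl) rfl)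 rfl) rfl) (allR_glue (allR_glue (allR_glue (par_32) (par_33) rfl) (allR_glue (par_34) (allR_glue (par_35) (par_36) rfl) rfl) rfl) (allR_glue (allR_glue (par_37) (allR_glue (par_38) (par_39) rfl) rfl) (allR_glue (par_40) (allR_glue (par_41) (par_42) rfl) rfl) rfl) rfl) rfl) rfl) (allR_glue (allR_glue (allR_glue (allR_glue (allR_glue (par_43) (par_44) rfl) (allR_glue (par_45) (allR_glue (par_46) (par_47) rfl) rfl) rfl) (allR_glue (allR_glue (par_48) (allR_glue (par_49) (par_50) rfl) rfl) (allR_glue (par_51) (allR_glue (par_52) (par_53) rfl) rfl) rfl) rfl) (allR_glue (allR_glue (allR_glue (par_54) (par_55) rfl) (allR_glue (par_56) (allR_glue (par_57) (par_58) rfl) rfl) rfl) (allR_glue (allR_glue (par_59) (allR_glue (par_60) (par_61) rfl) rfl) (allR_glue (par_62) (allR_glue (par_63) (par_64) rfl) rfl) rfl) rfl) rfl) (allR_glue (allR_glue (allR_glue (allR_glue (par_65) (par_66) rfl) (allR_glue (par_67) (allR_glue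 (par_68) (par_69) rfl) rfl) rfl) (allR_glue (allR_glue (par_70) (allR_glue (par_71) (par_72) rfl) rfl) (allR_glue (par_73) (allR_glue (par_74) (par_75) rfl) rfl) rfl) rfl) (allR_glue (allR_glue (allR_glue (par_76) (par_77) rfl) (allR_glue (par_78) (allR_glue (par_79) (par_80) rfl) rfl) rfl) (allR_glue (allR_glue (par_81) (allR_glue (par_82) (par_83) rfl) rfl) (allR_glue (par_84) (allR_glue (par_85) (par_86) rfl) rfl) rfl) rfl) rfl) rfl) rfl) (allR_glue (allR_glue (allR_glue (allR_glue (allR_glue (allR_glue (par_87) (par_88) rfl) (allR_glue (par_89) (allR_glue (par_90) (par_91) rfl) rfl) rfl) (allR_glue (allR_glue (par_92) (allR_glue (par_93) (par_94) rfl) rfl) (allR_glue (par_95) (allR_glue (par_96) (par_97) rfl) rfl) rfl) rfl) (allR_glue (allR_glue (allR_glue (par_98) (par_99) rfl) (allR_glue (par_100) (allR_glue (par_101) (par_102) rfl) rfl) rfl) (allR_glue (allR_glue (par_103) (allR_glue (par_104) (par_105)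 rfl) rfl) (allR_glue (par_106) (allR_glue (par_107) (par_108) rfl) rfl) rfl) rfl) rfl) (allR_glue (allR_glue (allR_glue (allR_glue (par_109) (par_110) rfl) (allR_glue (par_111) (allR_glue (par_112) (par_113) rfl) rfl) rfl) (allR_glue (allR_glue (par_114) (allR_glue (par_115) (par_116) rfl) rfl) (allR_glue (par_117) (allR_glue (par_118) (par_119) rfl) rfl) rfl) rfl) (allR_glue (allR_glue (allR_glue (par_120) (par_121) rfl) (allR_glue (par_122) (allR_glue (par_123) (par_124) rfl) rfl) rfl) (allR_glue (allR_glue (par_125) (allR_glue (par_126) (par_127) rfl) rfl) (allR_glue (par_128) (allR_glue (par_129) (par_130) rfl) rfl) rfl) rfl) rfl) rfl) (allR_glue (allR_glue (allR_glue (allR_glue (allR_glue (par_131) (par_132) rfl) (allR_glue (par_133) (allR_glue (par_134) (par_135) rfl) rfl) rfl) (allR_glue (allR_glue (par_136) (allR_glue (par_137) (par_138) rfl) rfl) (allR_glue (par_139) (allR_glue (par_140) (par_141)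 rfl) rfl) rfl) rfl) (allR_glue (allR_glue (allR_glue (par_142) (par_143) rfl) (allR_glue (par_144) (allR_glue (par_145) (par_146) rfl) rfl) rfl) (allR_glue (allR_glue (par_147) (allR_glue (par_148) (par_149) rfl) rfl) (allR_glue (par_150) (allR_glue (par_151) (par_152) rfl) rfl) rfl) rfl) rfl) (allR_glue (allR_glue (allR_glue (allR_glue (par_153) (par_154) rfl) (allR_glue (par_155) (allR_glue (par_156) (par_157) rfl) rfl) rfl) (allR_glue (allR_glue (par_158) (allR_glue (par_159) (par_160) rfl) rfl) (allR_glue (par_161) (allR_glue (par_162) (par_163) rfl) rfl) rfl) rfl) (allR_glue (allR_glue (allR_glue (par_164) (par_165) rfl) (allR_glue (par_166) (allR_glue (par_167) (par_168) rfl) rfl) rfl) (allR_glue (allR_glue (par_169) (allR_glue (par_170) (par_171) rfl) rfl) (allR_glue (par_172) (allR_glue (par_173) (par_174) rfl) rfl) rfl) rfl) rfl) rfl) rfl) rfl) rfl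

theorem all_r0 : ∀ x, x < N → (rChk l0 (leK 0)) x = true :=
  of_chain (allR_glue (allR_glue (allR_glue (allR_glue (allR_glue (allR_glue (allR_glue (r0_0) (r0_1) rfl) (allR_glue (r0_2) (allR_glue (r0_3) (r0_4) rfl) rfl) rfl) (allR_glue (allR_glue (r0_5) (r0_6) rfl) (allR_glue (r0_7) (allR_glue (r0_8) (r0_9) rfl) rfl) rfl) rfl) (allR_glue (allR_glue (allR_glue (r0_10) (r0_11) rfl) (allR_glue (r0_12) (allR_glue (r0_13) (r0_14) rfl) rfl) rfl) (allR_glue (allR_glue (r0_15) (allR_glue (r0_16) (r0_17) rfl) rfl) (allR_glue (r0_18) (allR_glue (r0_19) (r0_20) rfl) rfl) rfl) rfl) rfl) (allR_glue (allR_glue (allR_glue (allR_glue (r0_21) (r0_22) rfl) (allR_glue (r0_23) (allR_glue (r0_24) (r0_25) rfl) rfl) rfl) (allR_glue (allR_glue (r0_26) (allR_glue (r0_27) (r0_28) rfl) rfl) (allR_glue (r0_29) (allR_glue (r0_30) (r0_31) rfl) rfl) rfl) rfl) (allR_glue (allR_glue (allR_glue (r0_32) (r0_33) rfl) (allR_glue (r0_34) (allR_glue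 (r0_35) (r0_36) rfl) rfl) rfl) (allR_glue (allR_glue (r0_37) (allR_glue (r0_38) (r0_39) rfl) rfl) (allR_glue (r0_40) (allR_glue (r0_41) (r0_42) rfl) rfl) rfl) rfl) rfl) rfl) (allR_glue (allR_glue (allR_glue (allR_glue (allR_glue (r0_43) (r0_44) rfl) (allR_glue (r0_45) (allR_glue (r0_46) (r0_47) rfl) rfl) rfl) (allR_glue (allR_glue (r0_48) (allR_glue (r0_49) (r0_50) rfl) rfl) (allR_glue (r0_51) (allR_glue (r0_52) (r0_53) rfl) rfl) rfl) rfl) (allR_glue (allR_glue (allR_glue (r0_54) (r0_55) rfl) (allR_glue (r0_56) (allR_glue (r0_57) (r0_58) rfl) rfl) rfl) (allR_glue (allR_glue (r0_59) (allR_glue (r0_60) (r0_61) rfl) rfl) (allR_glue (r0_62) (allR_glue (r0_63) (r0_64) rfl) rfl) rfl) rfl) rfl) (allR_glue (allR_glue (allR_glue (allR_glue (r0_65) (r0_66) rfl) (allR_glue (r0_67) (allR_glue (r0_68) (r0_69) rfl) rfl) rfl) (allR_glue (allR_glue (r0_70) (allR_glue (r0_71) (r0_72) rfl) rfl) (allR_glue (r0_73) (allR_glue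 (r0_74) (r0_75) rfl) rfl) rfl) rfl) (allR_glue (allR_glue (allR_glue (r0_76) (r0_77) rfl) (allR_glue (r0_78) (allR_glue (r0_79) (r0_80) rfl) rfl) rfl) (allR_glue (allR_glue (r0_81) (allR_glue (r0_82) (r0_83) rfl) rfl) (allR_glue (r0_84) (allR_glue (r0_85) (r0_86) rfl) rfl) rfl) rfl) rfl) rfl) rfl) (allR_glue (allR_glue (allR_glue (allR_glue (allR_glue (allR_glue (r0_87) (r0_88) rfl) (allR_glue (r0_89) (allR_glue (r0_90) (r0_91) rfl) rfl) rfl) (allR_glue (allR_glue (r0_92) (allR_glue (r0_93) (r0_94) rfl) rfl) (allR_glue (r0_95) (allR_glue (r0_96) (r0_97) rfl) rfl) rfl) rfl) (allR_glue (allR_glue (allR_glue (r0_98) (r0_99) rfl) (allR_glue (r0_100) (allR_glue (r0_101) (r0_102) rfl) rfl) rfl) (allR_glue (allR_glue (r0_103) (allR_glue (r0_104) (r0_105) rfl) rfl) (allR_glue (r0_106) (allR_glue (r0_107) (r0_108) rfl) rfl) rfl) rfl) rfl) (allR_glue (allR_glue (allR_glue (allR_glue (r0_109) (r0_110) rfl) (allR_glue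 (r0_111) (allR_glue (r0_112) (r0_113) rfl) rfl) rfl) (allR_glue (allR_glue (r0_114) (allR_glue (r0_115) (r0_116) rfl) rfl) (allR_glue (r0_117) (allR_glue (r0_118) (r0_119) rfl) rfl) rfl) rfl) (allR_glue (allR_glue (allR_glue (r0_120) (r0_121) rfl) (allR_glue (r0_122) (allR_glue (r0_123) (r0_124) rfl) rfl) rfl) (allR_glue (allR_glue (r0_125) (allR_glue (r0_126) (r0_127) rfl) rfl) (allR_glue (r0_128) (allR_glue (r0_129) (r0_130) rfl) rfl) rfl) rfl) rfl) rfl) (allR_glue (allR_glue (allR_glue (allR_glue (allR_glue (r0_131) (r0_132) rfl) (allR_glue (r0_133) (allR_glue (r0_134) (r0_135) rfl) rfl) rfl) (allR_glue (allR_glue (r0_136) (allR_glue (r0_137) (r0_138) rfl) rfl) (allR_glue (r0_139) (allR_glue (r0_140) (r0_141) rfl) rfl) rfl) rfl) (allR_glue (allR_glue (allR_glue (r0_142) (r0_143) rfl) (allR_glue (r0_144) (allR_glue (r0_145) (r0_146) rfl) rfl) rfl) (allR_glue (allR_glue (r0_147) (allR_glue (r0_148) (r0_149)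 rfl) rfl) (allR_glue (r0_150) (allR_glue (r0_151) (r0_152) rfl) rfl) rfl) rfl) rfl) (allR_glue (allR_glue (allR_glue (allR_glue (r0_153) (r0_154) rfl) (allR_glue (r0_155) (allR_glue (r0_156) (r0_157) rfl) rfl) rfl) (allR_glue (allR_glue (r0_158) (allR_glue (r0_159) (r0_160) rfl) rfl) (allR_glue (r0_161) (allR_glue (r0_162) (r0_163) rfl) rfl) rfl) rfl) (allR_glue (allR_glue (allR_glue (r0_164) (r0_165) rfl) (allR_glue (r0_166) (allR_glue (r0_167) (r0_168) rfl) rfl) rfl) (allR_glue (allR_glue (r0_169) (allR_glue (r0_170) (r0_171) rfl) rfl) (allR_glue (r0_172) (allR_glue (r0_173) (r0_174) rfl) rfl) rfl) rfl) rfl) rfl) rfl) rfl) rfl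

theorem all_r1 : ∀ x, x < N → (rChk l1 (leK 1)) x = true :=
  of_chain (allR_glue (allR_glue (allR_glue (allR_glue (allR_glue (allR_glue (allR_glue (r1_0) (r1_1) rfl) (allR_glue (r1_2) (allR_glue (r1_3) (r1_4) rfl) rfl) rfl) (allR_glue (allR_glue (r1_5) (r1_6) rfl) (allR_glue (r1_7) (allR_glue (r1_8) (r1_9) rfl) rfl) rfl) rfl) (allR_glue (allR_glue (allR_glue (r1_10) (r1_11) rfl) (allR_glue (r1_12) (allR_glue (r1_13) (r1_14) rfl) rfl) rfl) (allR_glue (allR_glue (r1_15) (allR_glue (r1_16) (r1_17) rfl) rfl) (allR_glue (r1_18) (allR_glue (r1_19) (r1_20) rfl) rfl) rfl) rfl) rfl) (allR_glue (allR_glue (allR_glue (allR_glue (r1_21) (r1_22) rfl) (allR_glue (r1_23) (allR_glue (r1_24) (r1_25) rfl) rfl) rfl) (allR_glue (allR_glue (r1_26) (allR_glue (r1_27) (r1_28) rfl) rfl) (allR_glue (r1_29) (allR_glue (r1_30) (r1_31) rfl) rfl) rfl) rfl) (allR_glue (allR_glue (allR_glue (r1_32) (r1_33) rfl) (allR_glue (r1_34) (allR_glue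 (r1_35) (r1_36) rfl) rfl) rfl) (allR_glue (allR_glue (r1_37) (allR_glue (r1_38) (r1_39) rfl) rfl) (allR_glue (r1_40) (allR_glue (r1_41) (r1_42) rfl) rfl) rfl) rfl) rfl) rfl) (allR_glue (allR_glue (allR_glue (allR_glue (allR_glue (r1_43) (r1_44) rfl) (allR_glue (r1_45) (allR_glue (r1_46) (r1_47) rfl) rfl) rfl) (allR_glue (allR_glue (r1_48) (allR_glue (r1_49) (r1_50) rfl) rfl) (allR_glue (r1_51) (allR_glue (r1_52) (r1_53) rfl) rfl) rfl) rfl) (allR_glue (allR_glue (allR_glue (r1_54) (r1_55) rfl) (allR_glue (r1_56) (allR_glue (r1_57) (r1_58) rfl) rfl) rfl) (allR_glue (allR_glue (r1_59) (allR_glue (r1_60) (r1_61) rfl) rfl) (allR_glue (r1_62) (allR_glue (r1_63) (r1_64) rfl) rfl) rfl) rfl) rfl) (allR_glue (allR_glue (allR_glue (allR_glue (r1_65) (r1_66) rfl) (allR_glue (r1_67) (allR_glue (r1_68) (r1_69) rfl) rfl) rfl) (allR_glue (allR_glue (r1_70) (allR_glue (r1_71) (r1_72) rfl) rfl) (allR_glue (r1_73) (allR_glue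 (r1_74) (r1_75) rfl) rfl) rfl) rfl) (allR_glue (allR_glue (allR_glue (r1_76) (r1_77) rfl) (allR_glue (r1_78) (allR_glue (r1_79) (r1_80) rfl) rfl) rfl) (allR_glue (allR_glue (r1_81) (allR_glue (r1_82) (r1_83) rfl) rfl) (allR_glue (r1_84) (allR_glue (r1_85) (r1_86) rfl) rfl) rfl) rfl) rfl) rfl) rfl) (allR_glue (allR_glue (allR_glue (allR_glue (allR_glue (allR_glue (r1_87) (r1_88) rfl) (allR_glue (r1_89) (allR_glue (r1_90) (r1_91) rfl) rfl) rfl) (allR_glue (allR_glue (r1_92) (allR_glue (r1_93) (r1_94) rfl) rfl) (allR_glue (r1_95) (allR_glue (r1_96) (r1_97) rfl) rfl) rfl) rfl) (allR_glue (allR_glue (allR_glue (r1_98) (r1_99) rfl) (allR_glue (r1_100) (allR_glue (r1_101) (r1_102) rfl) rfl) rfl) (allR_glue (allR_glue (r1_103) (allR_glue (r1_104) (r1_105) rfl) rfl) (allR_glue (r1_106) (allR_glue (r1_107) (r1_108) rfl) rfl) rfl) rfl) rfl) (allR_glue (allR_glue (allR_glue (allR_glue (r1_109) (r1_110) rfl) (allR_glue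 (r1_111) (allR_glue (r1_112) (r1_113) rfl) rfl) rfl) (allR_glue (allR_glue (r1_114) (allR_glue (r1_115) (r1_116) rfl) rfl) (allR_glue (r1_117) (allR_glue (r1_118) (r1_119) rfl) rfl) rfl) rfl) (allR_glue (allR_glue (allR_glue (r1_120) (r1_121) rfl) (allR_glue (r1_122) (allR_glue (r1_123) (r1_124) rfl) rfl) rfl) (allR_glue (allR_glue (r1_125) (allR_glue (r1_126) (r1_127) rfl) rfl) (allR_glue (r1_128) (allR_glue (r1_129) (r1_130) rfl) rfl) rfl) rfl) rfl) rfl) (allR_glue (allR_glue (allR_glue (allR_glue (allR_glue (r1_131) (r1_132) rfl) (allR_glue (r1_133) (allR_glue (r1_134) (r1_135) rfl) rfl) rfl) (allR_glue (allR_glue (r1_136) (allR_glue (r1_137) (r1_138) rfl) rfl) (allR_glue (r1_139) (allR_glue (r1_140) (r1_141) rfl) rfl) rfl) rfl) (allR_glue (allR_glue (allR_glue (r1_142) (r1_143) rfl) (allR_glue (r1_144) (allR_glue (r1_145) (r1_146) rfl) rfl) rfl) (allR_glue (allR_glue (r1_147) (allR_glue (r1_148) (r1_149)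 rfl) rfl) (allR_glue (r1_150) (allR_glue (r1_151) (r1_152) rfl) rfl) rfl) rfl) rfl) (allR_glue (allR_glue (allR_glue (allR_glue (r1_153) (r1_154) rfl) (allR_glue (r1_155) (allR_glue (r1_156) (r1_157) rfl) rfl) rfl) (allR_glue (allR_glue (r1_158) (allR_glue (r1_159) (r1_160) rfl) rfl) (allR_glue (r1_161) (allR_glue (r1_162) (r1_163) rfl) rfl) rfl) rfl) (allR_glue (allR_glue (allR_glue (r1_164) (r1_165) rfl) (allR_glue (r1_166) (allR_glue (r1_167) (r1_168) rfl) rfl) rfl) (allR_glue (allR_glue (r1_169) (allR_glue (r1_170) (r1_171) rfl) rfl) (allR_glue (r1_172) (allR_glue (r1_173) (r1_174) rfl) rfl) rfl) rfl) rfl) rfl) rfl) rfl) rfl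

theorem all_r2 : ∀ x, x < N → (rChk l2 (leK 2)) x = true :=
  of_chain (allR_glue (allR_glue (allR_glue (allR_glue (allR_glue (allR_glue (allR_glue (r2_0) (r2_1) rfl) (allR_glue (r2_2) (allR_glue (r2_3) (r2_4) rfl) rfl) rfl) (allR_glue (allR_glue (r2_5) (r2_6) rfl) (allR_glue (r2_7) (allR_glue (r2_8) (r2_9) rfl) rfl) rfl) rfl) (allR_glue (allR_glue (allR_glue (r2_10) (r2_11) rfl) (allR_glue (r2_12) (allR_glue (r2_13) (r2_14) rfl) rfl) rfl) (allR_glue (allR_glue (r2_15) (allR_glue (r2_16) (r2_17) rfl) rfl) (allR_glue (r2_18) (allR_glue (r2_19) (r2_20) rfl) rfl) rfl) rfl) rfl) (allR_glue (allR_glue (allR_glue (allR_glue (r2_21) (r2_22) rfl) (allR_glue (r2_23) (allR_glue (r2_24) (r2_25) rfl) rfl) rfl) (allR_glue (allR_glue (r2_26) (allR_glue (r2_27) (r2_28) rfl) rfl) (allR_glue (r2_29) (allR_glue (r2_30) (r2_31) rfl) rfl) rfl) rfl) (allR_glue (allR_glue (allR_glue (r2_32) (r2_33) rfl) (allR_glue (r2_34) (allR_glue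 (r2_35) (r2_36) rfl) rfl) rfl) (allR_glue (allR_glue (r2_37) (allR_glue (r2_38) (r2_39) rfl) rfl) (allR_glue (r2_40) (allR_glue (r2_41) (r2_42) rfl) rfl) rfl) rfl) rfl) rfl) (allR_glue (allR_glue (allR_glue (allR_glue (allR_glue (r2_43) (r2_44) rfl) (allR_glue (r2_45) (allR_glue (r2_46) (r2_47) rfl) rfl) rfl) (allR_glue (allR_glue (r2_48) (allR_glue (r2_49) (r2_50) rfl) rfl) (allR_glue (r2_51) (allR_glue (r2_52) (r2_53) rfl) rfl) rfl) rfl) (allR_glue (allR_glue (allR_glue (r2_54) (r2_55) rfl) (allR_glue (r2_56) (allR_glue (r2_57) (r2_58) rfl) rfl) rfl) (allR_glue (allR_glue (r2_59) (allR_glue (r2_60) (r2_61) rfl) rfl) (allR_glue (r2_62) (allR_glue (r2_63) (r2_64) rfl) rfl) rfl) rfl) rfl) (allR_glue (allR_glue (allR_glue (allR_glue (r2_65) (r2_66) rfl) (allR_glue (r2_67) (allR_glue (r2_68) (r2_69) rfl) rfl) rfl) (allR_glue (allR_glue (r2_70) (allR_glue (r2_71) (r2_72) rfl) rfl) (allR_glue (r2_73) (allR_glue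 (r2_74) (r2_75) rfl) rfl) rfl) rfl) (allR_glue (allR_glue (allR_glue (r2_76) (r2_77) rfl) (allR_glue (r2_78) (allR_glue (r2_79) (r2_80) rfl) rfl) rfl) (allR_glue (allR_glue (r2_81) (allR_glue (r2_82) (r2_83) rfl) rfl) (allR_glue (r2_84) (allR_glue (r2_85) (r2_86) rfl) rfl) rfl) rfl) rfl) rfl) rfl) (allR_glue (allR_glue (allR_glue (allR_glue (allR_glue (allR_glue (r2_87) (r2_88) rfl) (allR_glue (r2_89) (allR_glue (r2_90) (r2_91) rfl) rfl) rfl) (allR_glue (allR_glue (r2_92) (allR_glue (r2_93) (r2_94) rfl) rfl) (allR_glue (r2_95) (allR_glue (r2_96) (r2_97) rfl) rfl) rfl) rfl) (allR_glue (allR_glue (allR_glue (r2_98) (r2_99) rfl) (allR_glue (r2_100) (allR_glue (r2_101) (r2_102) rfl) rfl) rfl) (allR_glue (allR_glue (r2_103) (allR_glue (r2_104) (r2_105) rfl) rfl) (allR_glue (r2_106) (allR_glue (r2_107) (r2_108) rfl) rfl) rfl) rfl) rfl) (allR_glue (allR_glue (allR_glue (allR_glue (r2_109) (r2_110) rfl) (allR_glue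 (r2_111) (allR_glue (r2_112) (r2_113) rfl) rfl) rfl) (allR_glue (allR_glue (r2_114) (allR_glue (r2_115) (r2_116) rfl) rfl) (allR_glue (r2_117) (allR_glue (r2_118) (r2_119) rfl) rfl) rfl) rfl) (allR_glue (allR_glue (allR_glue (r2_120) (r2_121) rfl) (allR_glue (r2_122) (allR_glue (r2_123) (r2_124) rfl) rfl) rfl) (allR_glue (allR_glue (r2_125) (allR_glue (r2_126) (r2_127) rfl) rfl) (allR_glue (r2_128) (allR_glue (r2_129) (r2_130) rfl) rfl) rfl) rfl) rfl) rfl) (allR_glue (allR_glue (allR_glue (allR_glue (allR_glue (r2_131) (r2_132) rfl) (allR_glue (r2_133) (allR_glue (r2_134) (r2_135) rfl) rfl) rfl) (allR_glue (allR_glue (r2_136) (allR_glue (r2_137) (r2_138) rfl) rfl) (allR_glue (r2_139) (allR_glue (r2_140) (r2_141) rfl) rfl) rfl) rfl) (allR_glue (allR_glue (allR_glue (r2_142) (r2_143) rfl) (allR_glue (r2_144) (allR_glue (r2_145) (r2_146) rfl) rfl) rfl) (allR_glue (allR_glue (r2_147) (allR_glue (r2_148) (r2_149)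 rfl) rfl) (allR_glue (r2_150) (allR_glue (r2_151) (r2_152) rfl) rfl) rfl) rfl) rfl) (allR_glue (allR_glue (allR_glue (allR_glue (r2_153) (r2_154) rfl) (allR_glue (r2_155) (allR_glue (r2_156) (r2_157) rfl) rfl) rfl) (allR_glue (allR_glue (r2_158) (allR_glue (r2_159) (r2_160) rfl) rfl) (allR_glue (r2_161) (allR_glue (r2_162) (r2_163) rfl) rfl) rfl) rfl) (allR_glue (allR_glue (allR_glue (r2_164) (r2_165) rfl) (allR_glue (r2_166) (allR_glue (r2_167) (r2_168) rfl) rfl) rfl) (allR_glue (allR_glue (r2_169) (allR_glue (r2_170) (r2_171) rfl) rfl) (allR_glue (r2_172) (allR_glue (r2_173) (r2_174) rfl) rfl) rfl) rfl) rfl) rfl) rfl) rfl) rfl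

theorem all_r3 : ∀ x, x < N → (rChk l3 (leK 3)) x = true :=
  of_chain (allR_glue (allR_glue (allR_glue (allR_glue (allR_glue (allR_glue (allR_glue (r3_0) (r3_1) rfl) (allR_glue (r3_2) (allR_glue (r3_3) (r3_4) rfl) rfl) rfl) (allR_glue (allR_glue (r3_5) (r3_6) rfl) (allR_glue (r3_7) (allR_glue (r3_8) (r3_9) rfl) rfl) rfl) rfl) (allR_glue (allR_glue (allR_glue (r3_10) (r3_11) rfl) (allR_glue (r3_12) (allR_glue (r3_13) (r3_14) rfl) rfl) rfl) (allR_glue (allR_glue (r3_15) (allR_glue (r3_16) (r3_17) rfl) rfl) (allR_glue (r3_18) (allR_glue (r3_19) (r3_20) rfl) rfl) rfl) rfl) rfl) (allR_glue (allR_glue (allR_glue (allR_glue (r3_21) (r3_22) rfl) (allR_glue (r3_23) (allR_glue (r3_24) (r3_25) rfl) rfl) rfl) (allR_glue (allR_glue (r3_26) (allR_glue (r3_27) (r3_28) rfl) rfl) (allR_glue (r3_29) (allR_glue (r3_30) (r3_31) rfl) rfl) rfl) rfl) (allR_glue (allR_glue (allR_glue (r3_32) (r3_33) rfl) (allR_glue (r3_34) (allR_glue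 (r3_35) (r3_36) rfl) rfl) rfl) (allR_glue (allR_glue (r3_37) (allR_glue (r3_38) (r3_39) rfl) rfl) (allR_glue (r3_40) (allR_glue (r3_41) (r3_42) rfl) rfl) rfl) rfl) rfl) rfl) (allR_glue (allR_glue (allR_glue (allR_glue (allR_glue (r3_43) (r3_44) rfl) (allR_glue (r3_45) (allR_glue (r3_46) (r3_47) rfl) rfl) rfl) (allR_glue (allR_glue (r3_48) (allR_glue (r3_49) (r3_50) rfl) rfl) (allR_glue (r3_51) (allR_glue (r3_52) (r3_53) rfl) rfl) rfl) rfl) (allR_glue (allR_glue (allR_glue (r3_54) (r3_55) rfl) (allR_glue (r3_56) (allR_glue (r3_57) (r3_58) rfl) rfl) rfl) (allR_glue (allR_glue (r3_59) (allR_glue (r3_60) (r3_61) rfl) rfl) (allR_glue (r3_62) (allR_glue (r3_63) (r3_64) rfl) rfl) rfl) rfl) rfl) (allR_glue (allR_glue (allR_glue (allR_glue (r3_65) (r3_66) rfl) (allR_glue (r3_67) (allR_glue (r3_68) (r3_69) rfl) rfl) rfl) (allR_glue (allR_glue (r3_70) (allR_glue (r3_71) (r3_72) rfl) rfl) (allR_glue (r3_73) (allR_glue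 (r3_74) (r3_75) rfl) rfl) rfl) rfl) (allR_glue (allR_glue (allR_glue (r3_76) (r3_77) rfl) (allR_glue (r3_78) (allR_glue (r3_79) (r3_80) rfl) rfl) rfl) (allR_glue (allR_glue (r3_81) (allR_glue (r3_82) (r3_83) rfl) rfl) (allR_glue (r3_84) (allR_glue (r3_85) (r3_86) rfl) rfl) rfl) rfl) rfl) rfl) rfl) (allR_glue (allR_glue (allR_glue (allR_glue (allR_glue (allR_glue (r3_87) (r3_88) rfl) (allR_glue (r3_89) (allR_glue (r3_90) (r3_91) rfl) rfl) rfl) (allR_glue (allR_glue (r3_92) (allR_glue (r3_93) (r3_94) rfl) rfl) (allR_glue (r3_95) (allR_glue (r3_96) (r3_97) rfl) rfl) rfl) rfl) (allR_glue (allR_glue (allR_glue (r3_98) (r3_99) rfl) (allR_glue (r3_100) (allR_glue (r3_101) (r3_102) rfl) rfl) rfl) (allR_glue (allR_glue (r3_103) (allR_glue (r3_104) (r3_105) rfl) rfl) (allR_glue (r3_106) (allR_glue (r3_107) (r3_108) rfl) rfl) rfl) rfl) rfl) (allR_glue (allR_glue (allR_glue (allR_glue (r3_109) (r3_110) rfl) (allR_glue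 (r3_111) (allR_glue (r3_112) (r3_113) rfl) rfl) rfl) (allR_glue (allR_glue (r3_114) (allR_glue (r3_115) (r3_116) rfl) rfl) (allR_glue (r3_117) (allR_glue (r3_118) (r3_119) rfl) rfl) rfl) rfl) (allR_glue (allR_glue (allR_glue (r3_120) (r3_121) rfl) (allR_glue (r3_122) (allR_glue (r3_123) (r3_124) rfl) rfl) rfl) (allR_glue (allR_glue (r3_125) (allR_glue (r3_126) (r3_127) rfl) rfl) (allR_glue (r3_128) (allR_glue (r3_129) (r3_130) rfl) rfl) rfl) rfl) rfl) rfl) (allR_glue (allR_glue (allR_glue (allR_glue (allR_glue (r3_131) (r3_132) rfl) (allR_glue (r3_133) (allR_glue (r3_134) (r3_135) rfl) rfl) rfl) (allR_glue (allR_glue (r3_136) (allR_glue (r3_137) (r3_138) rfl) rfl) (allR_glue (r3_139) (allR_glue (r3_140) (r3_141) rfl) rfl) rfl) rfl) (allR_glue (allR_glue (allR_glue (r3_142) (r3_143) rfl) (allR_glue (r3_144) (allR_glue (r3_145) (r3_146) rfl) rfl) rfl) (allR_glue (allR_glue (r3_147) (allR_glue (r3_148) (r3_149)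 rfl) rfl) (allR_glue (r3_150) (allR_glue (r3_151) (r3_152) rfl) rfl) rfl) rfl) rfl) (allR_glue (allR_glue (allR_glue (allR_glue (r3_153) (r3_154) rfl) (allR_glue (r3_155) (allR_glue (r3_156) (r3_157) rfl) rfl) rfl) (allR_glue (allR_glue (r3_158) (allR_glue (r3_159) (r3_160) rfl) rfl) (allR_glue (r3_161) (allR_glue (r3_162) (r3_163) rfl) rfl) rfl) rfl) (allR_glue (allR_glue (allR_glue (r3_164) (r3_165) rfl) (allR_glue (r3_166) (allR_glue (r3_167) (r3_168) rfl) rfl) rfl) (allR_glue (allR_glue (r3_169) (allR_glue (r3_170) (r3_171) rfl) rfl) (allR_glue (r3_172) (allR_glue (r3_173) (r3_174) rfl) rfl) rfl) rfl) rfl) rfl) rfl) rfl) rfl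

theorem all_r4 : ∀ x, x < N → (rChk l4 (leK 4)) x = true :=
  of_chain (allR_glue (allR_glue (allR_glue (allR_glue (allR_glue (allR_glue (allR_glue (r4_0) (r4_1) rfl) (allR_glue (r4_2) (allR_glue (r4_3) (r4_4) rfl) rfl) rfl) (allR_glue (allR_glue (r4_5) (r4_6) rfl) (allR_glue (r4_7) (allR_glue (r4_8) (r4_9) rfl) rfl) rfl) rfl) (allR_glue (allR_glue (allR_glue (r4_10) (r4_11) rfl) (allR_glue (r4_12) (allR_glue (r4_13) (r4_14) rfl) rfl) rfl) (allR_glue (allR_glue (r4_15) (allR_glue (r4_16) (r4_17) rfl) rfl) (allR_glue (r4_18) (allR_glue (r4_19) (r4_20) rfl) rfl) rfl) rfl) rfl) (allR_glue (allR_glue (allR_glue (allR_glue (r4_21) (r4_22) rfl) (allR_glue (r4_23) (allR_glue (r4_24) (r4_25) rfl) rfl) rfl) (allR_glue (allR_glue (r4_26) (allR_glue (r4_27) (r4_28) rfl) rfl) (allR_glue (r4_29) (allR_glue (r4_30) (r4_31) rfl) rfl) rfl) rfl) (allR_glue (allR_glue (allR_glue (r4_32) (r4_33) rfl) (allR_glue (r4_34) (allR_glue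 (r4_35) (r4_36) rfl) rfl) rfl) (allR_glue (allR_glue (r4_37) (allR_glue (r4_38) (r4_39) rfl) rfl) (allR_glue (r4_40) (allR_glue (r4_41) (r4_42) rfl) rfl) rfl) rfl) rfl) rfl) (allR_glue (allR_glue (allR_glue (allR_glue (allR_glue (r4_43) (r4_44) rfl) (allR_glue (r4_45) (allR_glue (r4_46) (r4_47) rfl) rfl) rfl) (allR_glue (allR_glue (r4_48) (allR_glue (r4_49) (r4_50) rfl) rfl) (allR_glue (r4_51) (allR_glue (r4_52) (r4_53) rfl) rfl) rfl) rfl) (allR_glue (allR_glue (allR_glue (r4_54) (r4_55) rfl) (allR_glue (r4_56) (allR_glue (r4_57) (r4_58) rfl) rfl) rfl) (allR_glue (allR_glue (r4_59) (allR_glue (r4_60) (r4_61) rfl) rfl) (allR_glue (r4_62) (allR_glue (r4_63) (r4_64) rfl) rfl) rfl) rfl) rfl) (allR_glue (allR_glue (allR_glue (allR_glue (r4_65) (r4_66) rfl) (allR_glue (r4_67) (allR_glue (r4_68) (r4_69) rfl) rfl) rfl) (allR_glue (allR_glue (r4_70) (allR_glue (r4_71) (r4_72) rfl) rfl) (allR_glue (r4_73) (allR_glue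 (r4_74) (r4_75) rfl) rfl) rfl) rfl) (allR_glue (allR_glue (allR_glue (r4_76) (r4_77) rfl) (allR_glue (r4_78) (allR_glue (r4_79) (r4_80) rfl) rfl) rfl) (allR_glue (allR_glue (r4_81) (allR_glue (r4_82) (r4_83) rfl) rfl) (allR_glue (r4_84) (allR_glue (r4_85) (r4_86) rfl) rfl) rfl) rfl) rfl) rfl) rfl) (allR_glue (allR_glue (allR_glue (allR_glue (allR_glue (allR_glue (r4_87) (r4_88) rfl) (allR_glue (r4_89) (allR_glue (r4_90) (r4_91) rfl) rfl) rfl) (allR_glue (allR_glue (r4_92) (allR_glue (r4_93) (r4_94) rfl) rfl) (allR_glue (r4_95) (allR_glue (r4_96) (r4_97) rfl) rfl) rfl) rfl) (allR_glue (allR_glue (allR_glue (r4_98) (r4_99) rfl) (allR_glue (r4_100) (allR_glue (r4_101) (r4_102) rfl) rfl) rfl) (allR_glue (allR_glue (r4_103) (allR_glue (r4_104) (r4_105) rfl) rfl) (allR_glue (r4_106) (allR_glue (r4_107) (r4_108) rfl) rfl) rfl) rfl) rfl) (allR_glue (allR_glue (allR_glue (allR_glue (r4_109) (r4_110) rfl) (allR_glue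 (r4_111) (allR_glue (r4_112) (r4_113) rfl) rfl) rfl) (allR_glue (allR_glue (r4_114) (allR_glue (r4_115) (r4_116) rfl) rfl) (allR_glue (r4_117) (allR_glue (r4_118) (r4_119) rfl) rfl) rfl) rfl) (allR_glue (allR_glue (allR_glue (r4_120) (r4_121) rfl) (allR_glue (r4_122) (allR_glue (r4_123) (r4_124) rfl) rfl) rfl) (allR_glue (allR_glue (r4_125) (allR_glue (r4_126) (r4_127) rfl) rfl) (allR_glue (r4_128) (allR_glue (r4_129) (r4_130) rfl) rfl) rfl) rfl) rfl) rfl) (allR_glue (allR_glue (allR_glue (allR_glue (allR_glue (r4_131) (r4_132) rfl) (allR_glue (r4_133) (allR_glue (r4_134) (r4_135) rfl) rfl) rfl) (allR_glue (allR_glue (r4_136) (allR_glue (r4_137) (r4_138) rfl) rfl) (allR_glue (r4_139) (allR_glue (r4_140) (r4_141) rfl) rfl) rfl) rfl) (allR_glue (allR_glue (allR_glue (r4_142) (r4_143) rfl) (allR_glue (r4_144) (allR_glue (r4_145) (r4_146) rfl) rfl) rfl) (allR_glue (allR_glue (r4_147) (allR_glue (r4_148) (r4_149)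 rfl) rfl) (allR_glue (r4_150) (allR_glue (r4_151) (r4_152) rfl) rfl) rfl) rfl) rfl) (allR_glue (allR_glue (allR_glue (allR_glue (r4_153) (r4_154) rfl) (allR_glue (r4_155) (allR_glue (r4_156) (r4_157) rfl) rfl) rfl) (allR_glue (allR_glue (r4_158) (allR_glue (r4_159) (r4_160) rfl) rfl) (allR_glue (r4_161) (allR_glue (r4_162) (r4_163) rfl) rfl) rfl) rfl) (allR_glue (allR_glue (allR_glue (r4_164) (r4_165) rfl) (allR_glue (r4_166) (allR_glue (r4_167) (r4_168) rfl) rfl) rfl) (allR_glue (allR_glue (r4_169) (allR_glue (r4_170) (r4_171) rfl) rfl) (allR_glue (r4_172) (allR_glue (r4_173) (r4_174) rfl) rfl) rfl) rfl) rfl) rfl) rfl) rfl) rfl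

theorem all_r5 : ∀ x, x < N → (rChk l5 (leK 5)) x = true :=
  of_chain (allR_glue (allR_glue (allR_glue (allR_glue (allR_glue (allR_glue (allR_glue (r5_0) (r5_1) rfl) (allR_glue (r5_2) (allR_glue (r5_3) (r5_4) rfl) rfl) rfl) (allR_glue (allR_glue (r5_5) (r5_6) rfl) (allR_glue (r5_7) (allR_glue (r5_8) (r5_9) rfl) rfl) rfl) rfl) (allR_glue (allR_glue (allR_glue (r5_10) (r5_11) rfl) (allR_glue (r5_12) (allR_glue (r5_13) (r5_14) rfl) rfl) rfl) (allR_glue (allR_glue (r5_15) (allR_glue (r5_16) (r5_17) rfl) rfl) (allR_glue (r5_18) (allR_glue (r5_19) (r5_20) rfl) rfl) rfl) rfl) rfl) (allR_glue (allR_glue (allR_glue (allR_glue (r5_21) (r5_22) rfl) (allR_glue (r5_23) (allR_glue (r5_24) (r5_25) rfl) rfl) rfl) (allR_glue (allR_glue (r5_26) (allR_glue (r5_27) (r5_28) rfl) rfl) (allR_glue (r5_29) (allR_glue (r5_30) (r5_31) rfl) rfl) rfl) rfl) (allR_glue (allR_glue (allR_glue (r5_32) (r5_33) rfl) (allR_glue (r5_34) (allR_glue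 (r5_35) (r5_36) rfl) rfl) rfl) (allR_glue (allR_glue (r5_37) (allR_glue (r5_38) (r5_39) rfl) rfl) (allR_glue (r5_40) (allR_glue (r5_41) (r5_42) rfl) rfl) rfl) rfl) rfl) rfl) (allR_glue (allR_glue (allR_glue (allR_glue (allR_glue (r5_43) (r5_44) rfl) (allR_glue (r5_45) (allR_glue (r5_46) (r5_47) rfl) rfl) rfl) (allR_glue (allR_glue (r5_48) (allR_glue (r5_49) (r5_50) rfl) rfl) (allR_glue (r5_51) (allR_glue (r5_52) (r5_53) rfl) rfl) rfl) rfl) (allR_glue (allR_glue (allR_glue (r5_54) (r5_55) rfl) (allR_glue (r5_56) (allR_glue (r5_57) (r5_58) rfl) rfl) rfl) (allR_glue (allR_glue (r5_59) (allR_glue (r5_60) (r5_61) rfl) rfl) (allR_glue (r5_62) (allR_glue (r5_63) (r5_64) rfl) rfl) rfl) rfl) rfl) (allR_glue (allR_glue (allR_glue (allR_glue (r5_65) (r5_66) rfl) (allR_glue (r5_67) (allR_glue (r5_68) (r5_69) rfl) rfl) rfl) (allR_glue (allR_glue (r5_70) (allR_glue (r5_71) (r5_72) rfl) rfl) (allR_glue (r5_73) (allR_glue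 (r5_74) (r5_75) rfl) rfl) rfl) rfl) (allR_glue (allR_glue (allR_glue (r5_76) (r5_77) rfl) (allR_glue (r5_78) (allR_glue (r5_79) (r5_80) rfl) rfl) rfl) (allR_glue (allR_glue (r5_81) (allR_glue (r5_82) (r5_83) rfl) rfl) (allR_glue (r5_84) (allR_glue (r5_85) (r5_86) rfl) rfl) rfl) rfl) rfl) rfl) rfl) (allR_glue (allR_glue (allR_glue (allR_glue (allR_glue (allR_glue (r5_87) (r5_88) rfl) (allR_glue (r5_89) (allR_glue (r5_90) (r5_91) rfl) rfl) rfl) (allR_glue (allR_glue (r5_92) (allR_glue (r5_93) (r5_94) rfl) rfl) (allR_glue (r5_95) (allR_glue (r5_96) (r5_97) rfl) rfl) rfl) rfl) (allR_glue (allR_glue (allR_glue (r5_98) (r5_99) rfl) (allR_glue (r5_100) (allR_glue (r5_101) (r5_102) rfl) rfl) rfl) (allR_glue (allR_glue (r5_103) (allR_glue (r5_104) (r5_105) rfl) rfl) (allR_glue (r5_106) (allR_glue (r5_107) (r5_108) rfl) rfl) rfl) rfl) rfl) (allR_glue (allR_glue (allR_glue (allR_glue (r5_109) (r5_110) rfl) (allR_glue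 (r5_111) (allR_glue (r5_112) (r5_113) rfl) rfl) rfl) (allR_glue (allR_glue (r5_114) (allR_glue (r5_115) (r5_116) rfl) rfl) (allR_glue (r5_117) (allR_glue (r5_118) (r5_119) rfl) rfl) rfl) rfl) (allR_glue (allR_glue (allR_glue (r5_120) (r5_121) rfl) (allR_glue (r5_122) (allR_glue (r5_123) (r5_124) rfl) rfl) rfl) (allR_glue (allR_glue (r5_125) (allR_glue (r5_126) (r5_127) rfl) rfl) (allR_glue (r5_128) (allR_glue (r5_129) (r5_130) rfl) rfl) rfl) rfl) rfl) rfl) (allR_glue (allR_glue (allR_glue (allR_glue (allR_glue (r5_131) (r5_132) rfl) (allR_glue (r5_133) (allR_glue (r5_134) (r5_135) rfl) rfl) rfl) (allR_glue (allR_glue (r5_136) (allR_glue (r5_137) (r5_138) rfl) rfl) (allR_glue (r5_139) (allR_glue (r5_140) (r5_141) rfl) rfl) rfl) rfl) (allR_glue (allR_glue (allR_glue (r5_142) (r5_143) rfl) (allR_glue (r5_144) (allR_glue (r5_145) (r5_146) rfl) rfl) rfl) (allR_glue (allR_glue (r5_147) (allR_glue (r5_148) (r5_149)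 rfl) rfl) (allR_glue (r5_150) (allR_glue (r5_151) (r5_152) rfl) rfl) rfl) rfl) rfl) (allR_glue (allR_glue (allR_glue (allR_glue (r5_153) (r5_154) rfl) (allR_glue (r5_155) (allR_glue (r5_156) (r5_157) rfl) rfl) rfl) (allR_glue (allR_glue (r5_158) (allR_glue (r5_159) (r5_160) rfl) rfl) (allR_glue (r5_161) (allR_glue (r5_162) (r5_163) rfl) rfl) rfl) rfl) (allR_glue (allR_glue (allR_glue (r5_164) (r5_165) rfl) (allR_glue (r5_166) (allR_glue (r5_167) (r5_168) rfl) rfl) rfl) (allR_glue (allR_glue (r5_169) (allR_glue (r5_170) (r5_171) rfl) rfl) (allR_glue (r5_172) (allR_glue (r5_173) (r5_174) rfl) rfl) rfl) rfl) rfl) rfl) rfl) rfl) rfl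

theorem all_r6 : ∀ x, x < N → (rChk l6 (leK 6)) x = true :=
  of_chain (allR_glue (allR_glue (allR_glue (allR_glue (allR_glue (allR_glue (allR_glue (r6_0) (r6_1) rfl) (allR_glue (r6_2) (allR_glue (r6_3) (r6_4) rfl) rfl) rfl) (allR_glue (allR_glue (r6_5) (r6_6) rfl) (allR_glue (r6_7) (allR_glue (r6_8) (r6_9) rfl) rfl) rfl) rfl) (allR_glue (allR_glue (allR_glue (r6_10) (r6_11) rfl) (allR_glue (r6_12) (allR_glue (r6_13) (r6_14) rfl) rfl) rfl) (allR_glue (allR_glue (r6_15) (allR_glue (r6_16) (r6_17) rfl) rfl) (allR_glue (r6_18) (allR_glue (r6_19) (r6_20) rfl) rfl) rfl) rfl) rfl) (allR_glue (allR_glue (allR_glue (allR_glue (r6_21) (r6_22) rfl) (allR_glue (r6_23) (allR_glue (r6_24) (r6_25) rfl) rfl) rfl) (allR_glue (allR_glue (r6_26) (allR_glue (r6_27) (r6_28) rfl) rfl) (allR_glue (r6_29) (allR_glue (r6_30) (r6_31) rfl) rfl) rfl) rfl) (allR_glue (allR_glue (allR_glue (r6_32) (r6_33) rfl) (allR_glue (r6_34) (allR_glue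 (r6_35) (r6_36) rfl) rfl) rfl) (allR_glue (allR_glue (r6_37) (allR_glue (r6_38) (r6_39) rfl) rfl) (allR_glue (r6_40) (allR_glue (r6_41) (r6_42) rfl) rfl) rfl) rfl) rfl) rfl) (allR_glue (allR_glue (allR_glue (allR_glue (allR_glue (r6_43) (r6_44) rfl) (allR_glue (r6_45) (allR_glue (r6_46) (r6_47) rfl) rfl) rfl) (allR_glue (allR_glue (r6_48) (allR_glue (r6_49) (r6_50) rfl) rfl) (allR_glue (r6_51) (allR_glue (r6_52) (r6_53) rfl) rfl) rfl) rfl) (allR_glue (allR_glue (allR_glue (r6_54) (r6_55) rfl) (allR_glue (r6_56) (allR_glue (r6_57) (r6_58) rfl) rfl) rfl) (allR_glue (allR_glue (r6_59) (allR_glue (r6_60) (r6_61) rfl) rfl) (allR_glue (r6_62) (allR_glue (r6_63) (r6_64) rfl) rfl) rfl) rfl) rfl) (allR_glue (allR_glue (allR_glue (allR_glue (r6_65) (r6_66) rfl) (allR_glue (r6_67) (allR_glue (r6_68) (r6_69) rfl) rfl) rfl) (allR_glue (allR_glue (r6_70) (allR_glue (r6_71) (r6_72) rfl) rfl) (allR_glue (r6_73) (allR_glue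 (r6_74) (r6_75) rfl) rfl) rfl) rfl) (allR_glue (allR_glue (allR_glue (r6_76) (r6_77) rfl) (allR_glue (r6_78) (allR_glue (r6_79) (r6_80) rfl) rfl) rfl) (allR_glue (allR_glue (r6_81) (allR_glue (r6_82) (r6_83) rfl) rfl) (allR_glue (r6_84) (allR_glue (r6_85) (r6_86) rfl) rfl) rfl) rfl) rfl) rfl) rfl) (allR_glue (allR_glue (allR_glue (allR_glue (allR_glue (allR_glue (r6_87) (r6_88) rfl) (allR_glue (r6_89) (allR_glue (r6_90) (r6_91) rfl) rfl) rfl) (allR_glue (allR_glue (r6_92) (allR_glue (r6_93) (r6_94) rfl) rfl) (allR_glue (r6_95) (allR_glue (r6_96) (r6_97) rfl) rfl) rfl) rfl) (allR_glue (allR_glue (allR_glue (r6_98) (r6_99) rfl) (allR_glue (r6_100) (allR_glue (r6_101) (r6_102) rfl) rfl) rfl) (allR_glue (allR_glue (r6_103) (allR_glue (r6_104) (r6_105) rfl) rfl) (allR_glue (r6_106) (allR_glue (r6_107) (r6_108) rfl) rfl) rfl) rfl) rfl) (allR_glue (allR_glue (allR_glue (allR_glue (r6_109) (r6_110) rfl) (allR_glue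 (r6_111) (allR_glue (r6_112) (r6_113) rfl) rfl) rfl) (allR_glue (allR_glue (r6_114) (allR_glue (r6_115) (r6_116) rfl) rfl) (allR_glue (r6_117) (allR_glue (r6_118) (r6_119) rfl) rfl) rfl) rfl) (allR_glue (allR_glue (allR_glue (r6_120) (r6_121) rfl) (allR_glue (r6_122) (allR_glue (r6_123) (r6_124) rfl) rfl) rfl) (allR_glue (allR_glue (r6_125) (allR_glue (r6_126) (r6_127) rfl) rfl) (allR_glue (r6_128) (allR_glue (r6_129) (r6_130) rfl) rfl) rfl) rfl) rfl) rfl) (allR_glue (allR_glue (allR_glue (allR_glue (allR_glue (r6_131) (r6_132) rfl) (allR_glue (r6_133) (allR_glue (r6_134) (r6_135) rfl) rfl) rfl) (allR_glue (allR_glue (r6_136) (allR_glue (r6_137) (r6_138) rfl) rfl) (allR_glue (r6_139) (allR_glue (r6_140) (r6_141) rfl) rfl) rfl) rfl) (allR_glue (allR_glue (allR_glue (r6_142) (r6_143) rfl) (allR_glue (r6_144) (allR_glue (r6_145) (r6_146) rfl) rfl) rfl) (allR_glue (allR_glue (r6_147) (allR_glue (r6_148) (r6_149)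 rfl) rfl) (allR_glue (r6_150) (allR_glue (r6_151) (r6_152) rfl) rfl) rfl) rfl) rfl) (allR_glue (allR_glue (allR_glue (allR_glue (r6_153) (r6_154) rfl) (allR_glue (r6_155) (allR_glue (r6_156) (r6_157) rfl) rfl) rfl) (allR_glue (allR_glue (r6_158) (allR_glue (r6_159) (r6_160) rfl) rfl) (allR_glue (r6_161) (allR_glue (r6_162) (r6_163) rfl) rfl) rfl) rfl) (allR_glue (allR_glue (allR_glue (r6_164) (r6_165) rfl) (allR_glue (r6_166) (allR_glue (r6_167) (r6_168) rfl) rfl) rfl) (allR_glue (allR_glue (r6_169) (allR_glue (r6_170) (r6_171) rfl) rfl) (allR_glue (r6_172) (allR_glue (r6_173) (r6_174) rfl) rfl) rfl) rfl) rfl) rfl) rfl) rfl) rfl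

theorem all_rbd : ∀ x, x < N → (fun x => Nat.ble (Nat.add (rT x) 1) 7) x = true :=
  of_chain (allR_glue (allR_glue (allR_glue (allR_glue (allR_glue (allR_glue (rbd_0) (rbd_1) rfl) (allR_glue (rbd_2) (allR_glue (rbd_3) (rbd_4) rfl) rfl) rfl) (allR_glue (allR_glue (rbd_5) (allR_glue (rbd_6) (rbd_7) rfl) rfl) (allR_glue (rbd_8) (allR_glue (rbd_9) (rbd_10) rfl) rfl) rfl) rfl) (allR_glue (allR_glue (allR_glue (rbd_11) (rbd_12) rfl) (allR_glue (rbd_13) (allR_glue (rbd_14) (rbd_15) rfl) rfl) rfl) (allR_glue (allR_glue (rbd_16) (allR_glue (rbd_17) (rbd_18) rfl) rfl) (allR_glue (rbd_19) (allR_glue (rbd_20) (rbd_21) rfl) rfl) rfl) rfl) rfl) (allR_glue (allR_glue (allR_glue (allR_glue (rbd_22) (rbd_23) rfl) (allR_glue (rbd_24) (allR_glue (rbd_25) (rbd_26) rfl) rfl) rfl) (allR_glue (allR_glue (rbd_27) (allR_glue (rbd_28) (rbd_29) rfl) rfl) (allR_glue (rbd_30) (allR_glue (rbd_31) (rbd_32) rfl) rfl) rfl) rfl) (allR_glue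 (allR_glue (allR_glue (rbd_33) (rbd_34) rfl) (allR_glue (rbd_35) (allR_glue (rbd_36) (rbd_37) rfl) rfl) rfl) (allR_glue (allR_glue (rbd_38) (allR_glue (rbd_39) (rbd_40) rfl) rfl) (allR_glue (rbd_41) (allR_glue (rbd_42) (rbd_43) rfl) rfl) rfl) rfl) rfl) rfl) (allR_glue (allR_glue (allR_glue (allR_glue (allR_glue (rbd_44) (rbd_45) rfl) (allR_glue (rbd_46) (allR_glue (rbd_47) (rbd_48) rfl) rfl) rfl) (allR_glue (allR_glue (rbd_49) (allR_glue (rbd_50) (rbd_51) rfl) rfl) (allR_glue (rbd_52) (allR_glue (rbd_53) (rbd_54) rfl) rfl) rfl) rfl) (allR_glue (allR_glue (allR_glue (rbd_55) (rbd_56) rfl) (allR_glue (rbd_57) (allR_glue (rbd_58) (rbd_59) rfl) rfl) rfl) (allR_glue (allR_glue (rbd_60) (allR_glue (rbd_61) (rbd_62) rfl) rfl) (allR_glue (rbd_63) (allR_glue (rbd_64) (rbd_65) rfl) rfl) rfl) rfl) rfl) (allR_glue (allR_glue (allR_glue (allR_glue (rbd_66) (rbd_67) rfl) (allR_glue (rbd_68) (allR_glue (rbd_69) (rbd_70)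 rfl) rfl) rfl) (allR_glue (allR_glue (rbd_71) (allR_glue (rbd_72) (rbd_73) rfl) rfl) (allR_glue (rbd_74) (allR_glue (rbd_75) (rbd_76) rfl) rfl) rfl) rfl) (allR_glue (allR_glue (allR_glue (rbd_77) (rbd_78) rfl) (allR_glue (rbd_79) (allR_glue (rbd_80) (rbd_81) rfl) rfl) rfl) (allR_glue (allR_glue (rbd_82) (allR_glue (rbd_83) (rbd_84) rfl) rfl) (allR_glue (rbd_85) (allR_glue (rbd_86) (rbd_87) rfl) rfl) rfl) rfl) rfl) rfl) rfl) rfl

theorem all_b1 : ∀ x, x < N → (blockChk (leK 1) Z1) x = true :=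
  of_chain (allR_glue (allR_glue (allR_glue (allR_glue (allR_glue (allR_glue (b1_0) (b1_1) rfl) (allR_glue (b1_2) (allR_glue (b1_3) (b1_4) rfl) rfl) rfl) (allR_glue (allR_glue (b1_5) (allR_glue (b1_6) (b1_7) rfl) rfl) (allR_glue (b1_8) (allR_glue (b1_9) (b1_10) rfl) rfl) rfl) rfl) (allR_glue (allR_glue (allR_glue (b1_11) (b1_12) rfl) (allR_glue (b1_13) (allR_glue (b1_14) (b1_15) rfl) rfl) rfl) (allR_glue (allR_glue (b1_16) (allR_glue (b1_17) (b1_18) rfl) rfl) (allR_glue (b1_19) (allR_glue (b1_20) (b1_21) rfl) rfl) rfl) rfl) rfl) (allR_glue (allR_glue (allR_glue (allR_glue (b1_22) (b1_23) rfl) (allR_glue (b1_24) (allR_glue (b1_25) (b1_26) rfl) rfl) rfl) (allR_glue (allR_glue (b1_27) (allR_glue (b1_28) (b1_29) rfl) rfl) (allR_glue (b1_30) (allR_glue (b1_31) (b1_32) rfl) rfl) rfl) rfl) (allR_glue (allR_glue (allR_glue (b1_33) (b1_34) rfl) (allR_glue (b1_35) (allR_glue (b1_36) (b1_37) rfl) rfl) rfl) (allR_glue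 (allR_glue (b1_38) (allR_glue (b1_39) (b1_40) rfl) rfl) (allR_glue (b1_41) (allR_glue (b1_42) (b1_43) rfl) rfl) rfl) rfl) rfl) rfl) (allR_glue (allR_glue (allR_glue (allR_glue (allR_glue (b1_44) (b1_45) rfl) (allR_glue (b1_46) (allR_glue (b1_47) (b1_48) rfl) rfl) rfl) (allR_glue (allR_glue (b1_49) (allR_glue (b1_50) (b1_51) rfl) rfl) (allR_glue (b1_52) (allR_glue (b1_53) (b1_54) rfl) rfl) rfl) rfl) (allR_glue (allR_glue (allR_glue (b1_55) (b1_56) rfl) (allR_glue (b1_57) (allR_glue (b1_58) (b1_59) rfl) rfl) rfl) (allR_glue (allR_glue (b1_60) (allR_glue (b1_61) (b1_62) rfl) rfl) (allR_glue (b1_63) (allR_glue (b1_64) (b1_65) rfl) rfl) rfl) rfl) rfl) (allR_glue (allR_glue (allR_glue (allR_glue (b1_66) (b1_67) rfl) (allR_glue (b1_68) (allR_glue (b1_69) (b1_70) rfl) rfl) rfl) (allR_glue (allR_glue (b1_71) (allR_glue (b1_72) (b1_73) rfl) rfl) (allR_glue (b1_74) (allR_glue (b1_75) (b1_76) rfl) rfl) rfl) rfl) (allR_glue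 (allR_glue (allR_glue (b1_77) (b1_78) rfl) (allR_glue (b1_79) (allR_glue (b1_80) (b1_81) rfl) rfl) rfl) (allR_glue (allR_glue (b1_82) (allR_glue (b1_83) (b1_84) rfl) rfl) (allR_glue (b1_85) (allR_glue (b1_86) (b1_87) rfl) rfl) rfl) rfl) rfl) rfl) rfl) rfl

theorem all_b2 : ∀ x, x < N → (blockChk (leK 2) Z2) x = true :=
  of_chain (allR_glue (allR_glue (allR_glue (allR_glue (allR_glue (allR_glue (b2_0) (b2_1) rfl) (allR_glue (b2_2) (allR_glue (b2_3) (b2_4) rfl) rfl) rfl) (allR_glue (allR_glue (b2_5) (allR_glue (b2_6) (b2_7) rfl) rfl) (allR_glue (b2_8) (allR_glue (b2_9) (b2_10) rfl) rfl) rfl) rfl) (allR_glue (allR_glue (allR_glue (b2_11) (b2_12) rfl) (allR_glue (b2_13) (allR_glue (b2_14) (b2_15) rfl) rfl) rfl) (allR_glue (allR_glue (b2_16) (allR_glue (b2_17) (b2_18) rfl) rfl) (allR_glue (b2_19) (allR_glue (b2_20) (b2_21) rfl) rfl) rfl) rfl) rfl) (allR_glue (allR_glue (allR_glue (allR_glue (b2_22) (b2_23)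 rfl) (allR_glue (b2_24) (allR_glue (b2_25) (b2_26) rfl) rfl) rfl) (allR_glue (allR_glue (b2_27) (allR_glue (b2_28) (b2_29) rfl) rfl) (allR_glue (b2_30) (allR_glue (b2_31) (b2_32) rfl) rfl) rfl) rfl) (allR_glue (allR_glue (allR_glue (b2_33) (b2_34) rfl) (allR_glue (b2_35) (allR_glue (b2_36) (b2_37) rfl) rfl) rfl) (allR_glue (allR_glue (b2_38) (allR_glue (b2_39) (b2_40) rfl) rfl) (allR_glue (b2_41) (allR_glue (b2_42) (b2_43) rfl) rfl) rfl) rfl) rfl) rfl) (allR_glue (allR_glue (allR_glue (allR_glue (allR_glue (b2_44) (b2_45) rfl) (allR_glue (b2_46) (allR_glue (b2_47) (b2_48) rfl) rfl) rfl) (allR_glue (allR_glue (b2_49) (allR_glue (b2_50) (b2_51) rfl) rfl) (allR_glue (b2_52) (allR_glue (b2_53) (b2_54) rfl) rfl) rfl) rfl) (allR_glue (allR_glue (allR_glue (b2_55) (b2_56) rfl) (allR_glue (b2_57) (allR_glue (b2_58) (b2_59) rfl) rfl) rfl) (allR_glue (allR_glue (b2_60) (allR_glue (b2_61) (b2_62) rfl) rfl) (allR_glue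 (b2_63) (allR_glue (b2_64) (b2_65) rfl) rfl) rfl) rfl) rfl) (allR_glue (allR_glue (allR_glue (allR_glue (b2_66) (b2_67) rfl) (allR_glue (b2_68) (allR_glue (b2_69) (b2_70) rfl) rfl) rfl) (allR_glue (allR_glue (b2_71) (allR_glue (b2_72) (b2_73) rfl) rfl) (allR_glue (b2_74) (allR_glue (b2_75) (b2_76) rfl) rfl) rfl) rfl) (allR_glue (allR_glue (allR_glue (b2_77) (b2_78) rfl) (allR_glue (b2_79) (allR_glue (b2_80) (b2_81) rfl) rfl) rfl) (allR_glue (allR_glue (b2_82) (allR_glue (b2_83) (b2_84) rfl) rfl) (allR_glue (b2_85) (allR_glue (b2_86) (b2_87) rfl) rfl) rfl) rfl) rfl) rfl) rfl) rfl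

theorem all_b3 : ∀ x, x < N → (blockChk (leK 3) Z3) x = true :=
  of_chain (allR_glue (allR_glue (allR_glue (allR_glue (allR_glue (allR_glue (b3_0) (b3_1) rfl) (allR_glue (b3_2) (allR_glue (b3_3) (b3_4) rfl) rfl) rfl) (allR_glue (allR_glue (b3_5) (allR_glue (b3_6) (b3_7) rfl) rfl) (allR_glue (b3_8) (allR_glue (b3_9) (b3_10) rfl) rfl) rfl) rfl) (allR_glue (allR_glue (allR_glue (b3_11) (b3_12) rfl) (allR_glue (b3_13) (allR_glue (b3_14) (b3_15) rfl) rfl) rfl) (allR_glue (allR_glue (b3_16) (allR_glue (b3_17) (b3_18) rfl) rfl) (allR_glue (b3_19) (allR_glue (b3_20) (b3_21) rfl) rfl) rfl) rfl) rfl) (allR_glue (allR_glue (allR_glue (allR_glue (b3_22) (b3_23) rfl) (allR_glue (b3_24) (allR_glue (b3_25) (b3_26) rfl) rfl) rfl) (allR_glue (allR_glue (b3_27) (allR_glue (b3_28) (b3_29) rfl) rfl) (allR_glue (b3_30) (allR_glue (b3_31) (b3_32) rfl) rfl) rfl) rfl) (allR_glue (allR_glue (allR_glue (b3_33) (b3_34) rfl) (allR_glue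 (b3_35) (allR_glue (b3_36) (b3_37) rfl) rfl) rfl) (allR_glue (allR_glue (b3_38) (allR_glue (b3_39) (b3_40) rfl) rfl) (allR_glue (b3_41) (allR_glue (b3_42) (b3_43) rfl) rfl) rfl) rfl) rfl) rfl) (allR_glue (allR_glue (allR_glue (allR_glue (allR_glue (b3_44) (b3_45) rfl) (allR_glue (b3_46) (allR_glue (b3_47) (b3_48) rfl) rfl) rfl) (allR_glue (allR_glue (b3_49) (allR_glue (b3_50) (b3_51) rfl) rfl) (allR_glue (b3_52) (allR_glue (b3_53) (b3_54) rfl) rfl) rfl) rfl) (allR_glue (allR_glue (allR_glue (b3_55) (b3_56) rfl) (allR_glue (b3_57) (allR_glue (b3_58) (b3_59) rfl) rfl) rfl) (allR_glue (allR_glue (b3_60) (allR_glue (b3_61) (b3_62) rfl) rfl) (allR_glue (b3_63) (allR_glue (b3_64) (b3_65) rfl) rfl) rfl) rfl) rfl) (allR_glue (allR_glue (allR_glue (allR_glue (b3_66) (b3_67) rfl) (allR_glue (b3_68) (allR_glue (b3_69) (b3_70) rfl) rfl) rfl) (allR_glue (allR_glue (b3_71) (allR_glue (b3_72) (b3_73) rfl) rfl) (allR_glue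 (b3_74) (allR_glue (b3_75) (b3_76) rfl) rfl) rfl) rfl) (allR_glue (allR_glue (allR_glue (b3_77) (b3_78) rfl) (allR_glue (b3_79) (allR_glue (b3_80) (b3_81) rfl) rfl) rfl) (allR_glue (allR_glue (b3_82) (allR_glue (b3_83) (b3_84) rfl) rfl) (allR_glue (b3_85) (allR_glue (b3_86) (b3_87) rfl) rfl) rfl) rfl) rfl) rfl) rfl) rfl

theorem all_b4 : ∀ x, x < N → (blockChk (leK 4) Z4) x = true :=
  of_chain (allR_glue (allR_glue (allR_glue (allR_glue (allR_glue (allR_glue (b4_0) (b4_1) rfl) (allR_glue (b4_2) (allR_glue (b4_3) (b4_4) rfl) rfl) rfl) (allR_glue (allR_glue (b4_5) (allR_glue (b4_6) (b4_7) rfl) rfl) (allR_glue (b4_8) (allR_glue (b4_9) (b4_10) rfl) rfl) rfl) rfl) (allR_glue (allR_glue (allR_glue (b4_11) (b4_12) rfl) (allR_glue (b4_13) (allR_glue (b4_14) (b4_15) rfl) rfl) rfl) (allR_glue (allR_glue (b4_16) (allR_glue (b4_17) (b4_18) rfl) rfl) (allR_glue (b4_19) (allR_glue (b4_20) (b4_21) rfl) rfl) rfl) rfl)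 rfl) (allR_glue (allR_glue (allR_glue (allR_glue (b4_22) (b4_23) rfl) (allR_glue (b4_24) (allR_glue (b4_25) (b4_26) rfl) rfl) rfl) (allR_glue (allR_glue (b4_27) (allR_glue (b4_28) (b4_29) rfl) rfl) (allR_glue (b4_30) (allR_glue (b4_31) (b4_32) rfl) rfl) rfl) rfl) (allR_glue (allR_glue (allR_glue (b4_33) (b4_34) rfl) (allR_glue (b4_35) (allR_glue (b4_36) (b4_37) rfl) rfl) rfl) (allR_glue (allR_glue (b4_38) (allR_glue (b4_39) (b4_40) rfl) rfl) (allR_glue (b4_41) (allR_glue (b4_42) (b4_43) rfl) rfl) rfl) rfl) rfl) rfl) (allR_glue (allR_glue (allR_glue (allR_glue (allR_glue (b4_44) (b4_45) rfl) (allR_glue (b4_46) (allR_glue (b4_47) (b4_48) rfl) rfl) rfl) (allR_glue (allR_glue (b4_49) (allR_glue (b4_50) (b4_51) rfl) rfl) (allR_glue (b4_52) (allR_glue (b4_53) (b4_54) rfl) rfl) rfl) rfl) (allR_glue (allR_glue (allR_glue (b4_55) (b4_56) rfl) (allR_glue (b4_57) (allR_glue (b4_58) (b4_59) rfl) rfl) rfl) (allR_glue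 (allR_glue (b4_60) (allR_glue (b4_61) (b4_62) rfl) rfl) (allR_glue (b4_63) (allR_glue (b4_64) (b4_65) rfl) rfl) rfl) rfl) rfl) (allR_glue (allR_glue (allR_glue (allR_glue (b4_66) (b4_67) rfl) (allR_glue (b4_68) (allR_glue (b4_69) (b4_70) rfl) rfl) rfl) (allR_glue (allR_glue (b4_71) (allR_glue (b4_72) (b4_73) rfl) rfl) (allR_glue (b4_74) (allR_glue (b4_75) (b4_76) rfl) rfl) rfl) rfl) (allR_glue (allR_glue (allR_glue (b4_77) (b4_78) rfl) (allR_glue (b4_79) (allR_glue (b4_80) (b4_81) rfl) rfl) rfl) (allR_glue (allR_glue (b4_82) (allR_glue (b4_83) (b4_84) rfl) rfl) (allR_glue (b4_85) (allR_glue (b4_86) (b4_87) rfl) rfl) rfl) rfl) rfl) rfl) rfl) rfl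

theorem all_b5 : ∀ x, x < N → (blockChk (leK 5) Z5) x = true :=
  of_chain (allR_glue (allR_glue (allR_glue (allR_glue (allR_glue (allR_glue (b5_0) (b5_1) rfl) (allR_glue (b5_2) (allR_glue (b5_3) (b5_4) rfl) rfl) rfl) (allR_glue (allR_glue (b5_5) (allR_glue (b5_6) (b5_7) rfl) rfl) (allR_glue (b5_8) (allR_glue (b5_9) (b5_10) rfl) rfl) rfl) rfl) (allR_glue (allR_glue (allR_glue (b5_11) (b5_12) rfl) (allR_glue (b5_13) (allR_glue (b5_14) (b5_15) rfl) rfl) rfl) (allR_glue (allR_glue (b5_16) (allR_glue (b5_17) (b5_18) rfl) rfl) (allR_glue (b5_19) (allR_glue (b5_20) (b5_21) rfl) rfl) rfl) rfl) rfl) (allR_glue (allR_glue (allR_glue (allR_glue (b5_22) (b5_23) rfl) (allR_glue (b5_24) (allR_glue (b5_25) (b5_26) rfl) rfl) rfl) (allR_glue (allR_glue (b5_27) (allR_glue (b5_28) (b5_29) rfl) rfl) (allR_glue (b5_30) (allR_glue (b5_31) (b5_32) rfl) rfl) rfl) rfl) (allR_glue (allR_glue (allR_glue (b5_33) (b5_34) rfl) (allR_glue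 (b5_35) (allR_glue (b5_36) (b5_37) rfl) rfl) rfl) (allR_glue (allR_glue (b5_38) (allR_glue (b5_39) (b5_40) rfl) rfl) (allR_glue (b5_41) (allR_glue (b5_42) (b5_43) rfl) rfl) rfl) rfl) rfl) rfl) (allR_glue (allR_glue (allR_glue (allR_glue (allR_glue (b5_44) (b5_45) rfl) (allR_glue (b5_46) (allR_glue (b5_47) (b5_48) rfl) rfl) rfl) (allR_glue (allR_glue (b5_49) (allR_glue (b5_50) (b5_51) rfl) rfl) (allR_glue (b5_52) (allR_glue (b5_53) (b5_54) rfl) rfl) rfl) rfl) (allR_glue (allR_glue (allR_glue (b5_55) (b5_56) rfl) (allR_glue (b5_57) (allR_glue (b5_58) (b5_59) rfl) rfl) rfl) (allR_glue (allR_glue (b5_60) (allR_glue (b5_61) (b5_62) rfl) rfl) (allR_glue (b5_63) (allR_glue (b5_64) (b5_65) rfl) rfl) rfl) rfl) rfl) (allR_glue (allR_glue (allR_glue (allR_glue (b5_66) (b5_67) rfl) (allR_glue (b5_68) (allR_glue (b5_69) (b5_70) rfl) rfl) rfl) (allR_glue (allR_glue (b5_71) (allR_glue (b5_72) (b5_73) rfl) rfl) (allR_glue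 (b5_74) (allR_glue (b5_75) (b5_76) rfl) rfl) rfl) rfl) (allR_glue (allR_glue (allR_glue (b5_77) (b5_78) rfl) (allR_glue (b5_79) (allR_glue (b5_80) (b5_81) rfl) rfl) rfl) (allR_glue (allR_glue (b5_82) (allR_glue (b5_83) (b5_84) rfl) rfl) (allR_glue (b5_85) (allR_glue (b5_86) (b5_87) rfl) rfl) rfl) rfl) rfl) rfl) rfl) rfl

theorem all_c1_0 : ∀ x, x < N → (compatChk t0 l1) x = true :=
  of_chain (allR_glue (allR_glue (allR_glue (allR_glue (allR_glue (allR_glue (allR_glue (allR_glue (c1_0_0) (allR_glue (c1_0_1) (c1_0_2) rfl) rfl) (allR_glue (c1_0_3) (allR_glue (c1_0_4) (c1_0_5) rfl) rfl) rfl) (allR_glue (allR_glue (c1_0_6) (allR_glue (c1_0_7) (c1_0_8) rfl) rfl) (allR_glue (allR_glue (c1_0_9) (c1_0_10) rfl) (allR_glue (c1_0_11) (c1_0_12) rfl) rfl) rfl) rfl) (allR_glue (allR_glue (allR_glue (c1_0_13) (allR_glue (c1_0_14) (c1_0_15) rfl) rfl) (allR_glue (allR_glue (c1_0_16) (c1_0_17) rfl) (allR_glue (c1_0_18) (c1_0_19)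 rfl) rfl) rfl) (allR_glue (allR_glue (c1_0_20) (allR_glue (c1_0_21) (c1_0_22) rfl) rfl) (allR_glue (allR_glue (c1_0_23) (c1_0_24) rfl) (allR_glue (c1_0_25) (c1_0_26) rfl) rfl) rfl) rfl) rfl) (allR_glue (allR_glue (allR_glue (allR_glue (c1_0_27) (allR_glue (c1_0_28) (c1_0_29) rfl) rfl) (allR_glue (c1_0_30) (allR_glue (c1_0_31) (c1_0_32) rfl) rfl) rfl) (allR_glue (allR_glue (c1_0_33) (allR_glue (c1_0_34) (c1_0_35) rfl) rfl) (allR_glue (allR_glue (c1_0_36) (c1_0_37) rfl) (allR_glue (c1_0_38) (c1_0_39) rfl) rfl) rfl) rfl) (allR_glue (allR_glue (allR_glue (c1_0_40) (allR_glue (c1_0_41) (c1_0_42) rfl) rfl) (allR_glue (allR_glue (c1_0_43) (c1_0_44) rfl) (allR_glue (c1_0_45) (c1_0_46) rfl) rfl) rfl) (allR_glue (allR_glue (c1_0_47) (allR_glue (c1_0_48) (c1_0_49) rfl) rfl) (allR_glue (allR_glue (c1_0_50) (c1_0_51) rfl) (allR_glue (c1_0_52) (c1_0_53) rfl) rfl) rfl) rfl) rfl) rfl) (allR_glue (allR_glue (allR_glue (allR_glue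 (allR_glue (c1_0_54) (allR_glue (c1_0_55) (c1_0_56) rfl) rfl) (allR_glue (c1_0_57) (allR_glue (c1_0_58) (c1_0_59) rfl) rfl) rfl) (allR_glue (allR_glue (c1_0_60) (allR_glue (c1_0_61) (c1_0_62) rfl) rfl) (allR_glue (allR_glue (c1_0_63) (c1_0_64) rfl) (allR_glue (c1_0_65) (c1_0_66) rfl) rfl) rfl) rfl) (allR_glue (allR_glue (allR_glue (c1_0_67) (allR_glue (c1_0_68) (c1_0_69) rfl) rfl) (allR_glue (allR_glue (c1_0_70) (c1_0_71) rfl) (allR_glue (c1_0_72) (c1_0_73) rfl) rfl) rfl) (allR_glue (allR_glue (c1_0_74) (allR_glue (c1_0_75) (c1_0_76) rfl) rfl) (allR_glue (allR_glue (c1_0_77) (c1_0_78) rfl) (allR_glue (c1_0_79) (c1_0_80) rfl) rfl) rfl) rfl) rfl) (allR_glue (allR_glue (allR_glue (allR_glue (c1_0_81) (allR_glue (c1_0_82) (c1_0_83) rfl) rfl) (allR_glue (allR_glue (c1_0_84) (c1_0_85) rfl) (allR_glue (c1_0_86) (c1_0_87) rfl) rfl) rfl) (allR_glue (allR_glue (c1_0_88) (allR_glue (c1_0_89) (c1_0_90) rfl) rfl) (allR_glue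 (allR_glue (c1_0_91) (c1_0_92) rfl) (allR_glue (c1_0_93) (c1_0_94) rfl) rfl) rfl) rfl) (allR_glue (allR_glue (allR_glue (c1_0_95) (allR_glue (c1_0_96) (c1_0_97) rfl) rfl) (allR_glue (allR_glue (c1_0_98) (c1_0_99) rfl) (allR_glue (c1_0_100) (c1_0_101) rfl) rfl) rfl) (allR_glue (allR_glue (c1_0_102) (allR_glue (c1_0_103) (c1_0_104) rfl) rfl) (allR_glue (allR_glue (c1_0_105) (c1_0_106) rfl) (allR_glue (c1_0_107) (c1_0_108) rfl) rfl) rfl) rfl) rfl) rfl) rfl) (allR_glue (allR_glue (allR_glue (allR_glue (allR_glue (allR_glue (c1_0_109) (allR_glue (c1_0_110) (c1_0_111) rfl) rfl) (allR_glue (c1_0_112) (allR_glue (c1_0_113) (c1_0_114) rfl) rfl) rfl) (allR_glue (allR_glue (c1_0_115) (allR_glue (c1_0_116) (c1_0_117) rfl) rfl) (allR_glue (allR_glue (c1_0_118) (c1_0_119) rfl) (allR_glue (c1_0_120) (c1_0_121) rfl) rfl) rfl) rfl) (allR_glue (allR_glue (allR_glue (c1_0_122) (allR_glue (c1_0_123) (c1_0_124) rfl) rfl) (allR_glue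 (allR_glue (c1_0_125) (c1_0_126) rfl) (allR_glue (c1_0_127) (c1_0_128) rfl) rfl) rfl) (allR_glue (allR_glue (c1_0_129) (allR_glue (c1_0_130) (c1_0_131) rfl) rfl) (allR_glue (allR_glue (c1_0_132) (c1_0_133) rfl) (allR_glue (c1_0_134) (c1_0_135) rfl) rfl) rfl) rfl) rfl) (allR_glue (allR_glue (allR_glue (allR_glue (c1_0_136) (allR_glue (c1_0_137) (c1_0_138) rfl) rfl) (allR_glue (c1_0_139) (allR_glue (c1_0_140) (c1_0_141) rfl) rfl) rfl) (allR_glue (allR_glue (c1_0_142) (allR_glue (c1_0_143) (c1_0_144) rfl) rfl) (allR_glue (allR_glue (c1_0_145) (c1_0_146) rfl) (allR_glue (c1_0_147) (c1_0_148) rfl) rfl) rfl) rfl) (allR_glue (allR_glue (allR_glue (c1_0_149) (allR_glue (c1_0_150) (c1_0_151) rfl) rfl) (allR_glue (allR_glue (c1_0_152) (c1_0_153) rfl) (allR_glue (c1_0_154) (c1_0_155) rfl) rfl) rfl) (allR_glue (allR_glue (c1_0_156) (allR_glue (c1_0_157) (c1_0_158) rfl) rfl) (allR_glue (allR_glue (c1_0_159) (c1_0_160)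 rfl) (allR_glue (c1_0_161) (c1_0_162) rfl) rfl) rfl) rfl) rfl) rfl) (allR_glue (allR_glue (allR_glue (allR_glue (allR_glue (c1_0_163) (allR_glue (c1_0_164) (c1_0_165) rfl) rfl) (allR_glue (c1_0_166) (allR_glue (c1_0_167) (c1_0_168) rfl) rfl) rfl) (allR_glue (allR_glue (c1_0_169) (allR_glue (c1_0_170) (c1_0_171) rfl) rfl) (allR_glue (allR_glue (c1_0_172) (c1_0_173) rfl) (allR_glue (c1_0_174) (c1_0_175) rfl) rfl) rfl) rfl) (allR_glue (allR_glue (allR_glue (c1_0_176) (allR_glue (c1_0_177) (c1_0_178) rfl) rfl) (allR_glue (allR_glue (c1_0_179) (c1_0_180) rfl) (allR_glue (c1_0_181) (c1_0_182) rfl) rfl) rfl) (allR_glue (allR_glue (c1_0_183) (allR_glue (c1_0_184) (c1_0_185) rfl) rfl) (allR_glue (allR_glue (c1_0_186) (c1_0_187) rfl) (allR_glue (c1_0_188) (c1_0_189) rfl) rfl) rfl) rfl) rfl) (allR_glue (allR_glue (allR_glue (allR_glue (c1_0_190) (allR_glue (c1_0_191) (c1_0_192) rfl) rfl) (allR_glue (allR_glue (c1_0_193)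 (c1_0_194) rfl) (allR_glue (c1_0_195) (c1_0_196) rfl) rfl) rfl) (allR_glue (allR_glue (c1_0_197) (allR_glue (c1_0_198) (c1_0_199) rfl) rfl) (allR_glue (allR_glue (c1_0_200) (c1_0_201) rfl) (allR_glue (c1_0_202) (c1_0_203) rfl) rfl) rfl) rfl) (allR_glue (allR_glue (allR_glue (c1_0_204) (allR_glue (c1_0_205) (c1_0_206) rfl) rfl) (allR_glue (allR_glue (c1_0_207) (c1_0_208) rfl) (allR_glue (c1_0_209) (c1_0_210) rfl) rfl) rfl) (allR_glue (allR_glue (c1_0_211) (allR_glue (c1_0_212) (c1_0_213) rfl) rfl) (allR_glue (allR_glue (c1_0_214) (c1_0_215) rfl) (allR_glue (c1_0_216) (c1_0_217) rfl) rfl) rfl) rfl) rfl) rfl) rfl) rfl) (allR_glue (allR_glue (allR_glue (allR_glue (allR_glue (allR_glue (allR_glue (c1_0_218) (allR_glue (c1_0_219) (c1_0_220) rfl) rfl) (allR_glue (c1_0_221) (allR_glue (c1_0_222) (c1_0_223) rfl) rfl) rfl) (allR_glue (allR_glue (c1_0_224) (allR_glue (c1_0_225) (c1_0_226) rfl) rfl) (allR_glue (allR_glue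 (c1_0_227) (c1_0_228) rfl) (allR_glue (c1_0_229) (c1_0_230) rfl) rfl) rfl) rfl) (allR_glue (allR_glue (allR_glue (c1_0_231) (allR_glue (c1_0_232) (c1_0_233) rfl) rfl) (allR_glue (allR_glue (c1_0_234) (c1_0_235) rfl) (allR_glue (c1_0_236) (c1_0_237) rfl) rfl) rfl) (allR_glue (allR_glue (c1_0_238) (allR_glue (c1_0_239) (c1_0_240) rfl) rfl) (allR_glue (allR_glue (c1_0_241) (c1_0_242) rfl) (allR_glue (c1_0_243) (c1_0_244) rfl) rfl) rfl) rfl) rfl) (allR_glue (allR_glue (allR_glue (allR_glue (c1_0_245) (allR_glue (c1_0_246) (c1_0_247) rfl) rfl) (allR_glue (c1_0_248) (allR_glue (c1_0_249) (c1_0_250) rfl) rfl) rfl) (allR_glue (allR_glue (c1_0_251) (allR_glue (c1_0_252) (c1_0_253) rfl) rfl) (allR_glue (allR_glue (c1_0_254) (c1_0_255) rfl) (allR_glue (c1_0_256) (c1_0_257) rfl) rfl) rfl) rfl) (allR_glue (allR_glue (allR_glue (c1_0_258) (allR_glue (c1_0_259) (c1_0_260) rfl) rfl) (allR_glue (allR_glue (c1_0_261) (c1_0_262)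 rfl) (allR_glue (c1_0_263) (c1_0_264) rfl) rfl) rfl) (allR_glue (allR_glue (c1_0_265) (allR_glue (c1_0_266) (c1_0_267) rfl) rfl) (allR_glue (allR_glue (c1_0_268) (c1_0_269) rfl) (allR_glue (c1_0_270) (c1_0_271) rfl) rfl) rfl) rfl) rfl) rfl) (allR_glue (allR_glue (allR_glue (allR_glue (allR_glue (c1_0_272) (allR_glue (c1_0_273) (c1_0_274) rfl) rfl) (allR_glue (c1_0_275) (allR_glue (c1_0_276) (c1_0_277) rfl) rfl) rfl) (allR_glue (allR_glue (c1_0_278) (allR_glue (c1_0_279) (c1_0_280) rfl) rfl) (allR_glue (allR_glue (c1_0_281) (c1_0_282) rfl) (allR_glue (c1_0_283) (c1_0_284) rfl) rfl) rfl) rfl) (allR_glue (allR_glue (allR_glue (c1_0_285) (allR_glue (c1_0_286) (c1_0_287) rfl) rfl) (allR_glue (allR_glue (c1_0_288) (c1_0_289) rfl) (allR_glue (c1_0_290) (c1_0_291) rfl) rfl) rfl) (allR_glue (allR_glue (c1_0_292) (allR_glue (c1_0_293) (c1_0_294) rfl) rfl) (allR_glue (allR_glue (c1_0_295) (c1_0_296) rfl) (allR_glue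 (c1_0_297) (c1_0_298) rfl) rfl) rfl) rfl) rfl) (allR_glue (allR_glue (allR_glue (allR_glue (c1_0_299) (allR_glue (c1_0_300) (c1_0_301) rfl) rfl) (allR_glue (allR_glue (c1_0_302) (c1_0_303) rfl) (allR_glue (c1_0_304) (c1_0_305) rfl) rfl) rfl) (allR_glue (allR_glue (c1_0_306) (allR_glue (c1_0_307) (c1_0_308) rfl) rfl) (allR_glue (allR_glue (c1_0_309) (c1_0_310) rfl) (allR_glue (c1_0_311) (c1_0_312) rfl) rfl) rfl) rfl) (allR_glue (allR_glue (allR_glue (c1_0_313) (allR_glue (c1_0_314) (c1_0_315) rfl) rfl) (allR_glue (allR_glue (c1_0_316) (c1_0_317) rfl) (allR_glue (c1_0_318) (c1_0_319) rfl) rfl) rfl) (allR_glue (allR_glue (c1_0_320) (allR_glue (c1_0_321) (c1_0_322) rfl) rfl) (allR_glue (allR_glue (c1_0_323) (c1_0_324) rfl) (allR_glue (c1_0_325) (c1_0_326) rfl) rfl) rfl) rfl) rfl) rfl) rfl) (allR_glue (allR_glue (allR_glue (allR_glue (allR_glue (allR_glue (c1_0_327) (allR_glue (c1_0_328) (c1_0_329) rfl) rfl)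 (allR_glue (c1_0_330) (allR_glue (c1_0_331) (c1_0_332) rfl) rfl) rfl) (allR_glue (allR_glue (c1_0_333) (allR_glue (c1_0_334) (c1_0_335) rfl) rfl) (allR_glue (allR_glue (c1_0_336) (c1_0_337) rfl) (allR_glue (c1_0_338) (c1_0_339) rfl) rfl) rfl) rfl) (allR_glue (allR_glue (allR_glue (c1_0_340) (allR_glue (c1_0_341) (c1_0_342) rfl) rfl) (allR_glue (allR_glue (c1_0_343) (c1_0_344) rfl) (allR_glue (c1_0_345) (c1_0_346) rfl) rfl) rfl) (allR_glue (allR_glue (c1_0_347) (allR_glue (c1_0_348) (c1_0_349) rfl) rfl) (allR_glue (allR_glue (c1_0_350) (c1_0_351) rfl) (allR_glue (c1_0_352) (c1_0_353) rfl) rfl) rfl) rfl) rfl) (allR_glue (allR_glue (allR_glue (allR_glue (c1_0_354) (allR_glue (c1_0_355) (c1_0_356) rfl) rfl) (allR_glue (allR_glue (c1_0_357) (c1_0_358) rfl) (allR_glue (c1_0_359) (c1_0_360) rfl) rfl) rfl) (allR_glue (allR_glue (c1_0_361) (allR_glue (c1_0_362) (c1_0_363) rfl) rfl) (allR_glue (allR_glue (c1_0_364)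 (c1_0_365) rfl) (allR_glue (c1_0_366) (c1_0_367) rfl) rfl) rfl) rfl) (allR_glue (allR_glue (allR_glue (c1_0_368) (allR_glue (c1_0_369) (c1_0_370) rfl) rfl) (allR_glue (allR_glue (c1_0_371) (c1_0_372) rfl) (allR_glue (c1_0_373) (c1_0_374) rfl) rfl) rfl) (allR_glue (allR_glue (c1_0_375) (allR_glue (c1_0_376) (c1_0_377) rfl) rfl) (allR_glue (allR_glue (c1_0_378) (c1_0_379) rfl) (allR_glue (c1_0_380) (c1_0_381) rfl) rfl) rfl) rfl) rfl) rfl) (allR_glue (allR_glue (allR_glue (allR_glue (allR_glue (c1_0_382) (allR_glue (c1_0_383) (c1_0_384) rfl) rfl) (allR_glue (c1_0_385) (allR_glue (c1_0_386) (c1_0_387) rfl) rfl) rfl) (allR_glue (allR_glue (c1_0_388) (allR_glue (c1_0_389) (c1_0_390) rfl) rfl) (allR_glue (allR_glue (c1_0_391) (c1_0_392) rfl) (allR_glue (c1_0_393) (c1_0_394) rfl) rfl) rfl) rfl) (allR_glue (allR_glue (allR_glue (c1_0_395) (allR_glue (c1_0_396) (c1_0_397) rfl) rfl) (allR_glue (allR_glue (c1_0_398)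 (c1_0_399) rfl) (allR_glue (c1_0_400) (c1_0_401) rfl) rfl) rfl) (allR_glue (allR_glue (c1_0_402) (allR_glue (c1_0_403) (c1_0_404) rfl) rfl) (allR_glue (allR_glue (c1_0_405) (c1_0_406) rfl) (allR_glue (c1_0_407) (c1_0_408) rfl) rfl) rfl) rfl) rfl) (allR_glue (allR_glue (allR_glue (allR_glue (c1_0_409) (allR_glue (c1_0_410) (c1_0_411) rfl) rfl) (allR_glue (allR_glue (c1_0_412) (c1_0_413) rfl) (allR_glue (c1_0_414) (c1_0_415) rfl) rfl) rfl) (allR_glue (allR_glue (c1_0_416) (allR_glue (c1_0_417) (c1_0_418) rfl) rfl) (allR_glue (allR_glue (c1_0_419) (c1_0_420) rfl) (allR_glue (c1_0_421) (c1_0_422) rfl) rfl) rfl) rfl) (allR_glue (allR_glue (allR_glue (c1_0_423) (allR_glue (c1_0_424) (c1_0_425) rfl) rfl) (allR_glue (allR_glue (c1_0_426) (c1_0_427) rfl) (allR_glue (c1_0_428) (c1_0_429) rfl) rfl) rfl) (allR_glue (allR_glue (c1_0_430) (allR_glue (c1_0_431) (c1_0_432) rfl) rfl) (allR_glue (allR_glue (c1_0_433) (c1_0_434)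 rfl) (allR_glue (c1_0_435) (c1_0_436) rfl) rfl) rfl) rfl) rfl) rfl) rfl) rfl) rfl) rfl

theorem all_c1_1 : ∀ x, x < N → (compatChk t1 l1) x = true :=
  of_chain (allR_glue (allR_glue (allR_glue (allR_glue (allR_glue (allR_glue (allR_glue (allR_glue (c1_1_0) (allR_glue (c1_1_1) (c1_1_2) rfl) rfl) (allR_glue (c1_1_3) (allR_glue (c1_1_4) (c1_1_5) rfl) rfl) rfl) (allR_glue (allR_glue (c1_1_6) (allR_glue (c1_1_7) (c1_1_8) rfl) rfl) (allR_glue (allR_glue (c1_1_9) (c1_1_10) rfl) (allR_glue (c1_1_11) (c1_1_12) rfl) rfl) rfl) rfl) (allR_glue (allR_glue (allR_glue (c1_1_13) (allR_glue (c1_1_14) (c1_1_15) rfl) rfl) (allR_glue (allR_glue (c1_1_16) (c1_1_17) rfl) (allR_glue (c1_1_18) (c1_1_19) rfl) rfl) rfl) (allR_glue (allR_glue (c1_1_20) (allR_glue (c1_1_21) (c1_1_22) rfl) rfl) (allR_glue (allR_glue (c1_1_23) (c1_1_24) rfl) (allR_glue (c1_1_25) (c1_1_26) rfl) rfl) rfl) rfl) rfl) (allR_glue (allR_glue (allR_glue (allR_glue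 (c1_1_27) (allR_glue (c1_1_28) (c1_1_29) rfl) rfl) (allR_glue (c1_1_30) (allR_glue (c1_1_31) (c1_1_32) rfl) rfl) rfl) (allR_glue (allR_glue (c1_1_33) (allR_glue (c1_1_34) (c1_1_35) rfl) rfl) (allR_glue (allR_glue (c1_1_36) (c1_1_37) rfl) (allR_glue (c1_1_38) (c1_1_39) rfl) rfl) rfl) rfl) (allR_glue (allR_glue (allR_glue (c1_1_40) (allR_glue (c1_1_41) (c1_1_42) rfl) rfl) (allR_glue (allR_glue (c1_1_43) (c1_1_44) rfl) (allR_glue (c1_1_45) (c1_1_46) rfl) rfl) rfl) (allR_glue (allR_glue (c1_1_47) (allR_glue (c1_1_48) (c1_1_49) rfl) rfl) (allR_glue (allR_glue (c1_1_50) (c1_1_51) rfl) (allR_glue (c1_1_52) (c1_1_53) rfl) rfl) rfl) rfl) rfl) rfl) (allR_glue (allR_glue (allR_glue (allR_glue (allR_glue (c1_1_54) (allR_glue (c1_1_55) (c1_1_56) rfl) rfl) (allR_glue (c1_1_57) (allR_glue (c1_1_58) (c1_1_59) rfl) rfl) rfl) (allR_glue (allR_glue (c1_1_60) (allR_glue (c1_1_61) (c1_1_62) rfl) rfl) (allR_glue (allR_glue (c1_1_63)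 (c1_1_64) rfl) (allR_glue (c1_1_65) (c1_1_66) rfl) rfl) rfl) rfl) (allR_glue (allR_glue (allR_glue (c1_1_67) (allR_glue (c1_1_68) (c1_1_69) rfl) rfl) (allR_glue (allR_glue (c1_1_70) (c1_1_71) rfl) (allR_glue (c1_1_72) (c1_1_73) rfl) rfl) rfl) (allR_glue (allR_glue (c1_1_74) (allR_glue (c1_1_75) (c1_1_76) rfl) rfl) (allR_glue (allR_glue (c1_1_77) (c1_1_78) rfl) (allR_glue (c1_1_79) (c1_1_80) rfl) rfl) rfl) rfl) rfl) (allR_glue (allR_glue (allR_glue (allR_glue (c1_1_81) (allR_glue (c1_1_82) (c1_1_83) rfl) rfl) (allR_glue (allR_glue (c1_1_84) (c1_1_85) rfl) (allR_glue (c1_1_86) (c1_1_87) rfl) rfl) rfl) (allR_glue (allR_glue (c1_1_88) (allR_glue (c1_1_89) (c1_1_90) rfl) rfl) (allR_glue (allR_glue (c1_1_91) (c1_1_92) rfl) (allR_glue (c1_1_93) (c1_1_94) rfl) rfl) rfl) rfl) (allR_glue (allR_glue (allR_glue (c1_1_95) (allR_glue (c1_1_96) (c1_1_97) rfl) rfl) (allR_glue (allR_glue (c1_1_98) (c1_1_99) rfl) (allR_glue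 (c1_1_100) (c1_1_101) rfl) rfl) rfl) (allR_glue (allR_glue (c1_1_102) (allR_glue (c1_1_103) (c1_1_104) rfl) rfl) (allR_glue (allR_glue (c1_1_105) (c1_1_106) rfl) (allR_glue (c1_1_107) (c1_1_108) rfl) rfl) rfl) rfl) rfl) rfl) rfl) (allR_glue (allR_glue (allR_glue (allR_glue (allR_glue (allR_glue (c1_1_109) (allR_glue (c1_1_110) (c1_1_111) rfl) rfl) (allR_glue (c1_1_112) (allR_glue (c1_1_113) (c1_1_114) rfl) rfl) rfl) (allR_glue (allR_glue (c1_1_115) (allR_glue (c1_1_116) (c1_1_117) rfl) rfl) (allR_glue (allR_glue (c1_1_118) (c1_1_119) rfl) (allR_glue (c1_1_120) (c1_1_121) rfl) rfl) rfl) rfl) (allR_glue (allR_glue (allR_glue (c1_1_122) (allR_glue (c1_1_123) (c1_1_124) rfl) rfl) (allR_glue (allR_glue (c1_1_125) (c1_1_126) rfl) (allR_glue (c1_1_127) (c1_1_128) rfl) rfl) rfl) (allR_glue (allR_glue (c1_1_129) (allR_glue (c1_1_130) (c1_1_131) rfl) rfl) (allR_glue (allR_glue (c1_1_132) (c1_1_133) rfl) (allR_glue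 (c1_1_134) (c1_1_135) rfl) rfl) rfl) rfl) rfl) (allR_glue (allR_glue (allR_glue (allR_glue (c1_1_136) (allR_glue (c1_1_137) (c1_1_138) rfl) rfl) (allR_glue (c1_1_139) (allR_glue (c1_1_140) (c1_1_141) rfl) rfl) rfl) (allR_glue (allR_glue (c1_1_142) (allR_glue (c1_1_143) (c1_1_144) rfl) rfl) (allR_glue (allR_glue (c1_1_145) (c1_1_146) rfl) (allR_glue (c1_1_147) (c1_1_148) rfl) rfl) rfl) rfl) (allR_glue (allR_glue (allR_glue (c1_1_149) (allR_glue (c1_1_150) (c1_1_151) rfl) rfl) (allR_glue (allR_glue (c1_1_152) (c1_1_153) rfl) (allR_glue (c1_1_154) (c1_1_155) rfl) rfl) rfl) (allR_glue (allR_glue (c1_1_156) (allR_glue (c1_1_157) (c1_1_158) rfl) rfl) (allR_glue (allR_glue (c1_1_159) (c1_1_160) rfl) (allR_glue (c1_1_161) (c1_1_162) rfl) rfl) rfl) rfl) rfl) rfl) (allR_glue (allR_glue (allR_glue (allR_glue (allR_glue (c1_1_163) (allR_glue (c1_1_164) (c1_1_165) rfl) rfl) (allR_glue (c1_1_166) (allR_glue (c1_1_167)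 (c1_1_168) rfl) rfl) rfl) (allR_glue (allR_glue (c1_1_169) (allR_glue (c1_1_170) (c1_1_171) rfl) rfl) (allR_glue (allR_glue (c1_1_172) (c1_1_173) rfl) (allR_glue (c1_1_174) (c1_1_175) rfl) rfl) rfl) rfl) (allR_glue (allR_glue (allR_glue (c1_1_176) (allR_glue (c1_1_177) (c1_1_178) rfl) rfl) (allR_glue (allR_glue (c1_1_179) (c1_1_180) rfl) (allR_glue (c1_1_181) (c1_1_182) rfl) rfl) rfl) (allR_glue (allR_glue (c1_1_183) (allR_glue (c1_1_184) (c1_1_185) rfl) rfl) (allR_glue (allR_glue (c1_1_186) (c1_1_187) rfl) (allR_glue (c1_1_188) (c1_1_189) rfl) rfl) rfl) rfl) rfl) (allR_glue (allR_glue (allR_glue (allR_glue (c1_1_190) (allR_glue (c1_1_191) (c1_1_192) rfl) rfl) (allR_glue (allR_glue (c1_1_193) (c1_1_194) rfl) (allR_glue (c1_1_195) (c1_1_196) rfl) rfl) rfl) (allR_glue (allR_glue (c1_1_197) (allR_glue (c1_1_198) (c1_1_199) rfl) rfl) (allR_glue (allR_glue (c1_1_200) (c1_1_201) rfl) (allR_glue (c1_1_202) (c1_1_203)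 rfl) rfl) rfl) rfl) (allR_glue (allR_glue (allR_glue (c1_1_204) (allR_glue (c1_1_205) (c1_1_206) rfl) rfl) (allR_glue (allR_glue (c1_1_207) (c1_1_208) rfl) (allR_glue (c1_1_209) (c1_1_210) rfl) rfl) rfl) (allR_glue (allR_glue (c1_1_211) (allR_glue (c1_1_212) (c1_1_213) rfl) rfl) (allR_glue (allR_glue (c1_1_214) (c1_1_215) rfl) (allR_glue (c1_1_216) (c1_1_217) rfl) rfl) rfl) rfl) rfl) rfl) rfl) rfl) (allR_glue (allR_glue (allR_glue (allR_glue (allR_glue (allR_glue (allR_glue (c1_1_218) (allR_glue (c1_1_219) (c1_1_220) rfl) rfl) (allR_glue (c1_1_221) (allR_glue (c1_1_222) (c1_1_223) rfl) rfl) rfl) (allR_glue (allR_glue (c1_1_224) (allR_glue (c1_1_225) (c1_1_226) rfl) rfl) (allR_glue (allR_glue (c1_1_227) (c1_1_228) rfl) (allR_glue (c1_1_229) (c1_1_230) rfl) rfl) rfl) rfl) (allR_glue (allR_glue (allR_glue (c1_1_231) (allR_glue (c1_1_232) (c1_1_233) rfl) rfl) (allR_glue (allR_glue (c1_1_234) (c1_1_235) rfl)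 (allR_glue (c1_1_236) (c1_1_237) rfl) rfl) rfl) (allR_glue (allR_glue (c1_1_238) (allR_glue (c1_1_239) (c1_1_240) rfl) rfl) (allR_glue (allR_glue (c1_1_241) (c1_1_242) rfl) (allR_glue (c1_1_243) (c1_1_244) rfl) rfl) rfl) rfl) rfl) (allR_glue (allR_glue (allR_glue (allR_glue (c1_1_245) (allR_glue (c1_1_246) (c1_1_247) rfl) rfl) (allR_glue (c1_1_248) (allR_glue (c1_1_249) (c1_1_250) rfl) rfl) rfl) (allR_glue (allR_glue (c1_1_251) (allR_glue (c1_1_252) (c1_1_253) rfl) rfl) (allR_glue (allR_glue (c1_1_254) (c1_1_255) rfl) (allR_glue (c1_1_256) (c1_1_257) rfl) rfl) rfl) rfl) (allR_glue (allR_glue (allR_glue (c1_1_258) (allR_glue (c1_1_259) (c1_1_260) rfl) rfl) (allR_glue (allR_glue (c1_1_261) (c1_1_262) rfl) (allR_glue (c1_1_263) (c1_1_264) rfl) rfl) rfl) (allR_glue (allR_glue (c1_1_265) (allR_glue (c1_1_266) (c1_1_267) rfl) rfl) (allR_glue (allR_glue (c1_1_268) (c1_1_269) rfl) (allR_glue (c1_1_270) (c1_1_271)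 rfl) rfl) rfl) rfl) rfl) rfl) (allR_glue (allR_glue (allR_glue (allR_glue (allR_glue (c1_1_272) (allR_glue (c1_1_273) (c1_1_274) rfl) rfl) (allR_glue (c1_1_275) (allR_glue (c1_1_276) (c1_1_277) rfl) rfl) rfl) (allR_glue (allR_glue (c1_1_278) (allR_glue (c1_1_279) (c1_1_280) rfl) rfl) (allR_glue (allR_glue (c1_1_281) (c1_1_282) rfl) (allR_glue (c1_1_283) (c1_1_284) rfl) rfl) rfl) rfl) (allR_glue (allR_glue (allR_glue (c1_1_285) (allR_glue (c1_1_286) (c1_1_287) rfl) rfl) (allR_glue (allR_glue (c1_1_288) (c1_1_289) rfl) (allR_glue (c1_1_290) (c1_1_291) rfl) rfl) rfl) (allR_glue (allR_glue (c1_1_292) (allR_glue (c1_1_293) (c1_1_294) rfl) rfl) (allR_glue (allR_glue (c1_1_295) (c1_1_296) rfl) (allR_glue (c1_1_297) (c1_1_298) rfl) rfl) rfl) rfl) rfl) (allR_glue (allR_glue (allR_glue (allR_glue (c1_1_299) (allR_glue (c1_1_300) (c1_1_301) rfl) rfl) (allR_glue (allR_glue (c1_1_302) (c1_1_303) rfl) (allR_glue (c1_1_304)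 (c1_1_305) rfl) rfl) rfl) (allR_glue (allR_glue (c1_1_306) (allR_glue (c1_1_307) (c1_1_308) rfl) rfl) (allR_glue (allR_glue (c1_1_309) (c1_1_310) rfl) (allR_glue (c1_1_311) (c1_1_312) rfl) rfl) rfl) rfl) (allR_glue (allR_glue (allR_glue (c1_1_313) (allR_glue (c1_1_314) (c1_1_315) rfl) rfl) (allR_glue (allR_glue (c1_1_316) (c1_1_317) rfl) (allR_glue (c1_1_318) (c1_1_319) rfl) rfl) rfl) (allR_glue (allR_glue (c1_1_320) (allR_glue (c1_1_321) (c1_1_322) rfl) rfl) (allR_glue (allR_glue (c1_1_323) (c1_1_324) rfl) (allR_glue (c1_1_325) (c1_1_326) rfl) rfl) rfl) rfl) rfl) rfl) rfl) (allR_glue (allR_glue (allR_glue (allR_glue (allR_glue (allR_glue (c1_1_327) (allR_glue (c1_1_328) (c1_1_329) rfl) rfl) (allR_glue (c1_1_330) (allR_glue (c1_1_331) (c1_1_332) rfl) rfl) rfl) (allR_glue (allR_glue (c1_1_333) (allR_glue (c1_1_334) (c1_1_335) rfl) rfl) (allR_glue (allR_glue (c1_1_336) (c1_1_337) rfl) (allR_glue (c1_1_338)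 (c1_1_339) rfl) rfl) rfl) rfl) (allR_glue (allR_glue (allR_glue (c1_1_340) (allR_glue (c1_1_341) (c1_1_342) rfl) rfl) (allR_glue (allR_glue (c1_1_343) (c1_1_344) rfl) (allR_glue (c1_1_345) (c1_1_346) rfl) rfl) rfl) (allR_glue (allR_glue (c1_1_347) (allR_glue (c1_1_348) (c1_1_349) rfl) rfl) (allR_glue (allR_glue (c1_1_350) (c1_1_351) rfl) (allR_glue (c1_1_352) (c1_1_353) rfl) rfl) rfl) rfl) rfl) (allR_glue (allR_glue (allR_glue (allR_glue (c1_1_354) (allR_glue (c1_1_355) (c1_1_356) rfl) rfl) (allR_glue (allR_glue (c1_1_357) (c1_1_358) rfl) (allR_glue (c1_1_359) (c1_1_360) rfl) rfl) rfl) (allR_glue (allR_glue (c1_1_361) (allR_glue (c1_1_362) (c1_1_363) rfl) rfl) (allR_glue (allR_glue (c1_1_364) (c1_1_365) rfl) (allR_glue (c1_1_366) (c1_1_367) rfl) rfl) rfl) rfl) (allR_glue (allR_glue (allR_glue (c1_1_368) (allR_glue (c1_1_369) (c1_1_370) rfl) rfl) (allR_glue (allR_glue (c1_1_371) (c1_1_372) rfl) (allR_glue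 (c1_1_373) (c1_1_374) rfl) rfl) rfl) (allR_glue (allR_glue (c1_1_375) (allR_glue (c1_1_376) (c1_1_377) rfl) rfl) (allR_glue (allR_glue (c1_1_378) (c1_1_379) rfl) (allR_glue (c1_1_380) (c1_1_381) rfl) rfl) rfl) rfl) rfl) rfl) (allR_glue (allR_glue (allR_glue (allR_glue (allR_glue (c1_1_382) (allR_glue (c1_1_383) (c1_1_384) rfl) rfl) (allR_glue (c1_1_385) (allR_glue (c1_1_386) (c1_1_387) rfl) rfl) rfl) (allR_glue (allR_glue (c1_1_388) (allR_glue (c1_1_389) (c1_1_390) rfl) rfl) (allR_glue (allR_glue (c1_1_391) (c1_1_392) rfl) (allR_glue (c1_1_393) (c1_1_394) rfl) rfl) rfl) rfl) (allR_glue (allR_glue (allR_glue (c1_1_395) (allR_glue (c1_1_396) (c1_1_397) rfl) rfl) (allR_glue (allR_glue (c1_1_398) (c1_1_399) rfl) (allR_glue (c1_1_400) (c1_1_401) rfl) rfl) rfl) (allR_glue (allR_glue (c1_1_402) (allR_glue (c1_1_403) (c1_1_404) rfl) rfl) (allR_glue (allR_glue (c1_1_405) (c1_1_406) rfl) (allR_glue (c1_1_407) (c1_1_408)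 rfl) rfl) rfl) rfl) rfl) (allR_glue (allR_glue (allR_glue (allR_glue (c1_1_409) (allR_glue (c1_1_410) (c1_1_411) rfl) rfl) (allR_glue (allR_glue (c1_1_412) (c1_1_413) rfl) (allR_glue (c1_1_414) (c1_1_415) rfl) rfl) rfl) (allR_glue (allR_glue (c1_1_416) (allR_glue (c1_1_417) (c1_1_418) rfl) rfl) (allR_glue (allR_glue (c1_1_419) (c1_1_420) rfl) (allR_glue (c1_1_421) (c1_1_422) rfl) rfl) rfl) rfl) (allR_glue (allR_glue (allR_glue (c1_1_423) (allR_glue (c1_1_424) (c1_1_425) rfl) rfl) (allR_glue (allR_glue (c1_1_426) (c1_1_427) rfl) (allR_glue (c1_1_428) (c1_1_429) rfl) rfl) rfl) (allR_glue (allR_glue (c1_1_430) (allR_glue (c1_1_431) (c1_1_432) rfl) rfl) (allR_glue (allR_glue (c1_1_433) (c1_1_434) rfl) (allR_glue (c1_1_435) (c1_1_436) rfl) rfl) rfl) rfl) rfl) rfl) rfl) rfl) rfl) rfl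

theorem all_c1_2 : ∀ x, x < N → (compatChk t2 l1) x = true :=
  of_chain (allR_glue (allR_glue (allR_glue (allR_glue (allR_glue (allR_glue (allR_glue (allR_glue (c1_2_0) (allR_glue (c1_2_1) (c1_2_2) rfl) rfl) (allR_glue (c1_2_3) (allR_glue (c1_2_4) (c1_2_5) rfl) rfl) rfl) (allR_glue (allR_glue (c1_2_6) (allR_glue (c1_2_7) (c1_2_8) rfl) rfl) (allR_glue (allR_glue (c1_2_9) (c1_2_10) rfl) (allR_glue (c1_2_11) (c1_2_12) rfl) rfl) rfl) rfl) (allR_glue (allR_glue (allR_glue (c1_2_13) (allR_glue (c1_2_14) (c1_2_15) rfl) rfl) (allR_glue (allR_glue (c1_2_16) (c1_2_17) rfl) (allR_glue (c1_2_18) (c1_2_19) rfl) rfl) rfl) (allR_glue (allR_glue (c1_2_20) (allR_glue (c1_2_21) (c1_2_22) rfl) rfl) (allR_glue (allR_glue (c1_2_23) (c1_2_24) rfl) (allR_glue (c1_2_25) (c1_2_26) rfl) rfl) rfl) rfl) rfl) (allR_glue (allR_glue (allR_glue (allR_glue (c1_2_27) (allR_glue (c1_2_28) (c1_2_29) rfl) rfl) (allR_glue (c1_2_30) (allR_glue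 (c1_2_31) (c1_2_32) rfl) rfl) rfl) (allR_glue (allR_glue (c1_2_33) (allR_glue (c1_2_34) (c1_2_35) rfl) rfl) (allR_glue (allR_glue (c1_2_36) (c1_2_37) rfl) (allR_glue (c1_2_38) (c1_2_39) rfl) rfl) rfl) rfl) (allR_glue (allR_glue (allR_glue (c1_2_40) (allR_glue (c1_2_41) (c1_2_42) rfl) rfl) (allR_glue (allR_glue (c1_2_43) (c1_2_44) rfl) (allR_glue (c1_2_45) (c1_2_46) rfl) rfl) rfl) (allR_glue (allR_glue (c1_2_47) (allR_glue (c1_2_48) (c1_2_49) rfl) rfl) (allR_glue (allR_glue (c1_2_50) (c1_2_51) rfl) (allR_glue (c1_2_52) (c1_2_53) rfl) rfl) rfl) rfl) rfl) rfl) (allR_glue (allR_glue (allR_glue (allR_glue (allR_glue (c1_2_54) (allR_glue (c1_2_55) (c1_2_56) rfl) rfl) (allR_glue (c1_2_57) (allR_glue (c1_2_58) (c1_2_59) rfl) rfl) rfl) (allR_glue (allR_glue (c1_2_60) (allR_glue (c1_2_61) (c1_2_62) rfl) rfl) (allR_glue (allR_glue (c1_2_63) (c1_2_64) rfl) (allR_glue (c1_2_65) (c1_2_66) rfl) rfl) rfl) rfl) (allR_glue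 (allR_glue (allR_glue (c1_2_67) (allR_glue (c1_2_68) (c1_2_69) rfl) rfl) (allR_glue (allR_glue (c1_2_70) (c1_2_71) rfl) (allR_glue (c1_2_72) (c1_2_73) rfl) rfl) rfl) (allR_glue (allR_glue (c1_2_74) (allR_glue (c1_2_75) (c1_2_76) rfl) rfl) (allR_glue (allR_glue (c1_2_77) (c1_2_78) rfl) (allR_glue (c1_2_79) (c1_2_80) rfl) rfl) rfl) rfl) rfl) (allR_glue (allR_glue (allR_glue (allR_glue (c1_2_81) (allR_glue (c1_2_82) (c1_2_83) rfl) rfl) (allR_glue (allR_glue (c1_2_84) (c1_2_85) rfl) (allR_glue (c1_2_86) (c1_2_87) rfl) rfl) rfl) (allR_glue (allR_glue (c1_2_88) (allR_glue (c1_2_89) (c1_2_90) rfl) rfl) (allR_glue (allR_glue (c1_2_91) (c1_2_92) rfl) (allR_glue (c1_2_93) (c1_2_94) rfl) rfl) rfl) rfl) (allR_glue (allR_glue (allR_glue (c1_2_95) (allR_glue (c1_2_96) (c1_2_97) rfl) rfl) (allR_glue (allR_glue (c1_2_98) (c1_2_99) rfl) (allR_glue (c1_2_100) (c1_2_101) rfl) rfl) rfl) (allR_glue (allR_glue (c1_2_102) (allR_glue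 (c1_2_103) (c1_2_104) rfl) rfl) (allR_glue (allR_glue (c1_2_105) (c1_2_106) rfl) (allR_glue (c1_2_107) (c1_2_108) rfl) rfl) rfl) rfl) rfl) rfl) rfl) (allR_glue (allR_glue (allR_glue (allR_glue (allR_glue (allR_glue (c1_2_109) (allR_glue (c1_2_110) (c1_2_111) rfl) rfl) (allR_glue (c1_2_112) (allR_glue (c1_2_113) (c1_2_114) rfl) rfl) rfl) (allR_glue (allR_glue (c1_2_115) (allR_glue (c1_2_116) (c1_2_117) rfl) rfl) (allR_glue (allR_glue (c1_2_118) (c1_2_119) rfl) (allR_glue (c1_2_120) (c1_2_121) rfl) rfl) rfl) rfl) (allR_glue (allR_glue (allR_glue (c1_2_122) (allR_glue (c1_2_123) (c1_2_124) rfl) rfl) (allR_glue (allR_glue (c1_2_125) (c1_2_126) rfl) (allR_glue (c1_2_127) (c1_2_128) rfl) rfl) rfl) (allR_glue (allR_glue (c1_2_129) (allR_glue (c1_2_130) (c1_2_131) rfl) rfl) (allR_glue (allR_glue (c1_2_132) (c1_2_133) rfl) (allR_glue (c1_2_134) (c1_2_135) rfl) rfl) rfl) rfl) rfl) (allR_glue (allR_glue (allR_glue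 (allR_glue (c1_2_136) (allR_glue (c1_2_137) (c1_2_138) rfl) rfl) (allR_glue (c1_2_139) (allR_glue (c1_2_140) (c1_2_141) rfl) rfl) rfl) (allR_glue (allR_glue (c1_2_142) (allR_glue (c1_2_143) (c1_2_144) rfl) rfl) (allR_glue (allR_glue (c1_2_145) (c1_2_146) rfl) (allR_glue (c1_2_147) (c1_2_148) rfl) rfl) rfl) rfl) (allR_glue (allR_glue (allR_glue (c1_2_149) (allR_glue (c1_2_150) (c1_2_151) rfl) rfl) (allR_glue (allR_glue (c1_2_152) (c1_2_153) rfl) (allR_glue (c1_2_154) (c1_2_155) rfl) rfl) rfl) (allR_glue (allR_glue (c1_2_156) (allR_glue (c1_2_157) (c1_2_158) rfl) rfl) (allR_glue (allR_glue (c1_2_159) (c1_2_160) rfl) (allR_glue (c1_2_161) (c1_2_162) rfl) rfl) rfl) rfl) rfl) rfl) (allR_glue (allR_glue (allR_glue (allR_glue (allR_glue (c1_2_163) (allR_glue (c1_2_164) (c1_2_165) rfl) rfl) (allR_glue (c1_2_166) (allR_glue (c1_2_167) (c1_2_168) rfl) rfl) rfl) (allR_glue (allR_glue (c1_2_169) (allR_glue (c1_2_170)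 (c1_2_171) rfl) rfl) (allR_glue (allR_glue (c1_2_172) (c1_2_173) rfl) (allR_glue (c1_2_174) (c1_2_175) rfl) rfl) rfl) rfl) (allR_glue (allR_glue (allR_glue (c1_2_176) (allR_glue (c1_2_177) (c1_2_178) rfl) rfl) (allR_glue (allR_glue (c1_2_179) (c1_2_180) rfl) (allR_glue (c1_2_181) (c1_2_182) rfl) rfl) rfl) (allR_glue (allR_glue (c1_2_183) (allR_glue (c1_2_184) (c1_2_185) rfl) rfl) (allR_glue (allR_glue (c1_2_186) (c1_2_187) rfl) (allR_glue (c1_2_188) (c1_2_189) rfl) rfl) rfl) rfl) rfl) (allR_glue (allR_glue (allR_glue (allR_glue (c1_2_190) (allR_glue (c1_2_191) (c1_2_192) rfl) rfl) (allR_glue (allR_glue (c1_2_193) (c1_2_194) rfl) (allR_glue (c1_2_195) (c1_2_196) rfl) rfl) rfl) (allR_glue (allR_glue (c1_2_197) (allR_glue (c1_2_198) (c1_2_199) rfl) rfl) (allR_glue (allR_glue (c1_2_200) (c1_2_201) rfl) (allR_glue (c1_2_202) (c1_2_203) rfl) rfl) rfl) rfl) (allR_glue (allR_glue (allR_glue (c1_2_204) (allR_glue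 (c1_2_205) (c1_2_206) rfl) rfl) (allR_glue (allR_glue (c1_2_207) (c1_2_208) rfl) (allR_glue (c1_2_209) (c1_2_210) rfl) rfl) rfl) (allR_glue (allR_glue (c1_2_211) (allR_glue (c1_2_212) (c1_2_213) rfl) rfl) (allR_glue (allR_glue (c1_2_214) (c1_2_215) rfl) (allR_glue (c1_2_216) (c1_2_217) rfl) rfl) rfl) rfl) rfl) rfl) rfl) rfl) (allR_glue (allR_glue (allR_glue (allR_glue (allR_glue (allR_glue (allR_glue (c1_2_218) (allR_glue (c1_2_219) (c1_2_220) rfl) rfl) (allR_glue (c1_2_221) (allR_glue (c1_2_222) (c1_2_223) rfl) rfl) rfl) (allR_glue (allR_glue (c1_2_224) (allR_glue (c1_2_225) (c1_2_226) rfl) rfl) (allR_glue (allR_glue (c1_2_227) (c1_2_228) rfl) (allR_glue (c1_2_229) (c1_2_230) rfl) rfl) rfl) rfl) (allR_glue (allR_glue (allR_glue (c1_2_231) (allR_glue (c1_2_232) (c1_2_233) rfl) rfl) (allR_glue (allR_glue (c1_2_234) (c1_2_235) rfl) (allR_glue (c1_2_236) (c1_2_237) rfl) rfl) rfl) (allR_glue (allR_glue (c1_2_238)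 (allR_glue (c1_2_239) (c1_2_240) rfl) rfl) (allR_glue (allR_glue (c1_2_241) (c1_2_242) rfl) (allR_glue (c1_2_243) (c1_2_244) rfl) rfl) rfl) rfl) rfl) (allR_glue (allR_glue (allR_glue (allR_glue (c1_2_245) (allR_glue (c1_2_246) (c1_2_247) rfl) rfl) (allR_glue (c1_2_248) (allR_glue (c1_2_249) (c1_2_250) rfl) rfl) rfl) (allR_glue (allR_glue (c1_2_251) (allR_glue (c1_2_252) (c1_2_253) rfl) rfl) (allR_glue (allR_glue (c1_2_254) (c1_2_255) rfl) (allR_glue (c1_2_256) (c1_2_257) rfl) rfl) rfl) rfl) (allR_glue (allR_glue (allR_glue (c1_2_258) (allR_glue (c1_2_259) (c1_2_260) rfl) rfl) (allR_glue (allR_glue (c1_2_261) (c1_2_262) rfl) (allR_glue (c1_2_263) (c1_2_264) rfl) rfl) rfl) (allR_glue (allR_glue (c1_2_265) (allR_glue (c1_2_266) (c1_2_267) rfl) rfl) (allR_glue (allR_glue (c1_2_268) (c1_2_269) rfl) (allR_glue (c1_2_270) (c1_2_271) rfl) rfl) rfl) rfl) rfl) rfl) (allR_glue (allR_glue (allR_glue (allR_glue (allR_glue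 (c1_2_272) (allR_glue (c1_2_273) (c1_2_274) rfl) rfl) (allR_glue (c1_2_275) (allR_glue (c1_2_276) (c1_2_277) rfl) rfl) rfl) (allR_glue (allR_glue (c1_2_278) (allR_glue (c1_2_279) (c1_2_280) rfl) rfl) (allR_glue (allR_glue (c1_2_281) (c1_2_282) rfl) (allR_glue (c1_2_283) (c1_2_284) rfl) rfl) rfl) rfl) (allR_glue (allR_glue (allR_glue (c1_2_285) (allR_glue (c1_2_286) (c1_2_287) rfl) rfl) (allR_glue (allR_glue (c1_2_288) (c1_2_289) rfl) (allR_glue (c1_2_290) (c1_2_291) rfl) rfl) rfl) (allR_glue (allR_glue (c1_2_292) (allR_glue (c1_2_293) (c1_2_294) rfl) rfl) (allR_glue (allR_glue (c1_2_295) (c1_2_296) rfl) (allR_glue (c1_2_297) (c1_2_298) rfl) rfl) rfl) rfl) rfl) (allR_glue (allR_glue (allR_glue (allR_glue (c1_2_299) (allR_glue (c1_2_300) (c1_2_301) rfl) rfl) (allR_glue (allR_glue (c1_2_302) (c1_2_303) rfl) (allR_glue (c1_2_304) (c1_2_305) rfl) rfl) rfl) (allR_glue (allR_glue (c1_2_306) (allR_glue (c1_2_307)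 (c1_2_308) rfl) rfl) (allR_glue (allR_glue (c1_2_309) (c1_2_310) rfl) (allR_glue (c1_2_311) (c1_2_312) rfl) rfl) rfl) rfl) (allR_glue (allR_glue (allR_glue (c1_2_313) (allR_glue (c1_2_314) (c1_2_315) rfl) rfl) (allR_glue (allR_glue (c1_2_316) (c1_2_317) rfl) (allR_glue (c1_2_318) (c1_2_319) rfl) rfl) rfl) (allR_glue (allR_glue (c1_2_320) (allR_glue (c1_2_321) (c1_2_322) rfl) rfl) (allR_glue (allR_glue (c1_2_323) (c1_2_324) rfl) (allR_glue (c1_2_325) (c1_2_326) rfl) rfl) rfl) rfl) rfl) rfl) rfl) (allR_glue (allR_glue (allR_glue (allR_glue (allR_glue (allR_glue (c1_2_327) (allR_glue (c1_2_328) (c1_2_329) rfl) rfl) (allR_glue (c1_2_330) (allR_glue (c1_2_331) (c1_2_332) rfl) rfl) rfl) (allR_glue (allR_glue (c1_2_333) (allR_glue (c1_2_334) (c1_2_335) rfl) rfl) (allR_glue (allR_glue (c1_2_336) (c1_2_337) rfl) (allR_glue (c1_2_338) (c1_2_339) rfl) rfl) rfl) rfl) (allR_glue (allR_glue (allR_glue (c1_2_340) (allR_glue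 (c1_2_341) (c1_2_342) rfl) rfl) (allR_glue (allR_glue (c1_2_343) (c1_2_344) rfl) (allR_glue (c1_2_345) (c1_2_346) rfl) rfl) rfl) (allR_glue (allR_glue (c1_2_347) (allR_glue (c1_2_348) (c1_2_349) rfl) rfl) (allR_glue (allR_glue (c1_2_350) (c1_2_351) rfl) (allR_glue (c1_2_352) (c1_2_353) rfl) rfl) rfl) rfl) rfl) (allR_glue (allR_glue (allR_glue (allR_glue (c1_2_354) (allR_glue (c1_2_355) (c1_2_356) rfl) rfl) (allR_glue (allR_glue (c1_2_357) (c1_2_358) rfl) (allR_glue (c1_2_359) (c1_2_360) rfl) rfl) rfl) (allR_glue (allR_glue (c1_2_361) (allR_glue (c1_2_362) (c1_2_363) rfl) rfl) (allR_glue (allR_glue (c1_2_364) (c1_2_365) rfl) (allR_glue (c1_2_366) (c1_2_367) rfl) rfl) rfl) rfl) (allR_glue (allR_glue (allR_glue (c1_2_368) (allR_glue (c1_2_369) (c1_2_370) rfl) rfl) (allR_glue (allR_glue (c1_2_371) (c1_2_372) rfl) (allR_glue (c1_2_373) (c1_2_374) rfl) rfl) rfl) (allR_glue (allR_glue (c1_2_375) (allR_glue (c1_2_376)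 (c1_2_377) rfl) rfl) (allR_glue (allR_glue (c1_2_378) (c1_2_379) rfl) (allR_glue (c1_2_380) (c1_2_381) rfl) rfl) rfl) rfl) rfl) rfl) (allR_glue (allR_glue (allR_glue (allR_glue (allR_glue (c1_2_382) (allR_glue (c1_2_383) (c1_2_384) rfl) rfl) (allR_glue (c1_2_385) (allR_glue (c1_2_386) (c1_2_387) rfl) rfl) rfl) (allR_glue (allR_glue (c1_2_388) (allR_glue (c1_2_389) (c1_2_390) rfl) rfl) (allR_glue (allR_glue (c1_2_391) (c1_2_392) rfl) (allR_glue (c1_2_393) (c1_2_394) rfl) rfl) rfl) rfl) (allR_glue (allR_glue (allR_glue (c1_2_395) (allR_glue (c1_2_396) (c1_2_397) rfl) rfl) (allR_glue (allR_glue (c1_2_398) (c1_2_399) rfl) (allR_glue (c1_2_400) (c1_2_401) rfl) rfl) rfl) (allR_glue (allR_glue (c1_2_402) (allR_glue (c1_2_403) (c1_2_404) rfl) rfl) (allR_glue (allR_glue (c1_2_405) (c1_2_406) rfl) (allR_glue (c1_2_407) (c1_2_408) rfl) rfl) rfl) rfl) rfl) (allR_glue (allR_glue (allR_glue (allR_glue (c1_2_409) (allR_glue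 (c1_2_410) (c1_2_411) rfl) rfl) (allR_glue (allR_glue (c1_2_412) (c1_2_413) rfl) (allR_glue (c1_2_414) (c1_2_415) rfl) rfl) rfl) (allR_glue (allR_glue (c1_2_416) (allR_glue (c1_2_417) (c1_2_418) rfl) rfl) (allR_glue (allR_glue (c1_2_419) (c1_2_420) rfl) (allR_glue (c1_2_421) (c1_2_422) rfl) rfl) rfl) rfl) (allR_glue (allR_glue (allR_glue (c1_2_423) (allR_glue (c1_2_424) (c1_2_425) rfl) rfl) (allR_glue (allR_glue (c1_2_426) (c1_2_427) rfl) (allR_glue (c1_2_428) (c1_2_429) rfl) rfl) rfl) (allR_glue (allR_glue (c1_2_430) (allR_glue (c1_2_431) (c1_2_432) rfl) rfl) (allR_glue (allR_glue (c1_2_433) (c1_2_434) rfl) (allR_glue (c1_2_435) (c1_2_436) rfl) rfl) rfl) rfl) rfl) rfl) rfl) rfl) rfl) rfl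

theorem all_c2_0 : ∀ x, x < N → (compatChk t0 l2) x = true :=
  of_chain (allR_glue (allR_glue (allR_glue (allR_glue (allR_glue (allR_glue (allR_glue (allR_glue (c2_0_0) (allR_glue (c2_0_1) (c2_0_2) rfl) rfl) (allR_glue (c2_0_3) (allR_glue (c2_0_4) (c2_0_5) rfl) rfl) rfl) (allR_glue (allR_glue (c2_0_6) (allR_glue (c2_0_7) (c2_0_8) rfl) rfl) (allR_glue (allR_glue (c2_0_9) (c2_0_10) rfl) (allR_glue (c2_0_11) (c2_0_12) rfl) rfl) rfl) rfl) (allR_glue (allR_glue (allR_glue (c2_0_13) (allR_glue (c2_0_14) (c2_0_15) rfl) rfl) (allR_glue (allR_glue (c2_0_16) (c2_0_17) rfl) (allR_glue (c2_0_18) (c2_0_19) rfl) rfl) rfl) (allR_glue (allR_glue (c2_0_20) (allR_glue (c2_0_21) (c2_0_22) rfl) rfl) (allR_glue (allR_glue (c2_0_23) (c2_0_24) rfl) (allR_glue (c2_0_25) (c2_0_26) rfl) rfl) rfl) rfl) rfl) (allR_glue (allR_glue (allR_glue (allR_glue (c2_0_27) (allR_glue (c2_0_28) (c2_0_29) rfl) rfl) (allR_glue (c2_0_30) (allR_glue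 (c2_0_31) (c2_0_32) rfl) rfl) rfl) (allR_glue (allR_glue (c2_0_33) (allR_glue (c2_0_34) (c2_0_35) rfl) rfl) (allR_glue (allR_glue (c2_0_36) (c2_0_37) rfl) (allR_glue (c2_0_38) (c2_0_39) rfl) rfl) rfl) rfl) (allR_glue (allR_glue (allR_glue (c2_0_40) (allR_glue (c2_0_41) (c2_0_42) rfl) rfl) (allR_glue (allR_glue (c2_0_43) (c2_0_44) rfl) (allR_glue (c2_0_45) (c2_0_46) rfl) rfl) rfl) (allR_glue (allR_glue (c2_0_47) (allR_glue (c2_0_48) (c2_0_49) rfl) rfl) (allR_glue (allR_glue (c2_0_50) (c2_0_51) rfl) (allR_glue (c2_0_52) (c2_0_53) rfl) rfl) rfl) rfl) rfl) rfl) (allR_glue (allR_glue (allR_glue (allR_glue (allR_glue (c2_0_54) (allR_glue (c2_0_55) (c2_0_56) rfl) rfl) (allR_glue (c2_0_57) (allR_glue (c2_0_58) (c2_0_59) rfl) rfl) rfl) (allR_glue (allR_glue (c2_0_60) (allR_glue (c2_0_61) (c2_0_62) rfl) rfl) (allR_glue (allR_glue (c2_0_63) (c2_0_64) rfl) (allR_glue (c2_0_65) (c2_0_66) rfl) rfl) rfl) rfl) (allR_glue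 (allR_glue (allR_glue (c2_0_67) (allR_glue (c2_0_68) (c2_0_69) rfl) rfl) (allR_glue (allR_glue (c2_0_70) (c2_0_71) rfl) (allR_glue (c2_0_72) (c2_0_73) rfl) rfl) rfl) (allR_glue (allR_glue (c2_0_74) (allR_glue (c2_0_75) (c2_0_76) rfl) rfl) (allR_glue (allR_glue (c2_0_77) (c2_0_78) rfl) (allR_glue (c2_0_79) (c2_0_80) rfl) rfl) rfl) rfl) rfl) (allR_glue (allR_glue (allR_glue (allR_glue (c2_0_81) (allR_glue (c2_0_82) (c2_0_83) rfl) rfl) (allR_glue (allR_glue (c2_0_84) (c2_0_85) rfl) (allR_glue (c2_0_86) (c2_0_87) rfl) rfl) rfl) (allR_glue (allR_glue (c2_0_88) (allR_glue (c2_0_89) (c2_0_90) rfl) rfl) (allR_glue (allR_glue (c2_0_91) (c2_0_92) rfl) (allR_glue (c2_0_93) (c2_0_94) rfl) rfl) rfl) rfl) (allR_glue (allR_glue (allR_glue (c2_0_95) (allR_glue (c2_0_96) (c2_0_97) rfl) rfl) (allR_glue (allR_glue (c2_0_98) (c2_0_99) rfl) (allR_glue (c2_0_100) (c2_0_101) rfl) rfl) rfl) (allR_glue (allR_glue (c2_0_102) (allR_glue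 (c2_0_103) (c2_0_104) rfl) rfl) (allR_glue (allR_glue (c2_0_105) (c2_0_106) rfl) (allR_glue (c2_0_107) (c2_0_108) rfl) rfl) rfl) rfl) rfl) rfl) rfl) (allR_glue (allR_glue (allR_glue (allR_glue (allR_glue (allR_glue (c2_0_109) (allR_glue (c2_0_110) (c2_0_111) rfl) rfl) (allR_glue (c2_0_112) (allR_glue (c2_0_113) (c2_0_114) rfl) rfl) rfl) (allR_glue (allR_glue (c2_0_115) (allR_glue (c2_0_116) (c2_0_117) rfl) rfl) (allR_glue (allR_glue (c2_0_118) (c2_0_119) rfl) (allR_glue (c2_0_120) (c2_0_121) rfl) rfl) rfl) rfl) (allR_glue (allR_glue (allR_glue (c2_0_122) (allR_glue (c2_0_123) (c2_0_124) rfl) rfl) (allR_glue (allR_glue (c2_0_125) (c2_0_126) rfl) (allR_glue (c2_0_127) (c2_0_128) rfl) rfl) rfl) (allR_glue (allR_glue (c2_0_129) (allR_glue (c2_0_130) (c2_0_131) rfl) rfl) (allR_glue (allR_glue (c2_0_132) (c2_0_133) rfl) (allR_glue (c2_0_134) (c2_0_135) rfl) rfl) rfl) rfl) rfl) (allR_glue (allR_glue (allR_glue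 (allR_glue (c2_0_136) (allR_glue (c2_0_137) (c2_0_138) rfl) rfl) (allR_glue (c2_0_139) (allR_glue (c2_0_140) (c2_0_141) rfl) rfl) rfl) (allR_glue (allR_glue (c2_0_142) (allR_glue (c2_0_143) (c2_0_144) rfl) rfl) (allR_glue (allR_glue (c2_0_145) (c2_0_146) rfl) (allR_glue (c2_0_147) (c2_0_148) rfl) rfl) rfl) rfl) (allR_glue (allR_glue (allR_glue (c2_0_149) (allR_glue (c2_0_150) (c2_0_151) rfl) rfl) (allR_glue (allR_glue (c2_0_152) (c2_0_153) rfl) (allR_glue (c2_0_154) (c2_0_155) rfl) rfl) rfl) (allR_glue (allR_glue (c2_0_156) (allR_glue (c2_0_157) (c2_0_158) rfl) rfl) (allR_glue (allR_glue (c2_0_159) (c2_0_160) rfl) (allR_glue (c2_0_161) (c2_0_162) rfl) rfl) rfl) rfl) rfl) rfl) (allR_glue (allR_glue (allR_glue (allR_glue (allR_glue (c2_0_163) (allR_glue (c2_0_164) (c2_0_165) rfl) rfl) (allR_glue (c2_0_166) (allR_glue (c2_0_167) (c2_0_168) rfl) rfl) rfl) (allR_glue (allR_glue (c2_0_169) (allR_glue (c2_0_170)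 (c2_0_171) rfl) rfl) (allR_glue (allR_glue (c2_0_172) (c2_0_173) rfl) (allR_glue (c2_0_174) (c2_0_175) rfl) rfl) rfl) rfl) (allR_glue (allR_glue (allR_glue (c2_0_176) (allR_glue (c2_0_177) (c2_0_178) rfl) rfl) (allR_glue (allR_glue (c2_0_179) (c2_0_180) rfl) (allR_glue (c2_0_181) (c2_0_182) rfl) rfl) rfl) (allR_glue (allR_glue (c2_0_183) (allR_glue (c2_0_184) (c2_0_185) rfl) rfl) (allR_glue (allR_glue (c2_0_186) (c2_0_187) rfl) (allR_glue (c2_0_188) (c2_0_189) rfl) rfl) rfl) rfl) rfl) (allR_glue (allR_glue (allR_glue (allR_glue (c2_0_190) (allR_glue (c2_0_191) (c2_0_192) rfl) rfl) (allR_glue (allR_glue (c2_0_193) (c2_0_194) rfl) (allR_glue (c2_0_195) (c2_0_196) rfl) rfl) rfl) (allR_glue (allR_glue (c2_0_197) (allR_glue (c2_0_198) (c2_0_199) rfl) rfl) (allR_glue (allR_glue (c2_0_200) (c2_0_201) rfl) (allR_glue (c2_0_202) (c2_0_203) rfl) rfl) rfl) rfl) (allR_glue (allR_glue (allR_glue (c2_0_204) (allR_glue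 (c2_0_205) (c2_0_206) rfl) rfl) (allR_glue (allR_glue (c2_0_207) (c2_0_208) rfl) (allR_glue (c2_0_209) (c2_0_210) rfl) rfl) rfl) (allR_glue (allR_glue (c2_0_211) (allR_glue (c2_0_212) (c2_0_213) rfl) rfl) (allR_glue (allR_glue (c2_0_214) (c2_0_215) rfl) (allR_glue (c2_0_216) (c2_0_217) rfl) rfl) rfl) rfl) rfl) rfl) rfl) rfl) (allR_glue (allR_glue (allR_glue (allR_glue (allR_glue (allR_glue (allR_glue (c2_0_218) (allR_glue (c2_0_219) (c2_0_220) rfl) rfl) (allR_glue (c2_0_221) (allR_glue (c2_0_222) (c2_0_223) rfl) rfl) rfl) (allR_glue (allR_glue (c2_0_224) (allR_glue (c2_0_225) (c2_0_226) rfl) rfl) (allR_glue (allR_glue (c2_0_227) (c2_0_228) rfl) (allR_glue (c2_0_229) (c2_0_230) rfl) rfl) rfl) rfl) (allR_glue (allR_glue (allR_glue (c2_0_231) (allR_glue (c2_0_232) (c2_0_233) rfl) rfl) (allR_glue (allR_glue (c2_0_234) (c2_0_235) rfl) (allR_glue (c2_0_236) (c2_0_237) rfl) rfl) rfl) (allR_glue (allR_glue (c2_0_238)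 (allR_glue (c2_0_239) (c2_0_240) rfl) rfl) (allR_glue (allR_glue (c2_0_241) (c2_0_242) rfl) (allR_glue (c2_0_243) (c2_0_244) rfl) rfl) rfl) rfl) rfl) (allR_glue (allR_glue (allR_glue (allR_glue (c2_0_245) (allR_glue (c2_0_246) (c2_0_247) rfl) rfl) (allR_glue (c2_0_248) (allR_glue (c2_0_249) (c2_0_250) rfl) rfl) rfl) (allR_glue (allR_glue (c2_0_251) (allR_glue (c2_0_252) (c2_0_253) rfl) rfl) (allR_glue (allR_glue (c2_0_254) (c2_0_255) rfl) (allR_glue (c2_0_256) (c2_0_257) rfl) rfl) rfl) rfl) (allR_glue (allR_glue (allR_glue (c2_0_258) (allR_glue (c2_0_259) (c2_0_260) rfl) rfl) (allR_glue (allR_glue (c2_0_261) (c2_0_262) rfl) (allR_glue (c2_0_263) (c2_0_264) rfl) rfl) rfl) (allR_glue (allR_glue (c2_0_265) (allR_glue (c2_0_266) (c2_0_267) rfl) rfl) (allR_glue (allR_glue (c2_0_268) (c2_0_269) rfl) (allR_glue (c2_0_270) (c2_0_271) rfl) rfl) rfl) rfl) rfl) rfl) (allR_glue (allR_glue (allR_glue (allR_glue (allR_glue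 (c2_0_272) (allR_glue (c2_0_273) (c2_0_274) rfl) rfl) (allR_glue (c2_0_275) (allR_glue (c2_0_276) (c2_0_277) rfl) rfl) rfl) (allR_glue (allR_glue (c2_0_278) (allR_glue (c2_0_279) (c2_0_280) rfl) rfl) (allR_glue (allR_glue (c2_0_281) (c2_0_282) rfl) (allR_glue (c2_0_283) (c2_0_284) rfl) rfl) rfl) rfl) (allR_glue (allR_glue (allR_glue (c2_0_285) (allR_glue (c2_0_286) (c2_0_287) rfl) rfl) (allR_glue (allR_glue (c2_0_288) (c2_0_289) rfl) (allR_glue (c2_0_290) (c2_0_291) rfl) rfl) rfl) (allR_glue (allR_glue (c2_0_292) (allR_glue (c2_0_293) (c2_0_294) rfl) rfl) (allR_glue (allR_glue (c2_0_295) (c2_0_296) rfl) (allR_glue (c2_0_297) (c2_0_298) rfl) rfl) rfl) rfl) rfl) (allR_glue (allR_glue (allR_glue (allR_glue (c2_0_299) (allR_glue (c2_0_300) (c2_0_301) rfl) rfl) (allR_glue (allR_glue (c2_0_302) (c2_0_303) rfl) (allR_glue (c2_0_304) (c2_0_305) rfl) rfl) rfl) (allR_glue (allR_glue (c2_0_306) (allR_glue (c2_0_307)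 (c2_0_308) rfl) rfl) (allR_glue (allR_glue (c2_0_309) (c2_0_310) rfl) (allR_glue (c2_0_311) (c2_0_312) rfl) rfl) rfl) rfl) (allR_glue (allR_glue (allR_glue (c2_0_313) (allR_glue (c2_0_314) (c2_0_315) rfl) rfl) (allR_glue (allR_glue (c2_0_316) (c2_0_317) rfl) (allR_glue (c2_0_318) (c2_0_319) rfl) rfl) rfl) (allR_glue (allR_glue (c2_0_320) (allR_glue (c2_0_321) (c2_0_322) rfl) rfl) (allR_glue (allR_glue (c2_0_323) (c2_0_324) rfl) (allR_glue (c2_0_325) (c2_0_326) rfl) rfl) rfl) rfl) rfl) rfl) rfl) (allR_glue (allR_glue (allR_glue (allR_glue (allR_glue (allR_glue (c2_0_327) (allR_glue (c2_0_328) (c2_0_329) rfl) rfl) (allR_glue (c2_0_330) (allR_glue (c2_0_331) (c2_0_332) rfl) rfl) rfl) (allR_glue (allR_glue (c2_0_333) (allR_glue (c2_0_334) (c2_0_335) rfl) rfl) (allR_glue (allR_glue (c2_0_336) (c2_0_337) rfl) (allR_glue (c2_0_338) (c2_0_339) rfl) rfl) rfl) rfl) (allR_glue (allR_glue (allR_glue (c2_0_340) (allR_glue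 (c2_0_341) (c2_0_342) rfl) rfl) (allR_glue (allR_glue (c2_0_343) (c2_0_344) rfl) (allR_glue (c2_0_345) (c2_0_346) rfl) rfl) rfl) (allR_glue (allR_glue (c2_0_347) (allR_glue (c2_0_348) (c2_0_349) rfl) rfl) (allR_glue (allR_glue (c2_0_350) (c2_0_351) rfl) (allR_glue (c2_0_352) (c2_0_353) rfl) rfl) rfl) rfl) rfl) (allR_glue (allR_glue (allR_glue (allR_glue (c2_0_354) (allR_glue (c2_0_355) (c2_0_356) rfl) rfl) (allR_glue (allR_glue (c2_0_357) (c2_0_358) rfl) (allR_glue (c2_0_359) (c2_0_360) rfl) rfl) rfl) (allR_glue (allR_glue (c2_0_361) (allR_glue (c2_0_362) (c2_0_363) rfl) rfl) (allR_glue (allR_glue (c2_0_364) (c2_0_365) rfl) (allR_glue (c2_0_366) (c2_0_367) rfl) rfl) rfl) rfl) (allR_glue (allR_glue (allR_glue (c2_0_368) (allR_glue (c2_0_369) (c2_0_370) rfl) rfl) (allR_glue (allR_glue (c2_0_371) (c2_0_372) rfl) (allR_glue (c2_0_373) (c2_0_374) rfl) rfl) rfl) (allR_glue (allR_glue (c2_0_375) (allR_glue (c2_0_376)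 (c2_0_377) rfl) rfl) (allR_glue (allR_glue (c2_0_378) (c2_0_379) rfl) (allR_glue (c2_0_380) (c2_0_381) rfl) rfl) rfl) rfl) rfl) rfl) (allR_glue (allR_glue (allR_glue (allR_glue (allR_glue (c2_0_382) (allR_glue (c2_0_383) (c2_0_384) rfl) rfl) (allR_glue (c2_0_385) (allR_glue (c2_0_386) (c2_0_387) rfl) rfl) rfl) (allR_glue (allR_glue (c2_0_388) (allR_glue (c2_0_389) (c2_0_390) rfl) rfl) (allR_glue (allR_glue (c2_0_391) (c2_0_392) rfl) (allR_glue (c2_0_393) (c2_0_394) rfl) rfl) rfl) rfl) (allR_glue (allR_glue (allR_glue (c2_0_395) (allR_glue (c2_0_396) (c2_0_397) rfl) rfl) (allR_glue (allR_glue (c2_0_398) (c2_0_399) rfl) (allR_glue (c2_0_400) (c2_0_401) rfl) rfl) rfl) (allR_glue (allR_glue (c2_0_402) (allR_glue (c2_0_403) (c2_0_404) rfl) rfl) (allR_glue (allR_glue (c2_0_405) (c2_0_406) rfl) (allR_glue (c2_0_407) (c2_0_408) rfl) rfl) rfl) rfl) rfl) (allR_glue (allR_glue (allR_glue (allR_glue (c2_0_409) (allR_glue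 (c2_0_410) (c2_0_411) rfl) rfl) (allR_glue (allR_glue (c2_0_412) (c2_0_413) rfl) (allR_glue (c2_0_414) (c2_0_415) rfl) rfl) rfl) (allR_glue (allR_glue (c2_0_416) (allR_glue (c2_0_417) (c2_0_418) rfl) rfl) (allR_glue (allR_glue (c2_0_419) (c2_0_420) rfl) (allR_glue (c2_0_421) (c2_0_422) rfl) rfl) rfl) rfl) (allR_glue (allR_glue (allR_glue (c2_0_423) (allR_glue (c2_0_424) (c2_0_425) rfl) rfl) (allR_glue (allR_glue (c2_0_426) (c2_0_427) rfl) (allR_glue (c2_0_428) (c2_0_429) rfl) rfl) rfl) (allR_glue (allR_glue (c2_0_430) (allR_glue (c2_0_431) (c2_0_432) rfl) rfl) (allR_glue (allR_glue (c2_0_433) (c2_0_434) rfl) (allR_glue (c2_0_435) (c2_0_436) rfl) rfl) rfl) rfl) rfl) rfl) rfl) rfl) rfl) rfl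

theorem all_c2_1 : ∀ x, x < N → (compatChk t1 l2) x = true :=
  of_chain (allR_glue (allR_glue (allR_glue (allR_glue (allR_glue (allR_glue (allR_glue (allR_glue (c2_1_0) (allR_glue (c2_1_1) (c2_1_2) rfl) rfl) (allR_glue (c2_1_3) (allR_glue (c2_1_4) (c2_1_5) rfl) rfl) rfl) (allR_glue (allR_glue (c2_1_6) (allR_glue (c2_1_7) (c2_1_8) rfl) rfl) (allR_glue (allR_glue (c2_1_9) (c2_1_10) rfl) (allR_glue (c2_1_11) (c2_1_12) rfl) rfl) rfl) rfl) (allR_glue (allR_glue (allR_glue (c2_1_13) (allR_glue (c2_1_14) (c2_1_15) rfl) rfl) (allR_glue (allR_glue (c2_1_16) (c2_1_17) rfl) (allR_glue (c2_1_18) (c2_1_19) rfl) rfl) rfl) (allR_glue (allR_glue (c2_1_20) (allR_glue (c2_1_21) (c2_1_22) rfl) rfl) (allR_glue (allR_glue (c2_1_23) (c2_1_24) rfl) (allR_glue (c2_1_25) (c2_1_26) rfl) rfl) rfl) rfl) rfl) (allR_glue (allR_glue (allR_glue (allR_glue (c2_1_27) (allR_glue (c2_1_28) (c2_1_29) rfl) rfl) (allR_glue (c2_1_30) (allR_glue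 (c2_1_31) (c2_1_32) rfl) rfl) rfl) (allR_glue (allR_glue (c2_1_33) (allR_glue (c2_1_34) (c2_1_35) rfl) rfl) (allR_glue (allR_glue (c2_1_36) (c2_1_37) rfl) (allR_glue (c2_1_38) (c2_1_39) rfl) rfl) rfl) rfl) (allR_glue (allR_glue (allR_glue (c2_1_40) (allR_glue (c2_1_41) (c2_1_42) rfl) rfl) (allR_glue (allR_glue (c2_1_43) (c2_1_44) rfl) (allR_glue (c2_1_45) (c2_1_46) rfl) rfl) rfl) (allR_glue (allR_glue (c2_1_47) (allR_glue (c2_1_48) (c2_1_49) rfl) rfl) (allR_glue (allR_glue (c2_1_50) (c2_1_51) rfl) (allR_glue (c2_1_52) (c2_1_53) rfl) rfl) rfl) rfl) rfl) rfl) (allR_glue (allR_glue (allR_glue (allR_glue (allR_glue (c2_1_54) (allR_glue (c2_1_55) (c2_1_56) rfl) rfl) (allR_glue (c2_1_57) (allR_glue (c2_1_58) (c2_1_59) rfl) rfl) rfl) (allR_glue (allR_glue (c2_1_60) (allR_glue (c2_1_61) (c2_1_62) rfl) rfl) (allR_glue (allR_glue (c2_1_63) (c2_1_64) rfl) (allR_glue (c2_1_65) (c2_1_66) rfl) rfl) rfl) rfl) (allR_glue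 (allR_glue (allR_glue (c2_1_67) (allR_glue (c2_1_68) (c2_1_69) rfl) rfl) (allR_glue (allR_glue (c2_1_70) (c2_1_71) rfl) (allR_glue (c2_1_72) (c2_1_73) rfl) rfl) rfl) (allR_glue (allR_glue (c2_1_74) (allR_glue (c2_1_75) (c2_1_76) rfl) rfl) (allR_glue (allR_glue (c2_1_77) (c2_1_78) rfl) (allR_glue (c2_1_79) (c2_1_80) rfl) rfl) rfl) rfl) rfl) (allR_glue (allR_glue (allR_glue (allR_glue (c2_1_81) (allR_glue (c2_1_82) (c2_1_83) rfl) rfl) (allR_glue (allR_glue (c2_1_84) (c2_1_85) rfl) (allR_glue (c2_1_86) (c2_1_87) rfl) rfl) rfl) (allR_glue (allR_glue (c2_1_88) (allR_glue (c2_1_89) (c2_1_90) rfl) rfl) (allR_glue (allR_glue (c2_1_91) (c2_1_92) rfl) (allR_glue (c2_1_93) (c2_1_94) rfl) rfl) rfl) rfl) (allR_glue (allR_glue (allR_glue (c2_1_95) (allR_glue (c2_1_96) (c2_1_97) rfl) rfl) (allR_glue (allR_glue (c2_1_98) (c2_1_99) rfl) (allR_glue (c2_1_100) (c2_1_101) rfl) rfl) rfl) (allR_glue (allR_glue (c2_1_102) (allR_glue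 (c2_1_103) (c2_1_104) rfl) rfl) (allR_glue (allR_glue (c2_1_105) (c2_1_106) rfl) (allR_glue (c2_1_107) (c2_1_108) rfl) rfl) rfl) rfl) rfl) rfl) rfl) (allR_glue (allR_glue (allR_glue (allR_glue (allR_glue (allR_glue (c2_1_109) (allR_glue (c2_1_110) (c2_1_111) rfl) rfl) (allR_glue (c2_1_112) (allR_glue (c2_1_113) (c2_1_114) rfl) rfl) rfl) (allR_glue (allR_glue (c2_1_115) (allR_glue (c2_1_116) (c2_1_117) rfl) rfl) (allR_glue (allR_glue (c2_1_118) (c2_1_119) rfl) (allR_glue (c2_1_120) (c2_1_121) rfl) rfl) rfl) rfl) (allR_glue (allR_glue (allR_glue (c2_1_122) (allR_glue (c2_1_123) (c2_1_124) rfl) rfl) (allR_glue (allR_glue (c2_1_125) (c2_1_126) rfl) (allR_glue (c2_1_127) (c2_1_128) rfl) rfl) rfl) (allR_glue (allR_glue (c2_1_129) (allR_glue (c2_1_130) (c2_1_131) rfl) rfl) (allR_glue (allR_glue (c2_1_132) (c2_1_133) rfl) (allR_glue (c2_1_134) (c2_1_135) rfl) rfl) rfl) rfl) rfl) (allR_glue (allR_glue (allR_glue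 (allR_glue (c2_1_136) (allR_glue (c2_1_137) (c2_1_138) rfl) rfl) (allR_glue (c2_1_139) (allR_glue (c2_1_140) (c2_1_141) rfl) rfl) rfl) (allR_glue (allR_glue (c2_1_142) (allR_glue (c2_1_143) (c2_1_144) rfl) rfl) (allR_glue (allR_glue (c2_1_145) (c2_1_146) rfl) (allR_glue (c2_1_147) (c2_1_148) rfl) rfl) rfl) rfl) (allR_glue (allR_glue (allR_glue (c2_1_149) (allR_glue (c2_1_150) (c2_1_151) rfl) rfl) (allR_glue (allR_glue (c2_1_152) (c2_1_153) rfl) (allR_glue (c2_1_154) (c2_1_155) rfl) rfl) rfl) (allR_glue (allR_glue (c2_1_156) (allR_glue (c2_1_157) (c2_1_158) rfl) rfl) (allR_glue (allR_glue (c2_1_159) (c2_1_160) rfl) (allR_glue (c2_1_161) (c2_1_162) rfl) rfl) rfl) rfl) rfl) rfl) (allR_glue (allR_glue (allR_glue (allR_glue (allR_glue (c2_1_163) (allR_glue (c2_1_164) (c2_1_165) rfl) rfl) (allR_glue (c2_1_166) (allR_glue (c2_1_167) (c2_1_168) rfl) rfl) rfl) (allR_glue (allR_glue (c2_1_169) (allR_glue (c2_1_170)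 (c2_1_171) rfl) rfl) (allR_glue (allR_glue (c2_1_172) (c2_1_173) rfl) (allR_glue (c2_1_174) (c2_1_175) rfl) rfl) rfl) rfl) (allR_glue (allR_glue (allR_glue (c2_1_176) (allR_glue (c2_1_177) (c2_1_178) rfl) rfl) (allR_glue (allR_glue (c2_1_179) (c2_1_180) rfl) (allR_glue (c2_1_181) (c2_1_182) rfl) rfl) rfl) (allR_glue (allR_glue (c2_1_183) (allR_glue (c2_1_184) (c2_1_185) rfl) rfl) (allR_glue (allR_glue (c2_1_186) (c2_1_187) rfl) (allR_glue (c2_1_188) (c2_1_189) rfl) rfl) rfl) rfl) rfl) (allR_glue (allR_glue (allR_glue (allR_glue (c2_1_190) (allR_glue (c2_1_191) (c2_1_192) rfl) rfl) (allR_glue (allR_glue (c2_1_193) (c2_1_194) rfl) (allR_glue (c2_1_195) (c2_1_196) rfl) rfl) rfl) (allR_glue (allR_glue (c2_1_197) (allR_glue (c2_1_198) (c2_1_199) rfl) rfl) (allR_glue (allR_glue (c2_1_200) (c2_1_201) rfl) (allR_glue (c2_1_202) (c2_1_203) rfl) rfl) rfl) rfl) (allR_glue (allR_glue (allR_glue (c2_1_204) (allR_glue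 (c2_1_205) (c2_1_206) rfl) rfl) (allR_glue (allR_glue (c2_1_207) (c2_1_208) rfl) (allR_glue (c2_1_209) (c2_1_210) rfl) rfl) rfl) (allR_glue (allR_glue (c2_1_211) (allR_glue (c2_1_212) (c2_1_213) rfl) rfl) (allR_glue (allR_glue (c2_1_214) (c2_1_215) rfl) (allR_glue (c2_1_216) (c2_1_217) rfl) rfl) rfl) rfl) rfl) rfl) rfl) rfl) (allR_glue (allR_glue (allR_glue (allR_glue (allR_glue (allR_glue (allR_glue (c2_1_218) (allR_glue (c2_1_219) (c2_1_220) rfl) rfl) (allR_glue (c2_1_221) (allR_glue (c2_1_222) (c2_1_223) rfl) rfl) rfl) (allR_glue (allR_glue (c2_1_224) (allR_glue (c2_1_225) (c2_1_226) rfl) rfl) (allR_glue (allR_glue (c2_1_227) (c2_1_228) rfl) (allR_glue (c2_1_229) (c2_1_230) rfl) rfl) rfl) rfl) (allR_glue (allR_glue (allR_glue (c2_1_231) (allR_glue (c2_1_232) (c2_1_233) rfl) rfl) (allR_glue (allR_glue (c2_1_234) (c2_1_235) rfl) (allR_glue (c2_1_236) (c2_1_237) rfl) rfl) rfl) (allR_glue (allR_glue (c2_1_238)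 (allR_glue (c2_1_239) (c2_1_240) rfl) rfl) (allR_glue (allR_glue (c2_1_241) (c2_1_242) rfl) (allR_glue (c2_1_243) (c2_1_244) rfl) rfl) rfl) rfl) rfl) (allR_glue (allR_glue (allR_glue (allR_glue (c2_1_245) (allR_glue (c2_1_246) (c2_1_247) rfl) rfl) (allR_glue (c2_1_248) (allR_glue (c2_1_249) (c2_1_250) rfl) rfl) rfl) (allR_glue (allR_glue (c2_1_251) (allR_glue (c2_1_252) (c2_1_253) rfl) rfl) (allR_glue (allR_glue (c2_1_254) (c2_1_255) rfl) (allR_glue (c2_1_256) (c2_1_257) rfl) rfl) rfl) rfl) (allR_glue (allR_glue (allR_glue (c2_1_258) (allR_glue (c2_1_259) (c2_1_260) rfl) rfl) (allR_glue (allR_glue (c2_1_261) (c2_1_262) rfl) (allR_glue (c2_1_263) (c2_1_264) rfl) rfl) rfl) (allR_glue (allR_glue (c2_1_265) (allR_glue (c2_1_266) (c2_1_267) rfl) rfl) (allR_glue (allR_glue (c2_1_268) (c2_1_269) rfl) (allR_glue (c2_1_270) (c2_1_271) rfl) rfl) rfl) rfl) rfl) rfl) (allR_glue (allR_glue (allR_glue (allR_glue (allR_glue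 (c2_1_272) (allR_glue (c2_1_273) (c2_1_274) rfl) rfl) (allR_glue (c2_1_275) (allR_glue (c2_1_276) (c2_1_277) rfl) rfl) rfl) (allR_glue (allR_glue (c2_1_278) (allR_glue (c2_1_279) (c2_1_280) rfl) rfl) (allR_glue (allR_glue (c2_1_281) (c2_1_282) rfl) (allR_glue (c2_1_283) (c2_1_284) rfl) rfl) rfl) rfl) (allR_glue (allR_glue (allR_glue (c2_1_285) (allR_glue (c2_1_286) (c2_1_287) rfl) rfl) (allR_glue (allR_glue (c2_1_288) (c2_1_289) rfl) (allR_glue (c2_1_290) (c2_1_291) rfl) rfl) rfl) (allR_glue (allR_glue (c2_1_292) (allR_glue (c2_1_293) (c2_1_294) rfl) rfl) (allR_glue (allR_glue (c2_1_295) (c2_1_296) rfl) (allR_glue (c2_1_297) (c2_1_298) rfl) rfl) rfl) rfl) rfl) (allR_glue (allR_glue (allR_glue (allR_glue (c2_1_299) (allR_glue (c2_1_300) (c2_1_301) rfl) rfl) (allR_glue (allR_glue (c2_1_302) (c2_1_303) rfl) (allR_glue (c2_1_304) (c2_1_305) rfl) rfl) rfl) (allR_glue (allR_glue (c2_1_306) (allR_glue (c2_1_307)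 (c2_1_308) rfl) rfl) (allR_glue (allR_glue (c2_1_309) (c2_1_310) rfl) (allR_glue (c2_1_311) (c2_1_312) rfl) rfl) rfl) rfl) (allR_glue (allR_glue (allR_glue (c2_1_313) (allR_glue (c2_1_314) (c2_1_315) rfl) rfl) (allR_glue (allR_glue (c2_1_316) (c2_1_317) rfl) (allR_glue (c2_1_318) (c2_1_319) rfl) rfl) rfl) (allR_glue (allR_glue (c2_1_320) (allR_glue (c2_1_321) (c2_1_322) rfl) rfl) (allR_glue (allR_glue (c2_1_323) (c2_1_324) rfl) (allR_glue (c2_1_325) (c2_1_326) rfl) rfl) rfl) rfl) rfl) rfl) rfl) (allR_glue (allR_glue (allR_glue (allR_glue (allR_glue (allR_glue (c2_1_327) (allR_glue (c2_1_328) (c2_1_329) rfl) rfl) (allR_glue (c2_1_330) (allR_glue (c2_1_331) (c2_1_332) rfl) rfl) rfl) (allR_glue (allR_glue (c2_1_333) (allR_glue (c2_1_334) (c2_1_335) rfl) rfl) (allR_glue (allR_glue (c2_1_336) (c2_1_337) rfl) (allR_glue (c2_1_338) (c2_1_339) rfl) rfl) rfl) rfl) (allR_glue (allR_glue (allR_glue (c2_1_340) (allR_glue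 (c2_1_341) (c2_1_342) rfl) rfl) (allR_glue (allR_glue (c2_1_343) (c2_1_344) rfl) (allR_glue (c2_1_345) (c2_1_346) rfl) rfl) rfl) (allR_glue (allR_glue (c2_1_347) (allR_glue (c2_1_348) (c2_1_349) rfl) rfl) (allR_glue (allR_glue (c2_1_350) (c2_1_351) rfl) (allR_glue (c2_1_352) (c2_1_353) rfl) rfl) rfl) rfl) rfl) (allR_glue (allR_glue (allR_glue (allR_glue (c2_1_354) (allR_glue (c2_1_355) (c2_1_356) rfl) rfl) (allR_glue (allR_glue (c2_1_357) (c2_1_358) rfl) (allR_glue (c2_1_359) (c2_1_360) rfl) rfl) rfl) (allR_glue (allR_glue (c2_1_361) (allR_glue (c2_1_362) (c2_1_363) rfl) rfl) (allR_glue (allR_glue (c2_1_364) (c2_1_365) rfl) (allR_glue (c2_1_366) (c2_1_367) rfl) rfl) rfl) rfl) (allR_glue (allR_glue (allR_glue (c2_1_368) (allR_glue (c2_1_369) (c2_1_370) rfl) rfl) (allR_glue (allR_glue (c2_1_371) (c2_1_372) rfl) (allR_glue (c2_1_373) (c2_1_374) rfl) rfl) rfl) (allR_glue (allR_glue (c2_1_375) (allR_glue (c2_1_376)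 (c2_1_377) rfl) rfl) (allR_glue (allR_glue (c2_1_378) (c2_1_379) rfl) (allR_glue (c2_1_380) (c2_1_381) rfl) rfl) rfl) rfl) rfl) rfl) (allR_glue (allR_glue (allR_glue (allR_glue (allR_glue (c2_1_382) (allR_glue (c2_1_383) (c2_1_384) rfl) rfl) (allR_glue (c2_1_385) (allR_glue (c2_1_386) (c2_1_387) rfl) rfl) rfl) (allR_glue (allR_glue (c2_1_388) (allR_glue (c2_1_389) (c2_1_390) rfl) rfl) (allR_glue (allR_glue (c2_1_391) (c2_1_392) rfl) (allR_glue (c2_1_393) (c2_1_394) rfl) rfl) rfl) rfl) (allR_glue (allR_glue (allR_glue (c2_1_395) (allR_glue (c2_1_396) (c2_1_397) rfl) rfl) (allR_glue (allR_glue (c2_1_398) (c2_1_399) rfl) (allR_glue (c2_1_400) (c2_1_401) rfl) rfl) rfl) (allR_glue (allR_glue (c2_1_402) (allR_glue (c2_1_403) (c2_1_404) rfl) rfl) (allR_glue (allR_glue (c2_1_405) (c2_1_406) rfl) (allR_glue (c2_1_407) (c2_1_408) rfl) rfl) rfl) rfl) rfl) (allR_glue (allR_glue (allR_glue (allR_glue (c2_1_409) (allR_glue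 (c2_1_410) (c2_1_411) rfl) rfl) (allR_glue (allR_glue (c2_1_412) (c2_1_413) rfl) (allR_glue (c2_1_414) (c2_1_415) rfl) rfl) rfl) (allR_glue (allR_glue (c2_1_416) (allR_glue (c2_1_417) (c2_1_418) rfl) rfl) (allR_glue (allR_glue (c2_1_419) (c2_1_420) rfl) (allR_glue (c2_1_421) (c2_1_422) rfl) rfl) rfl) rfl) (allR_glue (allR_glue (allR_glue (c2_1_423) (allR_glue (c2_1_424) (c2_1_425) rfl) rfl) (allR_glue (allR_glue (c2_1_426) (c2_1_427) rfl) (allR_glue (c2_1_428) (c2_1_429) rfl) rfl) rfl) (allR_glue (allR_glue (c2_1_430) (allR_glue (c2_1_431) (c2_1_432) rfl) rfl) (allR_glue (allR_glue (c2_1_433) (c2_1_434) rfl) (allR_glue (c2_1_435) (c2_1_436) rfl) rfl) rfl) rfl) rfl) rfl) rfl) rfl) rfl) rfl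

theorem all_c2_2 : ∀ x, x < N → (compatChk t2 l2) x = true :=
  of_chain (allR_glue (allR_glue (allR_glue (allR_glue (allR_glue (allR_glue (allR_glue (allR_glue (c2_2_0) (allR_glue (c2_2_1) (c2_2_2) rfl) rfl) (allR_glue (c2_2_3) (allR_glue (c2_2_4) (c2_2_5) rfl) rfl) rfl) (allR_glue (allR_glue (c2_2_6) (allR_glue (c2_2_7) (c2_2_8) rfl) rfl) (allR_glue (allR_glue (c2_2_9) (c2_2_10) rfl) (allR_glue (c2_2_11) (c2_2_12) rfl) rfl) rfl) rfl) (allR_glue (allR_glue (allR_glue (c2_2_13) (allR_glue (c2_2_14) (c2_2_15) rfl) rfl) (allR_glue (allR_glue (c2_2_16) (c2_2_17) rfl) (allR_glue (c2_2_18) (c2_2_19) rfl) rfl) rfl) (allR_glue (allR_glue (c2_2_20) (allR_glue (c2_2_21) (c2_2_22) rfl) rfl) (allR_glue (allR_glue (c2_2_23) (c2_2_24) rfl) (allR_glue (c2_2_25) (c2_2_26) rfl) rfl) rfl) rfl) rfl) (allR_glue (allR_glue (allR_glue (allR_glue (c2_2_27) (allR_glue (c2_2_28) (c2_2_29) rfl) rfl) (allR_glue (c2_2_30) (allR_glue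 (c2_2_31) (c2_2_32) rfl) rfl) rfl) (allR_glue (allR_glue (c2_2_33) (allR_glue (c2_2_34) (c2_2_35) rfl) rfl) (allR_glue (allR_glue (c2_2_36) (c2_2_37) rfl) (allR_glue (c2_2_38) (c2_2_39) rfl) rfl) rfl) rfl) (allR_glue (allR_glue (allR_glue (c2_2_40) (allR_glue (c2_2_41) (c2_2_42) rfl) rfl) (allR_glue (allR_glue (c2_2_43) (c2_2_44) rfl) (allR_glue (c2_2_45) (c2_2_46) rfl) rfl) rfl) (allR_glue (allR_glue (c2_2_47) (allR_glue (c2_2_48) (c2_2_49) rfl) rfl) (allR_glue (allR_glue (c2_2_50) (c2_2_51) rfl) (allR_glue (c2_2_52) (c2_2_53) rfl) rfl) rfl) rfl) rfl) rfl) (allR_glue (allR_glue (allR_glue (allR_glue (allR_glue (c2_2_54) (allR_glue (c2_2_55) (c2_2_56) rfl) rfl) (allR_glue (c2_2_57) (allR_glue (c2_2_58) (c2_2_59) rfl) rfl) rfl) (allR_glue (allR_glue (c2_2_60) (allR_glue (c2_2_61) (c2_2_62) rfl) rfl) (allR_glue (allR_glue (c2_2_63) (c2_2_64) rfl) (allR_glue (c2_2_65) (c2_2_66) rfl) rfl) rfl) rfl) (allR_glue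 (allR_glue (allR_glue (c2_2_67) (allR_glue (c2_2_68) (c2_2_69) rfl) rfl) (allR_glue (allR_glue (c2_2_70) (c2_2_71) rfl) (allR_glue (c2_2_72) (c2_2_73) rfl) rfl) rfl) (allR_glue (allR_glue (c2_2_74) (allR_glue (c2_2_75) (c2_2_76) rfl) rfl) (allR_glue (allR_glue (c2_2_77) (c2_2_78) rfl) (allR_glue (c2_2_79) (c2_2_80) rfl) rfl) rfl) rfl) rfl) (allR_glue (allR_glue (allR_glue (allR_glue (c2_2_81) (allR_glue (c2_2_82) (c2_2_83) rfl) rfl) (allR_glue (allR_glue (c2_2_84) (c2_2_85) rfl) (allR_glue (c2_2_86) (c2_2_87) rfl) rfl) rfl) (allR_glue (allR_glue (c2_2_88) (allR_glue (c2_2_89) (c2_2_90) rfl) rfl) (allR_glue (allR_glue (c2_2_91) (c2_2_92) rfl) (allR_glue (c2_2_93) (c2_2_94) rfl) rfl) rfl) rfl) (allR_glue (allR_glue (allR_glue (c2_2_95) (allR_glue (c2_2_96) (c2_2_97) rfl) rfl) (allR_glue (allR_glue (c2_2_98) (c2_2_99) rfl) (allR_glue (c2_2_100) (c2_2_101) rfl) rfl) rfl) (allR_glue (allR_glue (c2_2_102) (allR_glue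 (c2_2_103) (c2_2_104) rfl) rfl) (allR_glue (allR_glue (c2_2_105) (c2_2_106) rfl) (allR_glue (c2_2_107) (c2_2_108) rfl) rfl) rfl) rfl) rfl) rfl) rfl) (allR_glue (allR_glue (allR_glue (allR_glue (allR_glue (allR_glue (c2_2_109) (allR_glue (c2_2_110) (c2_2_111) rfl) rfl) (allR_glue (c2_2_112) (allR_glue (c2_2_113) (c2_2_114) rfl) rfl) rfl) (allR_glue (allR_glue (c2_2_115) (allR_glue (c2_2_116) (c2_2_117) rfl) rfl) (allR_glue (allR_glue (c2_2_118) (c2_2_119) rfl) (allR_glue (c2_2_120) (c2_2_121) rfl) rfl) rfl) rfl) (allR_glue (allR_glue (allR_glue (c2_2_122) (allR_glue (c2_2_123) (c2_2_124) rfl) rfl) (allR_glue (allR_glue (c2_2_125) (c2_2_126) rfl) (allR_glue (c2_2_127) (c2_2_128) rfl) rfl) rfl) (allR_glue (allR_glue (c2_2_129) (allR_glue (c2_2_130) (c2_2_131) rfl) rfl) (allR_glue (allR_glue (c2_2_132) (c2_2_133) rfl) (allR_glue (c2_2_134) (c2_2_135) rfl) rfl) rfl) rfl) rfl) (allR_glue (allR_glue (allR_glue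 (allR_glue (c2_2_136) (allR_glue (c2_2_137) (c2_2_138) rfl) rfl) (allR_glue (c2_2_139) (allR_glue (c2_2_140) (c2_2_141) rfl) rfl) rfl) (allR_glue (allR_glue (c2_2_142) (allR_glue (c2_2_143) (c2_2_144) rfl) rfl) (allR_glue (allR_glue (c2_2_145) (c2_2_146) rfl) (allR_glue (c2_2_147) (c2_2_148) rfl) rfl) rfl) rfl) (allR_glue (allR_glue (allR_glue (c2_2_149) (allR_glue (c2_2_150) (c2_2_151) rfl) rfl) (allR_glue (allR_glue (c2_2_152) (c2_2_153) rfl) (allR_glue (c2_2_154) (c2_2_155) rfl) rfl) rfl) (allR_glue (allR_glue (c2_2_156) (allR_glue (c2_2_157) (c2_2_158) rfl) rfl) (allR_glue (allR_glue (c2_2_159) (c2_2_160) rfl) (allR_glue (c2_2_161) (c2_2_162) rfl) rfl) rfl) rfl) rfl) rfl) (allR_glue (allR_glue (allR_glue (allR_glue (allR_glue (c2_2_163) (allR_glue (c2_2_164) (c2_2_165) rfl) rfl) (allR_glue (c2_2_166) (allR_glue (c2_2_167) (c2_2_168) rfl) rfl) rfl) (allR_glue (allR_glue (c2_2_169) (allR_glue (c2_2_170)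 (c2_2_171) rfl) rfl) (allR_glue (allR_glue (c2_2_172) (c2_2_173) rfl) (allR_glue (c2_2_174) (c2_2_175) rfl) rfl) rfl) rfl) (allR_glue (allR_glue (allR_glue (c2_2_176) (allR_glue (c2_2_177) (c2_2_178) rfl) rfl) (allR_glue (allR_glue (c2_2_179) (c2_2_180) rfl) (allR_glue (c2_2_181) (c2_2_182) rfl) rfl) rfl) (allR_glue (allR_glue (c2_2_183) (allR_glue (c2_2_184) (c2_2_185) rfl) rfl) (allR_glue (allR_glue (c2_2_186) (c2_2_187) rfl) (allR_glue (c2_2_188) (c2_2_189) rfl) rfl) rfl) rfl) rfl) (allR_glue (allR_glue (allR_glue (allR_glue (c2_2_190) (allR_glue (c2_2_191) (c2_2_192) rfl) rfl) (allR_glue (allR_glue (c2_2_193) (c2_2_194) rfl) (allR_glue (c2_2_195) (c2_2_196) rfl) rfl) rfl) (allR_glue (allR_glue (c2_2_197) (allR_glue (c2_2_198) (c2_2_199) rfl) rfl) (allR_glue (allR_glue (c2_2_200) (c2_2_201) rfl) (allR_glue (c2_2_202) (c2_2_203) rfl) rfl) rfl) rfl) (allR_glue (allR_glue (allR_glue (c2_2_204) (allR_glue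 (c2_2_205) (c2_2_206) rfl) rfl) (allR_glue (allR_glue (c2_2_207) (c2_2_208) rfl) (allR_glue (c2_2_209) (c2_2_210) rfl) rfl) rfl) (allR_glue (allR_glue (c2_2_211) (allR_glue (c2_2_212) (c2_2_213) rfl) rfl) (allR_glue (allR_glue (c2_2_214) (c2_2_215) rfl) (allR_glue (c2_2_216) (c2_2_217) rfl) rfl) rfl) rfl) rfl) rfl) rfl) rfl) (allR_glue (allR_glue (allR_glue (allR_glue (allR_glue (allR_glue (allR_glue (c2_2_218) (allR_glue (c2_2_219) (c2_2_220) rfl) rfl) (allR_glue (c2_2_221) (allR_glue (c2_2_222) (c2_2_223) rfl) rfl) rfl) (allR_glue (allR_glue (c2_2_224) (allR_glue (c2_2_225) (c2_2_226) rfl) rfl) (allR_glue (allR_glue (c2_2_227) (c2_2_228) rfl) (allR_glue (c2_2_229) (c2_2_230) rfl) rfl) rfl) rfl) (allR_glue (allR_glue (allR_glue (c2_2_231) (allR_glue (c2_2_232) (c2_2_233) rfl) rfl) (allR_glue (allR_glue (c2_2_234) (c2_2_235) rfl) (allR_glue (c2_2_236) (c2_2_237) rfl) rfl) rfl) (allR_glue (allR_glue (c2_2_238)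 (allR_glue (c2_2_239) (c2_2_240) rfl) rfl) (allR_glue (allR_glue (c2_2_241) (c2_2_242) rfl) (allR_glue (c2_2_243) (c2_2_244) rfl) rfl) rfl) rfl) rfl) (allR_glue (allR_glue (allR_glue (allR_glue (c2_2_245) (allR_glue (c2_2_246) (c2_2_247) rfl) rfl) (allR_glue (c2_2_248) (allR_glue (c2_2_249) (c2_2_250) rfl) rfl) rfl) (allR_glue (allR_glue (c2_2_251) (allR_glue (c2_2_252) (c2_2_253) rfl) rfl) (allR_glue (allR_glue (c2_2_254) (c2_2_255) rfl) (allR_glue (c2_2_256) (c2_2_257) rfl) rfl) rfl) rfl) (allR_glue (allR_glue (allR_glue (c2_2_258) (allR_glue (c2_2_259) (c2_2_260) rfl) rfl) (allR_glue (allR_glue (c2_2_261) (c2_2_262) rfl) (allR_glue (c2_2_263) (c2_2_264) rfl) rfl) rfl) (allR_glue (allR_glue (c2_2_265) (allR_glue (c2_2_266) (c2_2_267) rfl) rfl) (allR_glue (allR_glue (c2_2_268) (c2_2_269) rfl) (allR_glue (c2_2_270) (c2_2_271) rfl) rfl) rfl) rfl) rfl) rfl) (allR_glue (allR_glue (allR_glue (allR_glue (allR_glue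 (c2_2_272) (allR_glue (c2_2_273) (c2_2_274) rfl) rfl) (allR_glue (c2_2_275) (allR_glue (c2_2_276) (c2_2_277) rfl) rfl) rfl) (allR_glue (allR_glue (c2_2_278) (allR_glue (c2_2_279) (c2_2_280) rfl) rfl) (allR_glue (allR_glue (c2_2_281) (c2_2_282) rfl) (allR_glue (c2_2_283) (c2_2_284) rfl) rfl) rfl) rfl) (allR_glue (allR_glue (allR_glue (c2_2_285) (allR_glue (c2_2_286) (c2_2_287) rfl) rfl) (allR_glue (allR_glue (c2_2_288) (c2_2_289) rfl) (allR_glue (c2_2_290) (c2_2_291) rfl) rfl) rfl) (allR_glue (allR_glue (c2_2_292) (allR_glue (c2_2_293) (c2_2_294) rfl) rfl) (allR_glue (allR_glue (c2_2_295) (c2_2_296) rfl) (allR_glue (c2_2_297) (c2_2_298) rfl) rfl) rfl) rfl) rfl) (allR_glue (allR_glue (allR_glue (allR_glue (c2_2_299) (allR_glue (c2_2_300) (c2_2_301) rfl) rfl) (allR_glue (allR_glue (c2_2_302) (c2_2_303) rfl) (allR_glue (c2_2_304) (c2_2_305) rfl) rfl) rfl) (allR_glue (allR_glue (c2_2_306) (allR_glue (c2_2_307)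 (c2_2_308) rfl) rfl) (allR_glue (allR_glue (c2_2_309) (c2_2_310) rfl) (allR_glue (c2_2_311) (c2_2_312) rfl) rfl) rfl) rfl) (allR_glue (allR_glue (allR_glue (c2_2_313) (allR_glue (c2_2_314) (c2_2_315) rfl) rfl) (allR_glue (allR_glue (c2_2_316) (c2_2_317) rfl) (allR_glue (c2_2_318) (c2_2_319) rfl) rfl) rfl) (allR_glue (allR_glue (c2_2_320) (allR_glue (c2_2_321) (c2_2_322) rfl) rfl) (allR_glue (allR_glue (c2_2_323) (c2_2_324) rfl) (allR_glue (c2_2_325) (c2_2_326) rfl) rfl) rfl) rfl) rfl) rfl) rfl) (allR_glue (allR_glue (allR_glue (allR_glue (allR_glue (allR_glue (c2_2_327) (allR_glue (c2_2_328) (c2_2_329) rfl) rfl) (allR_glue (c2_2_330) (allR_glue (c2_2_331) (c2_2_332) rfl) rfl) rfl) (allR_glue (allR_glue (c2_2_333) (allR_glue (c2_2_334) (c2_2_335) rfl) rfl) (allR_glue (allR_glue (c2_2_336) (c2_2_337) rfl) (allR_glue (c2_2_338) (c2_2_339) rfl) rfl) rfl) rfl) (allR_glue (allR_glue (allR_glue (c2_2_340) (allR_glue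 (c2_2_341) (c2_2_342) rfl) rfl) (allR_glue (allR_glue (c2_2_343) (c2_2_344) rfl) (allR_glue (c2_2_345) (c2_2_346) rfl) rfl) rfl) (allR_glue (allR_glue (c2_2_347) (allR_glue (c2_2_348) (c2_2_349) rfl) rfl) (allR_glue (allR_glue (c2_2_350) (c2_2_351) rfl) (allR_glue (c2_2_352) (c2_2_353) rfl) rfl) rfl) rfl) rfl) (allR_glue (allR_glue (allR_glue (allR_glue (c2_2_354) (allR_glue (c2_2_355) (c2_2_356) rfl) rfl) (allR_glue (allR_glue (c2_2_357) (c2_2_358) rfl) (allR_glue (c2_2_359) (c2_2_360) rfl) rfl) rfl) (allR_glue (allR_glue (c2_2_361) (allR_glue (c2_2_362) (c2_2_363) rfl) rfl) (allR_glue (allR_glue (c2_2_364) (c2_2_365) rfl) (allR_glue (c2_2_366) (c2_2_367) rfl) rfl) rfl) rfl) (allR_glue (allR_glue (allR_glue (c2_2_368) (allR_glue (c2_2_369) (c2_2_370) rfl) rfl) (allR_glue (allR_glue (c2_2_371) (c2_2_372) rfl) (allR_glue (c2_2_373) (c2_2_374) rfl) rfl) rfl) (allR_glue (allR_glue (c2_2_375) (allR_glue (c2_2_376)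 (c2_2_377) rfl) rfl) (allR_glue (allR_glue (c2_2_378) (c2_2_379) rfl) (allR_glue (c2_2_380) (c2_2_381) rfl) rfl) rfl) rfl) rfl) rfl) (allR_glue (allR_glue (allR_glue (allR_glue (allR_glue (c2_2_382) (allR_glue (c2_2_383) (c2_2_384) rfl) rfl) (allR_glue (c2_2_385) (allR_glue (c2_2_386) (c2_2_387) rfl) rfl) rfl) (allR_glue (allR_glue (c2_2_388) (allR_glue (c2_2_389) (c2_2_390) rfl) rfl) (allR_glue (allR_glue (c2_2_391) (c2_2_392) rfl) (allR_glue (c2_2_393) (c2_2_394) rfl) rfl) rfl) rfl) (allR_glue (allR_glue (allR_glue (c2_2_395) (allR_glue (c2_2_396) (c2_2_397) rfl) rfl) (allR_glue (allR_glue (c2_2_398) (c2_2_399) rfl) (allR_glue (c2_2_400) (c2_2_401) rfl) rfl) rfl) (allR_glue (allR_glue (c2_2_402) (allR_glue (c2_2_403) (c2_2_404) rfl) rfl) (allR_glue (allR_glue (c2_2_405) (c2_2_406) rfl) (allR_glue (c2_2_407) (c2_2_408) rfl) rfl) rfl) rfl) rfl) (allR_glue (allR_glue (allR_glue (allR_glue (c2_2_409) (allR_glue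 (c2_2_410) (c2_2_411) rfl) rfl) (allR_glue (allR_glue (c2_2_412) (c2_2_413) rfl) (allR_glue (c2_2_414) (c2_2_415) rfl) rfl) rfl) (allR_glue (allR_glue (c2_2_416) (allR_glue (c2_2_417) (c2_2_418) rfl) rfl) (allR_glue (allR_glue (c2_2_419) (c2_2_420) rfl) (allR_glue (c2_2_421) (c2_2_422) rfl) rfl) rfl) rfl) (allR_glue (allR_glue (allR_glue (c2_2_423) (allR_glue (c2_2_424) (c2_2_425) rfl) rfl) (allR_glue (allR_glue (c2_2_426) (c2_2_427) rfl) (allR_glue (c2_2_428) (c2_2_429) rfl) rfl) rfl) (allR_glue (allR_glue (c2_2_430) (allR_glue (c2_2_431) (c2_2_432) rfl) rfl) (allR_glue (allR_glue (c2_2_433) (c2_2_434) rfl) (allR_glue (c2_2_435) (c2_2_436) rfl) rfl) rfl) rfl) rfl) rfl) rfl) rfl) rfl) rfl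

theorem all_c3_0 : ∀ x, x < N → (compatChk t0 l3) x = true :=
  of_chain (allR_glue (allR_glue (allR_glue (allR_glue (allR_glue (allR_glue (allR_glue (allR_glue (c3_0_0) (allR_glue (c3_0_1) (c3_0_2) rfl) rfl) (allR_glue (c3_0_3) (allR_glue (c3_0_4) (c3_0_5) rfl) rfl) rfl) (allR_glue (allR_glue (c3_0_6) (allR_glue (c3_0_7) (c3_0_8) rfl) rfl) (allR_glue (allR_glue (c3_0_9) (c3_0_10) rfl) (allR_glue (c3_0_11) (c3_0_12) rfl) rfl) rfl) rfl) (allR_glue (allR_glue (allR_glue (c3_0_13) (allR_glue (c3_0_14) (c3_0_15) rfl) rfl) (allR_glue (allR_glue (c3_0_16) (c3_0_17) rfl) (allR_glue (c3_0_18) (c3_0_19) rfl) rfl) rfl) (allR_glue (allR_glue (c3_0_20) (allR_glue (c3_0_21) (c3_0_22) rfl) rfl) (allR_glue (allR_glue (c3_0_23) (c3_0_24) rfl) (allR_glue (c3_0_25) (c3_0_26) rfl) rfl) rfl) rfl) rfl) (allR_glue (allR_glue (allR_glue (allR_glue (c3_0_27) (allR_glue (c3_0_28) (c3_0_29) rfl) rfl) (allR_glue (c3_0_30) (allR_glue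 (c3_0_31) (c3_0_32) rfl) rfl) rfl) (allR_glue (allR_glue (c3_0_33) (allR_glue (c3_0_34) (c3_0_35) rfl) rfl) (allR_glue (allR_glue (c3_0_36) (c3_0_37) rfl) (allR_glue (c3_0_38) (c3_0_39) rfl) rfl) rfl) rfl) (allR_glue (allR_glue (allR_glue (c3_0_40) (allR_glue (c3_0_41) (c3_0_42) rfl) rfl) (allR_glue (allR_glue (c3_0_43) (c3_0_44) rfl) (allR_glue (c3_0_45) (c3_0_46) rfl) rfl) rfl) (allR_glue (allR_glue (c3_0_47) (allR_glue (c3_0_48) (c3_0_49) rfl) rfl) (allR_glue (allR_glue (c3_0_50) (c3_0_51) rfl) (allR_glue (c3_0_52) (c3_0_53) rfl) rfl) rfl) rfl) rfl) rfl) (allR_glue (allR_glue (allR_glue (allR_glue (allR_glue (c3_0_54) (allR_glue (c3_0_55) (c3_0_56) rfl) rfl) (allR_glue (c3_0_57) (allR_glue (c3_0_58) (c3_0_59) rfl) rfl) rfl) (allR_glue (allR_glue (c3_0_60) (allR_glue (c3_0_61) (c3_0_62) rfl) rfl) (allR_glue (allR_glue (c3_0_63) (c3_0_64) rfl) (allR_glue (c3_0_65) (c3_0_66) rfl) rfl) rfl) rfl) (allR_glue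 (allR_glue (allR_glue (c3_0_67) (allR_glue (c3_0_68) (c3_0_69) rfl) rfl) (allR_glue (allR_glue (c3_0_70) (c3_0_71) rfl) (allR_glue (c3_0_72) (c3_0_73) rfl) rfl) rfl) (allR_glue (allR_glue (c3_0_74) (allR_glue (c3_0_75) (c3_0_76) rfl) rfl) (allR_glue (allR_glue (c3_0_77) (c3_0_78) rfl) (allR_glue (c3_0_79) (c3_0_80) rfl) rfl) rfl) rfl) rfl) (allR_glue (allR_glue (allR_glue (allR_glue (c3_0_81) (allR_glue (c3_0_82) (c3_0_83) rfl) rfl) (allR_glue (allR_glue (c3_0_84) (c3_0_85) rfl) (allR_glue (c3_0_86) (c3_0_87) rfl) rfl) rfl) (allR_glue (allR_glue (c3_0_88) (allR_glue (c3_0_89) (c3_0_90) rfl) rfl) (allR_glue (allR_glue (c3_0_91) (c3_0_92) rfl) (allR_glue (c3_0_93) (c3_0_94) rfl) rfl) rfl) rfl) (allR_glue (allR_glue (allR_glue (c3_0_95) (allR_glue (c3_0_96) (c3_0_97) rfl) rfl) (allR_glue (allR_glue (c3_0_98) (c3_0_99) rfl) (allR_glue (c3_0_100) (c3_0_101) rfl) rfl) rfl) (allR_glue (allR_glue (c3_0_102) (allR_glue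 (c3_0_103) (c3_0_104) rfl) rfl) (allR_glue (allR_glue (c3_0_105) (c3_0_106) rfl) (allR_glue (c3_0_107) (c3_0_108) rfl) rfl) rfl) rfl) rfl) rfl) rfl) (allR_glue (allR_glue (allR_glue (allR_glue (allR_glue (allR_glue (c3_0_109) (allR_glue (c3_0_110) (c3_0_111) rfl) rfl) (allR_glue (c3_0_112) (allR_glue (c3_0_113) (c3_0_114) rfl) rfl) rfl) (allR_glue (allR_glue (c3_0_115) (allR_glue (c3_0_116) (c3_0_117) rfl) rfl) (allR_glue (allR_glue (c3_0_118) (c3_0_119) rfl) (allR_glue (c3_0_120) (c3_0_121) rfl) rfl) rfl) rfl) (allR_glue (allR_glue (allR_glue (c3_0_122) (allR_glue (c3_0_123) (c3_0_124) rfl) rfl) (allR_glue (allR_glue (c3_0_125) (c3_0_126) rfl) (allR_glue (c3_0_127) (c3_0_128) rfl) rfl) rfl) (allR_glue (allR_glue (c3_0_129) (allR_glue (c3_0_130) (c3_0_131) rfl) rfl) (allR_glue (allR_glue (c3_0_132) (c3_0_133) rfl) (allR_glue (c3_0_134) (c3_0_135) rfl) rfl) rfl) rfl) rfl) (allR_glue (allR_glue (allR_glue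 (allR_glue (c3_0_136) (allR_glue (c3_0_137) (c3_0_138) rfl) rfl) (allR_glue (c3_0_139) (allR_glue (c3_0_140) (c3_0_141) rfl) rfl) rfl) (allR_glue (allR_glue (c3_0_142) (allR_glue (c3_0_143) (c3_0_144) rfl) rfl) (allR_glue (allR_glue (c3_0_145) (c3_0_146) rfl) (allR_glue (c3_0_147) (c3_0_148) rfl) rfl) rfl) rfl) (allR_glue (allR_glue (allR_glue (c3_0_149) (allR_glue (c3_0_150) (c3_0_151) rfl) rfl) (allR_glue (allR_glue (c3_0_152) (c3_0_153) rfl) (allR_glue (c3_0_154) (c3_0_155) rfl) rfl) rfl) (allR_glue (allR_glue (c3_0_156) (allR_glue (c3_0_157) (c3_0_158) rfl) rfl) (allR_glue (allR_glue (c3_0_159) (c3_0_160) rfl) (allR_glue (c3_0_161) (c3_0_162) rfl) rfl) rfl) rfl) rfl) rfl) (allR_glue (allR_glue (allR_glue (allR_glue (allR_glue (c3_0_163) (allR_glue (c3_0_164) (c3_0_165) rfl) rfl) (allR_glue (c3_0_166) (allR_glue (c3_0_167) (c3_0_168) rfl) rfl) rfl) (allR_glue (allR_glue (c3_0_169) (allR_glue (c3_0_170)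 (c3_0_171) rfl) rfl) (allR_glue (allR_glue (c3_0_172) (c3_0_173) rfl) (allR_glue (c3_0_174) (c3_0_175) rfl) rfl) rfl) rfl) (allR_glue (allR_glue (allR_glue (c3_0_176) (allR_glue (c3_0_177) (c3_0_178) rfl) rfl) (allR_glue (allR_glue (c3_0_179) (c3_0_180) rfl) (allR_glue (c3_0_181) (c3_0_182) rfl) rfl) rfl) (allR_glue (allR_glue (c3_0_183) (allR_glue (c3_0_184) (c3_0_185) rfl) rfl) (allR_glue (allR_glue (c3_0_186) (c3_0_187) rfl) (allR_glue (c3_0_188) (c3_0_189) rfl) rfl) rfl) rfl) rfl) (allR_glue (allR_glue (allR_glue (allR_glue (c3_0_190) (allR_glue (c3_0_191) (c3_0_192) rfl) rfl) (allR_glue (allR_glue (c3_0_193) (c3_0_194) rfl) (allR_glue (c3_0_195) (c3_0_196) rfl) rfl) rfl) (allR_glue (allR_glue (c3_0_197) (allR_glue (c3_0_198) (c3_0_199) rfl) rfl) (allR_glue (allR_glue (c3_0_200) (c3_0_201) rfl) (allR_glue (c3_0_202) (c3_0_203) rfl) rfl) rfl) rfl) (allR_glue (allR_glue (allR_glue (c3_0_204) (allR_glue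 (c3_0_205) (c3_0_206) rfl) rfl) (allR_glue (allR_glue (c3_0_207) (c3_0_208) rfl) (allR_glue (c3_0_209) (c3_0_210) rfl) rfl) rfl) (allR_glue (allR_glue (c3_0_211) (allR_glue (c3_0_212) (c3_0_213) rfl) rfl) (allR_glue (allR_glue (c3_0_214) (c3_0_215) rfl) (allR_glue (c3_0_216) (c3_0_217) rfl) rfl) rfl) rfl) rfl) rfl) rfl) rfl) (allR_glue (allR_glue (allR_glue (allR_glue (allR_glue (allR_glue (allR_glue (c3_0_218) (allR_glue (c3_0_219) (c3_0_220) rfl) rfl) (allR_glue (c3_0_221) (allR_glue (c3_0_222) (c3_0_223) rfl) rfl) rfl) (allR_glue (allR_glue (c3_0_224) (allR_glue (c3_0_225) (c3_0_226) rfl) rfl) (allR_glue (allR_glue (c3_0_227) (c3_0_228) rfl) (allR_glue (c3_0_229) (c3_0_230) rfl) rfl) rfl) rfl) (allR_glue (allR_glue (allR_glue (c3_0_231) (allR_glue (c3_0_232) (c3_0_233) rfl) rfl) (allR_glue (allR_glue (c3_0_234) (c3_0_235) rfl) (allR_glue (c3_0_236) (c3_0_237) rfl) rfl) rfl) (allR_glue (allR_glue (c3_0_238)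 (allR_glue (c3_0_239) (c3_0_240) rfl) rfl) (allR_glue (allR_glue (c3_0_241) (c3_0_242) rfl) (allR_glue (c3_0_243) (c3_0_244) rfl) rfl) rfl) rfl) rfl) (allR_glue (allR_glue (allR_glue (allR_glue (c3_0_245) (allR_glue (c3_0_246) (c3_0_247) rfl) rfl) (allR_glue (c3_0_248) (allR_glue (c3_0_249) (c3_0_250) rfl) rfl) rfl) (allR_glue (allR_glue (c3_0_251) (allR_glue (c3_0_252) (c3_0_253) rfl) rfl) (allR_glue (allR_glue (c3_0_254) (c3_0_255) rfl) (allR_glue (c3_0_256) (c3_0_257) rfl) rfl) rfl) rfl) (allR_glue (allR_glue (allR_glue (c3_0_258) (allR_glue (c3_0_259) (c3_0_260) rfl) rfl) (allR_glue (allR_glue (c3_0_261) (c3_0_262) rfl) (allR_glue (c3_0_263) (c3_0_264) rfl) rfl) rfl) (allR_glue (allR_glue (c3_0_265) (allR_glue (c3_0_266) (c3_0_267) rfl) rfl) (allR_glue (allR_glue (c3_0_268) (c3_0_269) rfl) (allR_glue (c3_0_270) (c3_0_271) rfl) rfl) rfl) rfl) rfl) rfl) (allR_glue (allR_glue (allR_glue (allR_glue (allR_glue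 (c3_0_272) (allR_glue (c3_0_273) (c3_0_274) rfl) rfl) (allR_glue (c3_0_275) (allR_glue (c3_0_276) (c3_0_277) rfl) rfl) rfl) (allR_glue (allR_glue (c3_0_278) (allR_glue (c3_0_279) (c3_0_280) rfl) rfl) (allR_glue (allR_glue (c3_0_281) (c3_0_282) rfl) (allR_glue (c3_0_283) (c3_0_284) rfl) rfl) rfl) rfl) (allR_glue (allR_glue (allR_glue (c3_0_285) (allR_glue (c3_0_286) (c3_0_287) rfl) rfl) (allR_glue (allR_glue (c3_0_288) (c3_0_289) rfl) (allR_glue (c3_0_290) (c3_0_291) rfl) rfl) rfl) (allR_glue (allR_glue (c3_0_292) (allR_glue (c3_0_293) (c3_0_294) rfl) rfl) (allR_glue (allR_glue (c3_0_295) (c3_0_296) rfl) (allR_glue (c3_0_297) (c3_0_298) rfl) rfl) rfl) rfl) rfl) (allR_glue (allR_glue (allR_glue (allR_glue (c3_0_299) (allR_glue (c3_0_300) (c3_0_301) rfl) rfl) (allR_glue (allR_glue (c3_0_302) (c3_0_303) rfl) (allR_glue (c3_0_304) (c3_0_305) rfl) rfl) rfl) (allR_glue (allR_glue (c3_0_306) (allR_glue (c3_0_307)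 (c3_0_308) rfl) rfl) (allR_glue (allR_glue (c3_0_309) (c3_0_310) rfl) (allR_glue (c3_0_311) (c3_0_312) rfl) rfl) rfl) rfl) (allR_glue (allR_glue (allR_glue (c3_0_313) (allR_glue (c3_0_314) (c3_0_315) rfl) rfl) (allR_glue (allR_glue (c3_0_316) (c3_0_317) rfl) (allR_glue (c3_0_318) (c3_0_319) rfl) rfl) rfl) (allR_glue (allR_glue (c3_0_320) (allR_glue (c3_0_321) (c3_0_322) rfl) rfl) (allR_glue (allR_glue (c3_0_323) (c3_0_324) rfl) (allR_glue (c3_0_325) (c3_0_326) rfl) rfl) rfl) rfl) rfl) rfl) rfl) (allR_glue (allR_glue (allR_glue (allR_glue (allR_glue (allR_glue (c3_0_327) (allR_glue (c3_0_328) (c3_0_329) rfl) rfl) (allR_glue (c3_0_330) (allR_glue (c3_0_331) (c3_0_332) rfl) rfl) rfl) (allR_glue (allR_glue (c3_0_333) (allR_glue (c3_0_334) (c3_0_335) rfl) rfl) (allR_glue (allR_glue (c3_0_336) (c3_0_337) rfl) (allR_glue (c3_0_338) (c3_0_339) rfl) rfl) rfl) rfl) (allR_glue (allR_glue (allR_glue (c3_0_340) (allR_glue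 (c3_0_341) (c3_0_342) rfl) rfl) (allR_glue (allR_glue (c3_0_343) (c3_0_344) rfl) (allR_glue (c3_0_345) (c3_0_346) rfl) rfl) rfl) (allR_glue (allR_glue (c3_0_347) (allR_glue (c3_0_348) (c3_0_349) rfl) rfl) (allR_glue (allR_glue (c3_0_350) (c3_0_351) rfl) (allR_glue (c3_0_352) (c3_0_353) rfl) rfl) rfl) rfl) rfl) (allR_glue (allR_glue (allR_glue (allR_glue (c3_0_354) (allR_glue (c3_0_355) (c3_0_356) rfl) rfl) (allR_glue (allR_glue (c3_0_357) (c3_0_358) rfl) (allR_glue (c3_0_359) (c3_0_360) rfl) rfl) rfl) (allR_glue (allR_glue (c3_0_361) (allR_glue (c3_0_362) (c3_0_363) rfl) rfl) (allR_glue (allR_glue (c3_0_364) (c3_0_365) rfl) (allR_glue (c3_0_366) (c3_0_367) rfl) rfl) rfl) rfl) (allR_glue (allR_glue (allR_glue (c3_0_368) (allR_glue (c3_0_369) (c3_0_370) rfl) rfl) (allR_glue (allR_glue (c3_0_371) (c3_0_372) rfl) (allR_glue (c3_0_373) (c3_0_374) rfl) rfl) rfl) (allR_glue (allR_glue (c3_0_375) (allR_glue (c3_0_376)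 (c3_0_377) rfl) rfl) (allR_glue (allR_glue (c3_0_378) (c3_0_379) rfl) (allR_glue (c3_0_380) (c3_0_381) rfl) rfl) rfl) rfl) rfl) rfl) (allR_glue (allR_glue (allR_glue (allR_glue (allR_glue (c3_0_382) (allR_glue (c3_0_383) (c3_0_384) rfl) rfl) (allR_glue (c3_0_385) (allR_glue (c3_0_386) (c3_0_387) rfl) rfl) rfl) (allR_glue (allR_glue (c3_0_388) (allR_glue (c3_0_389) (c3_0_390) rfl) rfl) (allR_glue (allR_glue (c3_0_391) (c3_0_392) rfl) (allR_glue (c3_0_393) (c3_0_394) rfl) rfl) rfl) rfl) (allR_glue (allR_glue (allR_glue (c3_0_395) (allR_glue (c3_0_396) (c3_0_397) rfl) rfl) (allR_glue (allR_glue (c3_0_398) (c3_0_399) rfl) (allR_glue (c3_0_400) (c3_0_401) rfl) rfl) rfl) (allR_glue (allR_glue (c3_0_402) (allR_glue (c3_0_403) (c3_0_404) rfl) rfl) (allR_glue (allR_glue (c3_0_405) (c3_0_406) rfl) (allR_glue (c3_0_407) (c3_0_408) rfl) rfl) rfl) rfl) rfl) (allR_glue (allR_glue (allR_glue (allR_glue (c3_0_409) (allR_glue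 (c3_0_410) (c3_0_411) rfl) rfl) (allR_glue (allR_glue (c3_0_412) (c3_0_413) rfl) (allR_glue (c3_0_414) (c3_0_415) rfl) rfl) rfl) (allR_glue (allR_glue (c3_0_416) (allR_glue (c3_0_417) (c3_0_418) rfl) rfl) (allR_glue (allR_glue (c3_0_419) (c3_0_420) rfl) (allR_glue (c3_0_421) (c3_0_422) rfl) rfl) rfl) rfl) (allR_glue (allR_glue (allR_glue (c3_0_423) (allR_glue (c3_0_424) (c3_0_425) rfl) rfl) (allR_glue (allR_glue (c3_0_426) (c3_0_427) rfl) (allR_glue (c3_0_428) (c3_0_429) rfl) rfl) rfl) (allR_glue (allR_glue (c3_0_430) (allR_glue (c3_0_431) (c3_0_432) rfl) rfl) (allR_glue (allR_glue (c3_0_433) (c3_0_434) rfl) (allR_glue (c3_0_435) (c3_0_436) rfl) rfl) rfl) rfl) rfl) rfl) rfl) rfl) rfl) rfl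

theorem all_c3_1 : ∀ x, x < N → (compatChk t1 l3) x = true :=
  of_chain (allR_glue (allR_glue (allR_glue (allR_glue (allR_glue (allR_glue (allR_glue (allR_glue (c3_1_0) (allR_glue (c3_1_1) (c3_1_2) rfl) rfl) (allR_glue (c3_1_3) (allR_glue (c3_1_4) (c3_1_5) rfl) rfl) rfl) (allR_glue (allR_glue (c3_1_6) (allR_glue (c3_1_7) (c3_1_8) rfl) rfl) (allR_glue (allR_glue (c3_1_9) (c3_1_10) rfl) (allR_glue (c3_1_11) (c3_1_12) rfl) rfl) rfl) rfl) (allR_glue (allR_glue (allR_glue (c3_1_13) (allR_glue (c3_1_14) (c3_1_15) rfl) rfl) (allR_glue (allR_glue (c3_1_16) (c3_1_17) rfl) (allR_glue (c3_1_18) (c3_1_19) rfl) rfl) rfl) (allR_glue (allR_glue (c3_1_20) (allR_glue (c3_1_21) (c3_1_22) rfl) rfl) (allR_glue (allR_glue (c3_1_23) (c3_1_24) rfl) (allR_glue (c3_1_25) (c3_1_26) rfl) rfl) rfl) rfl) rfl) (allR_glue (allR_glue (allR_glue (allR_glue (c3_1_27) (allR_glue (c3_1_28) (c3_1_29) rfl) rfl) (allR_glue (c3_1_30) (allR_glue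 (c3_1_31) (c3_1_32) rfl) rfl) rfl) (allR_glue (allR_glue (c3_1_33) (allR_glue (c3_1_34) (c3_1_35) rfl) rfl) (allR_glue (allR_glue (c3_1_36) (c3_1_37) rfl) (allR_glue (c3_1_38) (c3_1_39) rfl) rfl) rfl) rfl) (allR_glue (allR_glue (allR_glue (c3_1_40) (allR_glue (c3_1_41) (c3_1_42) rfl) rfl) (allR_glue (allR_glue (c3_1_43) (c3_1_44) rfl) (allR_glue (c3_1_45) (c3_1_46) rfl) rfl) rfl) (allR_glue (allR_glue (c3_1_47) (allR_glue (c3_1_48) (c3_1_49) rfl) rfl) (allR_glue (allR_glue (c3_1_50) (c3_1_51) rfl) (allR_glue (c3_1_52) (c3_1_53) rfl) rfl) rfl) rfl) rfl) rfl) (allR_glue (allR_glue (allR_glue (allR_glue (allR_glue (c3_1_54) (allR_glue (c3_1_55) (c3_1_56) rfl) rfl) (allR_glue (c3_1_57) (allR_glue (c3_1_58) (c3_1_59) rfl) rfl) rfl) (allR_glue (allR_glue (c3_1_60) (allR_glue (c3_1_61) (c3_1_62) rfl) rfl) (allR_glue (allR_glue (c3_1_63) (c3_1_64) rfl) (allR_glue (c3_1_65) (c3_1_66) rfl) rfl) rfl) rfl) (allR_glue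 (allR_glue (allR_glue (c3_1_67) (allR_glue (c3_1_68) (c3_1_69) rfl) rfl) (allR_glue (allR_glue (c3_1_70) (c3_1_71) rfl) (allR_glue (c3_1_72) (c3_1_73) rfl) rfl) rfl) (allR_glue (allR_glue (c3_1_74) (allR_glue (c3_1_75) (c3_1_76) rfl) rfl) (allR_glue (allR_glue (c3_1_77) (c3_1_78) rfl) (allR_glue (c3_1_79) (c3_1_80) rfl) rfl) rfl) rfl) rfl) (allR_glue (allR_glue (allR_glue (allR_glue (c3_1_81) (allR_glue (c3_1_82) (c3_1_83) rfl) rfl) (allR_glue (allR_glue (c3_1_84) (c3_1_85) rfl) (allR_glue (c3_1_86) (c3_1_87) rfl) rfl) rfl) (allR_glue (allR_glue (c3_1_88) (allR_glue (c3_1_89) (c3_1_90) rfl) rfl) (allR_glue (allR_glue (c3_1_91) (c3_1_92) rfl) (allR_glue (c3_1_93) (c3_1_94) rfl) rfl) rfl) rfl) (allR_glue (allR_glue (allR_glue (c3_1_95) (allR_glue (c3_1_96) (c3_1_97) rfl) rfl) (allR_glue (allR_glue (c3_1_98) (c3_1_99) rfl) (allR_glue (c3_1_100) (c3_1_101) rfl) rfl) rfl) (allR_glue (allR_glue (c3_1_102) (allR_glue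 (c3_1_103) (c3_1_104) rfl) rfl) (allR_glue (allR_glue (c3_1_105) (c3_1_106) rfl) (allR_glue (c3_1_107) (c3_1_108) rfl) rfl) rfl) rfl) rfl) rfl) rfl) (allR_glue (allR_glue (allR_glue (allR_glue (allR_glue (allR_glue (c3_1_109) (allR_glue (c3_1_110) (c3_1_111) rfl) rfl) (allR_glue (c3_1_112) (allR_glue (c3_1_113) (c3_1_114) rfl) rfl) rfl) (allR_glue (allR_glue (c3_1_115) (allR_glue (c3_1_116) (c3_1_117) rfl) rfl) (allR_glue (allR_glue (c3_1_118) (c3_1_119) rfl) (allR_glue (c3_1_120) (c3_1_121) rfl) rfl) rfl) rfl) (allR_glue (allR_glue (allR_glue (c3_1_122) (allR_glue (c3_1_123) (c3_1_124) rfl) rfl) (allR_glue (allR_glue (c3_1_125) (c3_1_126) rfl) (allR_glue (c3_1_127) (c3_1_128) rfl) rfl) rfl) (allR_glue (allR_glue (c3_1_129) (allR_glue (c3_1_130) (c3_1_131) rfl) rfl) (allR_glue (allR_glue (c3_1_132) (c3_1_133) rfl) (allR_glue (c3_1_134) (c3_1_135) rfl) rfl) rfl) rfl) rfl) (allR_glue (allR_glue (allR_glue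 (allR_glue (c3_1_136) (allR_glue (c3_1_137) (c3_1_138) rfl) rfl) (allR_glue (c3_1_139) (allR_glue (c3_1_140) (c3_1_141) rfl) rfl) rfl) (allR_glue (allR_glue (c3_1_142) (allR_glue (c3_1_143) (c3_1_144) rfl) rfl) (allR_glue (allR_glue (c3_1_145) (c3_1_146) rfl) (allR_glue (c3_1_147) (c3_1_148) rfl) rfl) rfl) rfl) (allR_glue (allR_glue (allR_glue (c3_1_149) (allR_glue (c3_1_150) (c3_1_151) rfl) rfl) (allR_glue (allR_glue (c3_1_152) (c3_1_153) rfl) (allR_glue (c3_1_154) (c3_1_155) rfl) rfl) rfl) (allR_glue (allR_glue (c3_1_156) (allR_glue (c3_1_157) (c3_1_158) rfl) rfl) (allR_glue (allR_glue (c3_1_159) (c3_1_160) rfl) (allR_glue (c3_1_161) (c3_1_162) rfl) rfl) rfl) rfl) rfl) rfl) (allR_glue (allR_glue (allR_glue (allR_glue (allR_glue (c3_1_163) (allR_glue (c3_1_164) (c3_1_165) rfl) rfl) (allR_glue (c3_1_166) (allR_glue (c3_1_167) (c3_1_168) rfl) rfl) rfl) (allR_glue (allR_glue (c3_1_169) (allR_glue (c3_1_170)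 (c3_1_171) rfl) rfl) (allR_glue (allR_glue (c3_1_172) (c3_1_173) rfl) (allR_glue (c3_1_174) (c3_1_175) rfl) rfl) rfl) rfl) (allR_glue (allR_glue (allR_glue (c3_1_176) (allR_glue (c3_1_177) (c3_1_178) rfl) rfl) (allR_glue (allR_glue (c3_1_179) (c3_1_180) rfl) (allR_glue (c3_1_181) (c3_1_182) rfl) rfl) rfl) (allR_glue (allR_glue (c3_1_183) (allR_glue (c3_1_184) (c3_1_185) rfl) rfl) (allR_glue (allR_glue (c3_1_186) (c3_1_187) rfl) (allR_glue (c3_1_188) (c3_1_189) rfl) rfl) rfl) rfl) rfl) (allR_glue (allR_glue (allR_glue (allR_glue (c3_1_190) (allR_glue (c3_1_191) (c3_1_192) rfl) rfl) (allR_glue (allR_glue (c3_1_193) (c3_1_194) rfl) (allR_glue (c3_1_195) (c3_1_196) rfl) rfl) rfl) (allR_glue (allR_glue (c3_1_197) (allR_glue (c3_1_198) (c3_1_199) rfl) rfl) (allR_glue (allR_glue (c3_1_200) (c3_1_201) rfl) (allR_glue (c3_1_202) (c3_1_203) rfl) rfl) rfl) rfl) (allR_glue (allR_glue (allR_glue (c3_1_204) (allR_glue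 (c3_1_205) (c3_1_206) rfl) rfl) (allR_glue (allR_glue (c3_1_207) (c3_1_208) rfl) (allR_glue (c3_1_209) (c3_1_210) rfl) rfl) rfl) (allR_glue (allR_glue (c3_1_211) (allR_glue (c3_1_212) (c3_1_213) rfl) rfl) (allR_glue (allR_glue (c3_1_214) (c3_1_215) rfl) (allR_glue (c3_1_216) (c3_1_217) rfl) rfl) rfl) rfl) rfl) rfl) rfl) rfl) (allR_glue (allR_glue (allR_glue (allR_glue (allR_glue (allR_glue (allR_glue (c3_1_218) (allR_glue (c3_1_219) (c3_1_220) rfl) rfl) (allR_glue (c3_1_221) (allR_glue (c3_1_222) (c3_1_223) rfl) rfl) rfl) (allR_glue (allR_glue (c3_1_224) (allR_glue (c3_1_225) (c3_1_226) rfl) rfl) (allR_glue (allR_glue (c3_1_227) (c3_1_228) rfl) (allR_glue (c3_1_229) (c3_1_230) rfl) rfl) rfl) rfl) (allR_glue (allR_glue (allR_glue (c3_1_231) (allR_glue (c3_1_232) (c3_1_233) rfl) rfl) (allR_glue (allR_glue (c3_1_234) (c3_1_235) rfl) (allR_glue (c3_1_236) (c3_1_237) rfl) rfl) rfl) (allR_glue (allR_glue (c3_1_238)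 (allR_glue (c3_1_239) (c3_1_240) rfl) rfl) (allR_glue (allR_glue (c3_1_241) (c3_1_242) rfl) (allR_glue (c3_1_243) (c3_1_244) rfl) rfl) rfl) rfl) rfl) (allR_glue (allR_glue (allR_glue (allR_glue (c3_1_245) (allR_glue (c3_1_246) (c3_1_247) rfl) rfl) (allR_glue (c3_1_248) (allR_glue (c3_1_249) (c3_1_250) rfl) rfl) rfl) (allR_glue (allR_glue (c3_1_251) (allR_glue (c3_1_252) (c3_1_253) rfl) rfl) (allR_glue (allR_glue (c3_1_254) (c3_1_255) rfl) (allR_glue (c3_1_256) (c3_1_257) rfl) rfl) rfl) rfl) (allR_glue (allR_glue (allR_glue (c3_1_258) (allR_glue (c3_1_259) (c3_1_260) rfl) rfl) (allR_glue (allR_glue (c3_1_261) (c3_1_262) rfl) (allR_glue (c3_1_263) (c3_1_264) rfl) rfl) rfl) (allR_glue (allR_glue (c3_1_265) (allR_glue (c3_1_266) (c3_1_267) rfl) rfl) (allR_glue (allR_glue (c3_1_268) (c3_1_269) rfl) (allR_glue (c3_1_270) (c3_1_271) rfl) rfl) rfl) rfl) rfl) rfl) (allR_glue (allR_glue (allR_glue (allR_glue (allR_glue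 (c3_1_272) (allR_glue (c3_1_273) (c3_1_274) rfl) rfl) (allR_glue (c3_1_275) (allR_glue (c3_1_276) (c3_1_277) rfl) rfl) rfl) (allR_glue (allR_glue (c3_1_278) (allR_glue (c3_1_279) (c3_1_280) rfl) rfl) (allR_glue (allR_glue (c3_1_281) (c3_1_282) rfl) (allR_glue (c3_1_283) (c3_1_284) rfl) rfl) rfl) rfl) (allR_glue (allR_glue (allR_glue (c3_1_285) (allR_glue (c3_1_286) (c3_1_287) rfl) rfl) (allR_glue (allR_glue (c3_1_288) (c3_1_289) rfl) (allR_glue (c3_1_290) (c3_1_291) rfl) rfl) rfl) (allR_glue (allR_glue (c3_1_292) (allR_glue (c3_1_293) (c3_1_294) rfl) rfl) (allR_glue (allR_glue (c3_1_295) (c3_1_296) rfl) (allR_glue (c3_1_297) (c3_1_298) rfl) rfl) rfl) rfl) rfl) (allR_glue (allR_glue (allR_glue (allR_glue (c3_1_299) (allR_glue (c3_1_300) (c3_1_301) rfl) rfl) (allR_glue (allR_glue (c3_1_302) (c3_1_303) rfl) (allR_glue (c3_1_304) (c3_1_305) rfl) rfl) rfl) (allR_glue (allR_glue (c3_1_306) (allR_glue (c3_1_307)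 (c3_1_308) rfl) rfl) (allR_glue (allR_glue (c3_1_309) (c3_1_310) rfl) (allR_glue (c3_1_311) (c3_1_312) rfl) rfl) rfl) rfl) (allR_glue (allR_glue (allR_glue (c3_1_313) (allR_glue (c3_1_314) (c3_1_315) rfl) rfl) (allR_glue (allR_glue (c3_1_316) (c3_1_317) rfl) (allR_glue (c3_1_318) (c3_1_319) rfl) rfl) rfl) (allR_glue (allR_glue (c3_1_320) (allR_glue (c3_1_321) (c3_1_322) rfl) rfl) (allR_glue (allR_glue (c3_1_323) (c3_1_324) rfl) (allR_glue (c3_1_325) (c3_1_326) rfl) rfl) rfl) rfl) rfl) rfl) rfl) (allR_glue (allR_glue (allR_glue (allR_glue (allR_glue (allR_glue (c3_1_327) (allR_glue (c3_1_328) (c3_1_329) rfl) rfl) (allR_glue (c3_1_330) (allR_glue (c3_1_331) (c3_1_332) rfl) rfl) rfl) (allR_glue (allR_glue (c3_1_333) (allR_glue (c3_1_334) (c3_1_335) rfl) rfl) (allR_glue (allR_glue (c3_1_336) (c3_1_337) rfl) (allR_glue (c3_1_338) (c3_1_339) rfl) rfl) rfl) rfl) (allR_glue (allR_glue (allR_glue (c3_1_340) (allR_glue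 (c3_1_341) (c3_1_342) rfl) rfl) (allR_glue (allR_glue (c3_1_343) (c3_1_344) rfl) (allR_glue (c3_1_345) (c3_1_346) rfl) rfl) rfl) (allR_glue (allR_glue (c3_1_347) (allR_glue (c3_1_348) (c3_1_349) rfl) rfl) (allR_glue (allR_glue (c3_1_350) (c3_1_351) rfl) (allR_glue (c3_1_352) (c3_1_353) rfl) rfl) rfl) rfl) rfl) (allR_glue (allR_glue (allR_glue (allR_glue (c3_1_354) (allR_glue (c3_1_355) (c3_1_356) rfl) rfl) (allR_glue (allR_glue (c3_1_357) (c3_1_358) rfl) (allR_glue (c3_1_359) (c3_1_360) rfl) rfl) rfl) (allR_glue (allR_glue (c3_1_361) (allR_glue (c3_1_362) (c3_1_363) rfl) rfl) (allR_glue (allR_glue (c3_1_364) (c3_1_365) rfl) (allR_glue (c3_1_366) (c3_1_367) rfl) rfl) rfl) rfl) (allR_glue (allR_glue (allR_glue (c3_1_368) (allR_glue (c3_1_369) (c3_1_370) rfl) rfl) (allR_glue (allR_glue (c3_1_371) (c3_1_372) rfl) (allR_glue (c3_1_373) (c3_1_374) rfl) rfl) rfl) (allR_glue (allR_glue (c3_1_375) (allR_glue (c3_1_376)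 (c3_1_377) rfl) rfl) (allR_glue (allR_glue (c3_1_378) (c3_1_379) rfl) (allR_glue (c3_1_380) (c3_1_381) rfl) rfl) rfl) rfl) rfl) rfl) (allR_glue (allR_glue (allR_glue (allR_glue (allR_glue (c3_1_382) (allR_glue (c3_1_383) (c3_1_384) rfl) rfl) (allR_glue (c3_1_385) (allR_glue (c3_1_386) (c3_1_387) rfl) rfl) rfl) (allR_glue (allR_glue (c3_1_388) (allR_glue (c3_1_389) (c3_1_390) rfl) rfl) (allR_glue (allR_glue (c3_1_391) (c3_1_392) rfl) (allR_glue (c3_1_393) (c3_1_394) rfl) rfl) rfl) rfl) (allR_glue (allR_glue (allR_glue (c3_1_395) (allR_glue (c3_1_396) (c3_1_397) rfl) rfl) (allR_glue (allR_glue (c3_1_398) (c3_1_399) rfl) (allR_glue (c3_1_400) (c3_1_401) rfl) rfl) rfl) (allR_glue (allR_glue (c3_1_402) (allR_glue (c3_1_403) (c3_1_404) rfl) rfl) (allR_glue (allR_glue (c3_1_405) (c3_1_406) rfl) (allR_glue (c3_1_407) (c3_1_408) rfl) rfl) rfl) rfl) rfl) (allR_glue (allR_glue (allR_glue (allR_glue (c3_1_409) (allR_glue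 (c3_1_410) (c3_1_411) rfl) rfl) (allR_glue (allR_glue (c3_1_412) (c3_1_413) rfl) (allR_glue (c3_1_414) (c3_1_415) rfl) rfl) rfl) (allR_glue (allR_glue (c3_1_416) (allR_glue (c3_1_417) (c3_1_418) rfl) rfl) (allR_glue (allR_glue (c3_1_419) (c3_1_420) rfl) (allR_glue (c3_1_421) (c3_1_422) rfl) rfl) rfl) rfl) (allR_glue (allR_glue (allR_glue (c3_1_423) (allR_glue (c3_1_424) (c3_1_425) rfl) rfl) (allR_glue (allR_glue (c3_1_426) (c3_1_427) rfl) (allR_glue (c3_1_428) (c3_1_429) rfl) rfl) rfl) (allR_glue (allR_glue (c3_1_430) (allR_glue (c3_1_431) (c3_1_432) rfl) rfl) (allR_glue (allR_glue (c3_1_433) (c3_1_434) rfl) (allR_glue (c3_1_435) (c3_1_436) rfl) rfl) rfl) rfl) rfl) rfl) rfl) rfl) rfl) rfl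

theorem all_c3_2 : ∀ x, x < N → (compatChk t2 l3) x = true :=
  of_chain (allR_glue (allR_glue (allR_glue (allR_glue (allR_glue (allR_glue (allR_glue (allR_glue (c3_2_0) (allR_glue (c3_2_1) (c3_2_2) rfl) rfl) (allR_glue (c3_2_3) (allR_glue (c3_2_4) (c3_2_5) rfl) rfl) rfl) (allR_glue (allR_glue (c3_2_6) (allR_glue (c3_2_7) (c3_2_8) rfl) rfl) (allR_glue (allR_glue (c3_2_9) (c3_2_10) rfl) (allR_glue (c3_2_11) (c3_2_12) rfl) rfl) rfl) rfl) (allR_glue (allR_glue (allR_glue (c3_2_13) (allR_glue (c3_2_14) (c3_2_15) rfl) rfl) (allR_glue (allR_glue (c3_2_16) (c3_2_17) rfl) (allR_glue (c3_2_18) (c3_2_19) rfl) rfl) rfl) (allR_glue (allR_glue (c3_2_20) (allR_glue (c3_2_21) (c3_2_22) rfl) rfl) (allR_glue (allR_glue (c3_2_23) (c3_2_24) rfl) (allR_glue (c3_2_25) (c3_2_26) rfl) rfl) rfl) rfl) rfl) (allR_glue (allR_glue (allR_glue (allR_glue (c3_2_27) (allR_glue (c3_2_28) (c3_2_29) rfl) rfl) (allR_glue (c3_2_30) (allR_glue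 (c3_2_31) (c3_2_32) rfl) rfl) rfl) (allR_glue (allR_glue (c3_2_33) (allR_glue (c3_2_34) (c3_2_35) rfl) rfl) (allR_glue (allR_glue (c3_2_36) (c3_2_37) rfl) (allR_glue (c3_2_38) (c3_2_39) rfl) rfl) rfl) rfl) (allR_glue (allR_glue (allR_glue (c3_2_40) (allR_glue (c3_2_41) (c3_2_42) rfl) rfl) (allR_glue (allR_glue (c3_2_43) (c3_2_44) rfl) (allR_glue (c3_2_45) (c3_2_46) rfl) rfl) rfl) (allR_glue (allR_glue (c3_2_47) (allR_glue (c3_2_48) (c3_2_49) rfl) rfl) (allR_glue (allR_glue (c3_2_50) (c3_2_51) rfl) (allR_glue (c3_2_52) (c3_2_53) rfl) rfl) rfl) rfl) rfl) rfl) (allR_glue (allR_glue (allR_glue (allR_glue (allR_glue (c3_2_54) (allR_glue (c3_2_55) (c3_2_56) rfl) rfl) (allR_glue (c3_2_57) (allR_glue (c3_2_58) (c3_2_59) rfl) rfl) rfl) (allR_glue (allR_glue (c3_2_60) (allR_glue (c3_2_61) (c3_2_62) rfl) rfl) (allR_glue (allR_glue (c3_2_63) (c3_2_64) rfl) (allR_glue (c3_2_65) (c3_2_66) rfl) rfl) rfl) rfl) (allR_glue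 (allR_glue (allR_glue (c3_2_67) (allR_glue (c3_2_68) (c3_2_69) rfl) rfl) (allR_glue (allR_glue (c3_2_70) (c3_2_71) rfl) (allR_glue (c3_2_72) (c3_2_73) rfl) rfl) rfl) (allR_glue (allR_glue (c3_2_74) (allR_glue (c3_2_75) (c3_2_76) rfl) rfl) (allR_glue (allR_glue (c3_2_77) (c3_2_78) rfl) (allR_glue (c3_2_79) (c3_2_80) rfl) rfl) rfl) rfl) rfl) (allR_glue (allR_glue (allR_glue (allR_glue (c3_2_81) (allR_glue (c3_2_82) (c3_2_83) rfl) rfl) (allR_glue (allR_glue (c3_2_84) (c3_2_85) rfl) (allR_glue (c3_2_86) (c3_2_87) rfl) rfl) rfl) (allR_glue (allR_glue (c3_2_88) (allR_glue (c3_2_89) (c3_2_90) rfl) rfl) (allR_glue (allR_glue (c3_2_91) (c3_2_92) rfl) (allR_glue (c3_2_93) (c3_2_94) rfl) rfl) rfl) rfl) (allR_glue (allR_glue (allR_glue (c3_2_95) (allR_glue (c3_2_96) (c3_2_97) rfl) rfl) (allR_glue (allR_glue (c3_2_98) (c3_2_99) rfl) (allR_glue (c3_2_100) (c3_2_101) rfl) rfl) rfl) (allR_glue (allR_glue (c3_2_102) (allR_glue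 (c3_2_103) (c3_2_104) rfl) rfl) (allR_glue (allR_glue (c3_2_105) (c3_2_106) rfl) (allR_glue (c3_2_107) (c3_2_108) rfl) rfl) rfl) rfl) rfl) rfl) rfl) (allR_glue (allR_glue (allR_glue (allR_glue (allR_glue (allR_glue (c3_2_109) (allR_glue (c3_2_110) (c3_2_111) rfl) rfl) (allR_glue (c3_2_112) (allR_glue (c3_2_113) (c3_2_114) rfl) rfl) rfl) (allR_glue (allR_glue (c3_2_115) (allR_glue (c3_2_116) (c3_2_117) rfl) rfl) (allR_glue (allR_glue (c3_2_118) (c3_2_119) rfl) (allR_glue (c3_2_120) (c3_2_121) rfl) rfl) rfl) rfl) (allR_glue (allR_glue (allR_glue (c3_2_122) (allR_glue (c3_2_123) (c3_2_124) rfl) rfl) (allR_glue (allR_glue (c3_2_125) (c3_2_126) rfl) (allR_glue (c3_2_127) (c3_2_128) rfl) rfl) rfl) (allR_glue (allR_glue (c3_2_129) (allR_glue (c3_2_130) (c3_2_131) rfl) rfl) (allR_glue (allR_glue (c3_2_132) (c3_2_133) rfl) (allR_glue (c3_2_134) (c3_2_135) rfl) rfl) rfl) rfl) rfl) (allR_glue (allR_glue (allR_glue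 (allR_glue (c3_2_136) (allR_glue (c3_2_137) (c3_2_138) rfl) rfl) (allR_glue (c3_2_139) (allR_glue (c3_2_140) (c3_2_141) rfl) rfl) rfl) (allR_glue (allR_glue (c3_2_142) (allR_glue (c3_2_143) (c3_2_144) rfl) rfl) (allR_glue (allR_glue (c3_2_145) (c3_2_146) rfl) (allR_glue (c3_2_147) (c3_2_148) rfl) rfl) rfl) rfl) (allR_glue (allR_glue (allR_glue (c3_2_149) (allR_glue (c3_2_150) (c3_2_151) rfl) rfl) (allR_glue (allR_glue (c3_2_152) (c3_2_153) rfl) (allR_glue (c3_2_154) (c3_2_155) rfl) rfl) rfl) (allR_glue (allR_glue (c3_2_156) (allR_glue (c3_2_157) (c3_2_158) rfl) rfl) (allR_glue (allR_glue (c3_2_159) (c3_2_160) rfl) (allR_glue (c3_2_161) (c3_2_162) rfl) rfl) rfl) rfl) rfl) rfl) (allR_glue (allR_glue (allR_glue (allR_glue (allR_glue (c3_2_163) (allR_glue (c3_2_164) (c3_2_165) rfl) rfl) (allR_glue (c3_2_166) (allR_glue (c3_2_167) (c3_2_168) rfl) rfl) rfl) (allR_glue (allR_glue (c3_2_169) (allR_glue (c3_2_170)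 (c3_2_171) rfl) rfl) (allR_glue (allR_glue (c3_2_172) (c3_2_173) rfl) (allR_glue (c3_2_174) (c3_2_175) rfl) rfl) rfl) rfl) (allR_glue (allR_glue (allR_glue (c3_2_176) (allR_glue (c3_2_177) (c3_2_178) rfl) rfl) (allR_glue (allR_glue (c3_2_179) (c3_2_180) rfl) (allR_glue (c3_2_181) (c3_2_182) rfl) rfl) rfl) (allR_glue (allR_glue (c3_2_183) (allR_glue (c3_2_184) (c3_2_185) rfl) rfl) (allR_glue (allR_glue (c3_2_186) (c3_2_187) rfl) (allR_glue (c3_2_188) (c3_2_189) rfl) rfl) rfl) rfl) rfl) (allR_glue (allR_glue (allR_glue (allR_glue (c3_2_190) (allR_glue (c3_2_191) (c3_2_192) rfl) rfl) (allR_glue (allR_glue (c3_2_193) (c3_2_194) rfl) (allR_glue (c3_2_195) (c3_2_196) rfl) rfl) rfl) (allR_glue (allR_glue (c3_2_197) (allR_glue (c3_2_198) (c3_2_199) rfl) rfl) (allR_glue (allR_glue (c3_2_200) (c3_2_201) rfl) (allR_glue (c3_2_202) (c3_2_203) rfl) rfl) rfl) rfl) (allR_glue (allR_glue (allR_glue (c3_2_204) (allR_glue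 (c3_2_205) (c3_2_206) rfl) rfl) (allR_glue (allR_glue (c3_2_207) (c3_2_208) rfl) (allR_glue (c3_2_209) (c3_2_210) rfl) rfl) rfl) (allR_glue (allR_glue (c3_2_211) (allR_glue (c3_2_212) (c3_2_213) rfl) rfl) (allR_glue (allR_glue (c3_2_214) (c3_2_215) rfl) (allR_glue (c3_2_216) (c3_2_217) rfl) rfl) rfl) rfl) rfl) rfl) rfl) rfl) (allR_glue (allR_glue (allR_glue (allR_glue (allR_glue (allR_glue (allR_glue (c3_2_218) (allR_glue (c3_2_219) (c3_2_220) rfl) rfl) (allR_glue (c3_2_221) (allR_glue (c3_2_222) (c3_2_223) rfl) rfl) rfl) (allR_glue (allR_glue (c3_2_224) (allR_glue (c3_2_225) (c3_2_226) rfl) rfl) (allR_glue (allR_glue (c3_2_227) (c3_2_228) rfl) (allR_glue (c3_2_229) (c3_2_230) rfl) rfl) rfl) rfl) (allR_glue (allR_glue (allR_glue (c3_2_231) (allR_glue (c3_2_232) (c3_2_233) rfl) rfl) (allR_glue (allR_glue (c3_2_234) (c3_2_235) rfl) (allR_glue (c3_2_236) (c3_2_237) rfl) rfl) rfl) (allR_glue (allR_glue (c3_2_238)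 (allR_glue (c3_2_239) (c3_2_240) rfl) rfl) (allR_glue (allR_glue (c3_2_241) (c3_2_242) rfl) (allR_glue (c3_2_243) (c3_2_244) rfl) rfl) rfl) rfl) rfl) (allR_glue (allR_glue (allR_glue (allR_glue (c3_2_245) (allR_glue (c3_2_246) (c3_2_247) rfl) rfl) (allR_glue (c3_2_248) (allR_glue (c3_2_249) (c3_2_250) rfl) rfl) rfl) (allR_glue (allR_glue (c3_2_251) (allR_glue (c3_2_252) (c3_2_253) rfl) rfl) (allR_glue (allR_glue (c3_2_254) (c3_2_255) rfl) (allR_glue (c3_2_256) (c3_2_257) rfl) rfl) rfl) rfl) (allR_glue (allR_glue (allR_glue (c3_2_258) (allR_glue (c3_2_259) (c3_2_260) rfl) rfl) (allR_glue (allR_glue (c3_2_261) (c3_2_262) rfl) (allR_glue (c3_2_263) (c3_2_264) rfl) rfl) rfl) (allR_glue (allR_glue (c3_2_265) (allR_glue (c3_2_266) (c3_2_267) rfl) rfl) (allR_glue (allR_glue (c3_2_268) (c3_2_269) rfl) (allR_glue (c3_2_270) (c3_2_271) rfl) rfl) rfl) rfl) rfl) rfl) (allR_glue (allR_glue (allR_glue (allR_glue (allR_glue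 (c3_2_272) (allR_glue (c3_2_273) (c3_2_274) rfl) rfl) (allR_glue (c3_2_275) (allR_glue (c3_2_276) (c3_2_277) rfl) rfl) rfl) (allR_glue (allR_glue (c3_2_278) (allR_glue (c3_2_279) (c3_2_280) rfl) rfl) (allR_glue (allR_glue (c3_2_281) (c3_2_282) rfl) (allR_glue (c3_2_283) (c3_2_284) rfl) rfl) rfl) rfl) (allR_glue (allR_glue (allR_glue (c3_2_285) (allR_glue (c3_2_286) (c3_2_287) rfl) rfl) (allR_glue (allR_glue (c3_2_288) (c3_2_289) rfl) (allR_glue (c3_2_290) (c3_2_291) rfl) rfl) rfl) (allR_glue (allR_glue (c3_2_292) (allR_glue (c3_2_293) (c3_2_294) rfl) rfl) (allR_glue (allR_glue (c3_2_295) (c3_2_296) rfl) (allR_glue (c3_2_297) (c3_2_298) rfl) rfl) rfl) rfl) rfl) (allR_glue (allR_glue (allR_glue (allR_glue (c3_2_299) (allR_glue (c3_2_300) (c3_2_301) rfl) rfl) (allR_glue (allR_glue (c3_2_302) (c3_2_303) rfl) (allR_glue (c3_2_304) (c3_2_305) rfl) rfl) rfl) (allR_glue (allR_glue (c3_2_306) (allR_glue (c3_2_307)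 (c3_2_308) rfl) rfl) (allR_glue (allR_glue (c3_2_309) (c3_2_310) rfl) (allR_glue (c3_2_311) (c3_2_312) rfl) rfl) rfl) rfl) (allR_glue (allR_glue (allR_glue (c3_2_313) (allR_glue (c3_2_314) (c3_2_315) rfl) rfl) (allR_glue (allR_glue (c3_2_316) (c3_2_317) rfl) (allR_glue (c3_2_318) (c3_2_319) rfl) rfl) rfl) (allR_glue (allR_glue (c3_2_320) (allR_glue (c3_2_321) (c3_2_322) rfl) rfl) (allR_glue (allR_glue (c3_2_323) (c3_2_324) rfl) (allR_glue (c3_2_325) (c3_2_326) rfl) rfl) rfl) rfl) rfl) rfl) rfl) (allR_glue (allR_glue (allR_glue (allR_glue (allR_glue (allR_glue (c3_2_327) (allR_glue (c3_2_328) (c3_2_329) rfl) rfl) (allR_glue (c3_2_330) (allR_glue (c3_2_331) (c3_2_332) rfl) rfl) rfl) (allR_glue (allR_glue (c3_2_333) (allR_glue (c3_2_334) (c3_2_335) rfl) rfl) (allR_glue (allR_glue (c3_2_336) (c3_2_337) rfl) (allR_glue (c3_2_338) (c3_2_339) rfl) rfl) rfl) rfl) (allR_glue (allR_glue (allR_glue (c3_2_340) (allR_glue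 (c3_2_341) (c3_2_342) rfl) rfl) (allR_glue (allR_glue (c3_2_343) (c3_2_344) rfl) (allR_glue (c3_2_345) (c3_2_346) rfl) rfl) rfl) (allR_glue (allR_glue (c3_2_347) (allR_glue (c3_2_348) (c3_2_349) rfl) rfl) (allR_glue (allR_glue (c3_2_350) (c3_2_351) rfl) (allR_glue (c3_2_352) (c3_2_353) rfl) rfl) rfl) rfl) rfl) (allR_glue (allR_glue (allR_glue (allR_glue (c3_2_354) (allR_glue (c3_2_355) (c3_2_356) rfl) rfl) (allR_glue (allR_glue (c3_2_357) (c3_2_358) rfl) (allR_glue (c3_2_359) (c3_2_360) rfl) rfl) rfl) (allR_glue (allR_glue (c3_2_361) (allR_glue (c3_2_362) (c3_2_363) rfl) rfl) (allR_glue (allR_glue (c3_2_364) (c3_2_365) rfl) (allR_glue (c3_2_366) (c3_2_367) rfl) rfl) rfl) rfl) (allR_glue (allR_glue (allR_glue (c3_2_368) (allR_glue (c3_2_369) (c3_2_370) rfl) rfl) (allR_glue (allR_glue (c3_2_371) (c3_2_372) rfl) (allR_glue (c3_2_373) (c3_2_374) rfl) rfl) rfl) (allR_glue (allR_glue (c3_2_375) (allR_glue (c3_2_376)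 (c3_2_377) rfl) rfl) (allR_glue (allR_glue (c3_2_378) (c3_2_379) rfl) (allR_glue (c3_2_380) (c3_2_381) rfl) rfl) rfl) rfl) rfl) rfl) (allR_glue (allR_glue (allR_glue (allR_glue (allR_glue (c3_2_382) (allR_glue (c3_2_383) (c3_2_384) rfl) rfl) (allR_glue (c3_2_385) (allR_glue (c3_2_386) (c3_2_387) rfl) rfl) rfl) (allR_glue (allR_glue (c3_2_388) (allR_glue (c3_2_389) (c3_2_390) rfl) rfl) (allR_glue (allR_glue (c3_2_391) (c3_2_392) rfl) (allR_glue (c3_2_393) (c3_2_394) rfl) rfl) rfl) rfl) (allR_glue (allR_glue (allR_glue (c3_2_395) (allR_glue (c3_2_396) (c3_2_397) rfl) rfl) (allR_glue (allR_glue (c3_2_398) (c3_2_399) rfl) (allR_glue (c3_2_400) (c3_2_401) rfl) rfl) rfl) (allR_glue (allR_glue (c3_2_402) (allR_glue (c3_2_403) (c3_2_404) rfl) rfl) (allR_glue (allR_glue (c3_2_405) (c3_2_406) rfl) (allR_glue (c3_2_407) (c3_2_408) rfl) rfl) rfl) rfl) rfl) (allR_glue (allR_glue (allR_glue (allR_glue (c3_2_409) (allR_glue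 (c3_2_410) (c3_2_411) rfl) rfl) (allR_glue (allR_glue (c3_2_412) (c3_2_413) rfl) (allR_glue (c3_2_414) (c3_2_415) rfl) rfl) rfl) (allR_glue (allR_glue (c3_2_416) (allR_glue (c3_2_417) (c3_2_418) rfl) rfl) (allR_glue (allR_glue (c3_2_419) (c3_2_420) rfl) (allR_glue (c3_2_421) (c3_2_422) rfl) rfl) rfl) rfl) (allR_glue (allR_glue (allR_glue (c3_2_423) (allR_glue (c3_2_424) (c3_2_425) rfl) rfl) (allR_glue (allR_glue (c3_2_426) (c3_2_427) rfl) (allR_glue (c3_2_428) (c3_2_429) rfl) rfl) rfl) (allR_glue (allR_glue (c3_2_430) (allR_glue (c3_2_431) (c3_2_432) rfl) rfl) (allR_glue (allR_glue (c3_2_433) (c3_2_434) rfl) (allR_glue (c3_2_435) (c3_2_436) rfl) rfl) rfl) rfl) rfl) rfl) rfl) rfl) rfl) rfl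

theorem all_c4_0 : ∀ x, x < N → (compatChk t0 l4) x = true :=
  of_chain (allR_glue (allR_glue (allR_glue (allR_glue (allR_glue (allR_glue (allR_glue (allR_glue (c4_0_0) (allR_glue (c4_0_1) (c4_0_2) rfl) rfl) (allR_glue (c4_0_3) (allR_glue (c4_0_4) (c4_0_5) rfl) rfl) rfl) (allR_glue (allR_glue (c4_0_6) (allR_glue (c4_0_7) (c4_0_8) rfl) rfl) (allR_glue (allR_glue (c4_0_9) (c4_0_10) rfl) (allR_glue (c4_0_11) (c4_0_12) rfl) rfl) rfl) rfl) (allR_glue (allR_glue (allR_glue (c4_0_13) (allR_glue (c4_0_14) (c4_0_15) rfl) rfl) (allR_glue (allR_glue (c4_0_16) (c4_0_17) rfl) (allR_glue (c4_0_18) (c4_0_19) rfl) rfl) rfl) (allR_glue (allR_glue (c4_0_20) (allR_glue (c4_0_21) (c4_0_22) rfl) rfl) (allR_glue (allR_glue (c4_0_23) (c4_0_24) rfl) (allR_glue (c4_0_25) (c4_0_26) rfl) rfl) rfl) rfl) rfl) (allR_glue (allR_glue (allR_glue (allR_glue (c4_0_27) (allR_glue (c4_0_28) (c4_0_29) rfl) rfl) (allR_glue (c4_0_30) (allR_glue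 (c4_0_31) (c4_0_32) rfl) rfl) rfl) (allR_glue (allR_glue (c4_0_33) (allR_glue (c4_0_34) (c4_0_35) rfl) rfl) (allR_glue (allR_glue (c4_0_36) (c4_0_37) rfl) (allR_glue (c4_0_38) (c4_0_39) rfl) rfl) rfl) rfl) (allR_glue (allR_glue (allR_glue (c4_0_40) (allR_glue (c4_0_41) (c4_0_42) rfl) rfl) (allR_glue (allR_glue (c4_0_43) (c4_0_44) rfl) (allR_glue (c4_0_45) (c4_0_46) rfl) rfl) rfl) (allR_glue (allR_glue (c4_0_47) (allR_glue (c4_0_48) (c4_0_49) rfl) rfl) (allR_glue (allR_glue (c4_0_50) (c4_0_51) rfl) (allR_glue (c4_0_52) (c4_0_53) rfl) rfl) rfl) rfl) rfl) rfl) (allR_glue (allR_glue (allR_glue (allR_glue (allR_glue (c4_0_54) (allR_glue (c4_0_55) (c4_0_56) rfl) rfl) (allR_glue (c4_0_57) (allR_glue (c4_0_58) (c4_0_59) rfl) rfl) rfl) (allR_glue (allR_glue (c4_0_60) (allR_glue (c4_0_61) (c4_0_62) rfl) rfl) (allR_glue (allR_glue (c4_0_63) (c4_0_64) rfl) (allR_glue (c4_0_65) (c4_0_66) rfl) rfl) rfl) rfl) (allR_glue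 (allR_glue (allR_glue (c4_0_67) (allR_glue (c4_0_68) (c4_0_69) rfl) rfl) (allR_glue (allR_glue (c4_0_70) (c4_0_71) rfl) (allR_glue (c4_0_72) (c4_0_73) rfl) rfl) rfl) (allR_glue (allR_glue (c4_0_74) (allR_glue (c4_0_75) (c4_0_76) rfl) rfl) (allR_glue (allR_glue (c4_0_77) (c4_0_78) rfl) (allR_glue (c4_0_79) (c4_0_80) rfl) rfl) rfl) rfl) rfl) (allR_glue (allR_glue (allR_glue (allR_glue (c4_0_81) (allR_glue (c4_0_82) (c4_0_83) rfl) rfl) (allR_glue (allR_glue (c4_0_84) (c4_0_85) rfl) (allR_glue (c4_0_86) (c4_0_87) rfl) rfl) rfl) (allR_glue (allR_glue (c4_0_88) (allR_glue (c4_0_89) (c4_0_90) rfl) rfl) (allR_glue (allR_glue (c4_0_91) (c4_0_92) rfl) (allR_glue (c4_0_93) (c4_0_94) rfl) rfl) rfl) rfl) (allR_glue (allR_glue (allR_glue (c4_0_95) (allR_glue (c4_0_96) (c4_0_97) rfl) rfl) (allR_glue (allR_glue (c4_0_98) (c4_0_99) rfl) (allR_glue (c4_0_100) (c4_0_101) rfl) rfl) rfl) (allR_glue (allR_glue (c4_0_102) (allR_glue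 (c4_0_103) (c4_0_104) rfl) rfl) (allR_glue (allR_glue (c4_0_105) (c4_0_106) rfl) (allR_glue (c4_0_107) (c4_0_108) rfl) rfl) rfl) rfl) rfl) rfl) rfl) (allR_glue (allR_glue (allR_glue (allR_glue (allR_glue (allR_glue (c4_0_109) (allR_glue (c4_0_110) (c4_0_111) rfl) rfl) (allR_glue (c4_0_112) (allR_glue (c4_0_113) (c4_0_114) rfl) rfl) rfl) (allR_glue (allR_glue (c4_0_115) (allR_glue (c4_0_116) (c4_0_117) rfl) rfl) (allR_glue (allR_glue (c4_0_118) (c4_0_119) rfl) (allR_glue (c4_0_120) (c4_0_121) rfl) rfl) rfl) rfl) (allR_glue (allR_glue (allR_glue (c4_0_122) (allR_glue (c4_0_123) (c4_0_124) rfl) rfl) (allR_glue (allR_glue (c4_0_125) (c4_0_126) rfl) (allR_glue (c4_0_127) (c4_0_128) rfl) rfl) rfl) (allR_glue (allR_glue (c4_0_129) (allR_glue (c4_0_130) (c4_0_131) rfl) rfl) (allR_glue (allR_glue (c4_0_132) (c4_0_133) rfl) (allR_glue (c4_0_134) (c4_0_135) rfl) rfl) rfl) rfl) rfl) (allR_glue (allR_glue (allR_glue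 (allR_glue (c4_0_136) (allR_glue (c4_0_137) (c4_0_138) rfl) rfl) (allR_glue (c4_0_139) (allR_glue (c4_0_140) (c4_0_141) rfl) rfl) rfl) (allR_glue (allR_glue (c4_0_142) (allR_glue (c4_0_143) (c4_0_144) rfl) rfl) (allR_glue (allR_glue (c4_0_145) (c4_0_146) rfl) (allR_glue (c4_0_147) (c4_0_148) rfl) rfl) rfl) rfl) (allR_glue (allR_glue (allR_glue (c4_0_149) (allR_glue (c4_0_150) (c4_0_151) rfl) rfl) (allR_glue (allR_glue (c4_0_152) (c4_0_153) rfl) (allR_glue (c4_0_154) (c4_0_155) rfl) rfl) rfl) (allR_glue (allR_glue (c4_0_156) (allR_glue (c4_0_157) (c4_0_158) rfl) rfl) (allR_glue (allR_glue (c4_0_159) (c4_0_160) rfl) (allR_glue (c4_0_161) (c4_0_162) rfl) rfl) rfl) rfl) rfl) rfl) (allR_glue (allR_glue (allR_glue (allR_glue (allR_glue (c4_0_163) (allR_glue (c4_0_164) (c4_0_165) rfl) rfl) (allR_glue (c4_0_166) (allR_glue (c4_0_167) (c4_0_168) rfl) rfl) rfl) (allR_glue (allR_glue (c4_0_169) (allR_glue (c4_0_170)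 (c4_0_171) rfl) rfl) (allR_glue (allR_glue (c4_0_172) (c4_0_173) rfl) (allR_glue (c4_0_174) (c4_0_175) rfl) rfl) rfl) rfl) (allR_glue (allR_glue (allR_glue (c4_0_176) (allR_glue (c4_0_177) (c4_0_178) rfl) rfl) (allR_glue (allR_glue (c4_0_179) (c4_0_180) rfl) (allR_glue (c4_0_181) (c4_0_182) rfl) rfl) rfl) (allR_glue (allR_glue (c4_0_183) (allR_glue (c4_0_184) (c4_0_185) rfl) rfl) (allR_glue (allR_glue (c4_0_186) (c4_0_187) rfl) (allR_glue (c4_0_188) (c4_0_189) rfl) rfl) rfl) rfl) rfl) (allR_glue (allR_glue (allR_glue (allR_glue (c4_0_190) (allR_glue (c4_0_191) (c4_0_192) rfl) rfl) (allR_glue (allR_glue (c4_0_193) (c4_0_194) rfl) (allR_glue (c4_0_195) (c4_0_196) rfl) rfl) rfl) (allR_glue (allR_glue (c4_0_197) (allR_glue (c4_0_198) (c4_0_199) rfl) rfl) (allR_glue (allR_glue (c4_0_200) (c4_0_201) rfl) (allR_glue (c4_0_202) (c4_0_203) rfl) rfl) rfl) rfl) (allR_glue (allR_glue (allR_glue (c4_0_204) (allR_glue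 (c4_0_205) (c4_0_206) rfl) rfl) (allR_glue (allR_glue (c4_0_207) (c4_0_208) rfl) (allR_glue (c4_0_209) (c4_0_210) rfl) rfl) rfl) (allR_glue (allR_glue (c4_0_211) (allR_glue (c4_0_212) (c4_0_213) rfl) rfl) (allR_glue (allR_glue (c4_0_214) (c4_0_215) rfl) (allR_glue (c4_0_216) (c4_0_217) rfl) rfl) rfl) rfl) rfl) rfl) rfl) rfl) (allR_glue (allR_glue (allR_glue (allR_glue (allR_glue (allR_glue (allR_glue (c4_0_218) (allR_glue (c4_0_219) (c4_0_220) rfl) rfl) (allR_glue (c4_0_221) (allR_glue (c4_0_222) (c4_0_223) rfl) rfl) rfl) (allR_glue (allR_glue (c4_0_224) (allR_glue (c4_0_225) (c4_0_226) rfl) rfl) (allR_glue (allR_glue (c4_0_227) (c4_0_228) rfl) (allR_glue (c4_0_229) (c4_0_230) rfl) rfl) rfl) rfl) (allR_glue (allR_glue (allR_glue (c4_0_231) (allR_glue (c4_0_232) (c4_0_233) rfl) rfl) (allR_glue (allR_glue (c4_0_234) (c4_0_235) rfl) (allR_glue (c4_0_236) (c4_0_237) rfl) rfl) rfl) (allR_glue (allR_glue (c4_0_238)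 (allR_glue (c4_0_239) (c4_0_240) rfl) rfl) (allR_glue (allR_glue (c4_0_241) (c4_0_242) rfl) (allR_glue (c4_0_243) (c4_0_244) rfl) rfl) rfl) rfl) rfl) (allR_glue (allR_glue (allR_glue (allR_glue (c4_0_245) (allR_glue (c4_0_246) (c4_0_247) rfl) rfl) (allR_glue (c4_0_248) (allR_glue (c4_0_249) (c4_0_250) rfl) rfl) rfl) (allR_glue (allR_glue (c4_0_251) (allR_glue (c4_0_252) (c4_0_253) rfl) rfl) (allR_glue (allR_glue (c4_0_254) (c4_0_255) rfl) (allR_glue (c4_0_256) (c4_0_257) rfl) rfl) rfl) rfl) (allR_glue (allR_glue (allR_glue (c4_0_258) (allR_glue (c4_0_259) (c4_0_260) rfl) rfl) (allR_glue (allR_glue (c4_0_261) (c4_0_262) rfl) (allR_glue (c4_0_263) (c4_0_264) rfl) rfl) rfl) (allR_glue (allR_glue (c4_0_265) (allR_glue (c4_0_266) (c4_0_267) rfl) rfl) (allR_glue (allR_glue (c4_0_268) (c4_0_269) rfl) (allR_glue (c4_0_270) (c4_0_271) rfl) rfl) rfl) rfl) rfl) rfl) (allR_glue (allR_glue (allR_glue (allR_glue (allR_glue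 (c4_0_272) (allR_glue (c4_0_273) (c4_0_274) rfl) rfl) (allR_glue (c4_0_275) (allR_glue (c4_0_276) (c4_0_277) rfl) rfl) rfl) (allR_glue (allR_glue (c4_0_278) (allR_glue (c4_0_279) (c4_0_280) rfl) rfl) (allR_glue (allR_glue (c4_0_281) (c4_0_282) rfl) (allR_glue (c4_0_283) (c4_0_284) rfl) rfl) rfl) rfl) (allR_glue (allR_glue (allR_glue (c4_0_285) (allR_glue (c4_0_286) (c4_0_287) rfl) rfl) (allR_glue (allR_glue (c4_0_288) (c4_0_289) rfl) (allR_glue (c4_0_290) (c4_0_291) rfl) rfl) rfl) (allR_glue (allR_glue (c4_0_292) (allR_glue (c4_0_293) (c4_0_294) rfl) rfl) (allR_glue (allR_glue (c4_0_295) (c4_0_296) rfl) (allR_glue (c4_0_297) (c4_0_298) rfl) rfl) rfl) rfl) rfl) (allR_glue (allR_glue (allR_glue (allR_glue (c4_0_299) (allR_glue (c4_0_300) (c4_0_301) rfl) rfl) (allR_glue (allR_glue (c4_0_302) (c4_0_303) rfl) (allR_glue (c4_0_304) (c4_0_305) rfl) rfl) rfl) (allR_glue (allR_glue (c4_0_306) (allR_glue (c4_0_307)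 (c4_0_308) rfl) rfl) (allR_glue (allR_glue (c4_0_309) (c4_0_310) rfl) (allR_glue (c4_0_311) (c4_0_312) rfl) rfl) rfl) rfl) (allR_glue (allR_glue (allR_glue (c4_0_313) (allR_glue (c4_0_314) (c4_0_315) rfl) rfl) (allR_glue (allR_glue (c4_0_316) (c4_0_317) rfl) (allR_glue (c4_0_318) (c4_0_319) rfl) rfl) rfl) (allR_glue (allR_glue (c4_0_320) (allR_glue (c4_0_321) (c4_0_322) rfl) rfl) (allR_glue (allR_glue (c4_0_323) (c4_0_324) rfl) (allR_glue (c4_0_325) (c4_0_326) rfl) rfl) rfl) rfl) rfl) rfl) rfl) (allR_glue (allR_glue (allR_glue (allR_glue (allR_glue (allR_glue (c4_0_327) (allR_glue (c4_0_328) (c4_0_329) rfl) rfl) (allR_glue (c4_0_330) (allR_glue (c4_0_331) (c4_0_332) rfl) rfl) rfl) (allR_glue (allR_glue (c4_0_333) (allR_glue (c4_0_334) (c4_0_335) rfl) rfl) (allR_glue (allR_glue (c4_0_336) (c4_0_337) rfl) (allR_glue (c4_0_338) (c4_0_339) rfl) rfl) rfl) rfl) (allR_glue (allR_glue (allR_glue (c4_0_340) (allR_glue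 (c4_0_341) (c4_0_342) rfl) rfl) (allR_glue (allR_glue (c4_0_343) (c4_0_344) rfl) (allR_glue (c4_0_345) (c4_0_346) rfl) rfl) rfl) (allR_glue (allR_glue (c4_0_347) (allR_glue (c4_0_348) (c4_0_349) rfl) rfl) (allR_glue (allR_glue (c4_0_350) (c4_0_351) rfl) (allR_glue (c4_0_352) (c4_0_353) rfl) rfl) rfl) rfl) rfl) (allR_glue (allR_glue (allR_glue (allR_glue (c4_0_354) (allR_glue (c4_0_355) (c4_0_356) rfl) rfl) (allR_glue (allR_glue (c4_0_357) (c4_0_358) rfl) (allR_glue (c4_0_359) (c4_0_360) rfl) rfl) rfl) (allR_glue (allR_glue (c4_0_361) (allR_glue (c4_0_362) (c4_0_363) rfl) rfl) (allR_glue (allR_glue (c4_0_364) (c4_0_365) rfl) (allR_glue (c4_0_366) (c4_0_367) rfl) rfl) rfl) rfl) (allR_glue (allR_glue (allR_glue (c4_0_368) (allR_glue (c4_0_369) (c4_0_370) rfl) rfl) (allR_glue (allR_glue (c4_0_371) (c4_0_372) rfl) (allR_glue (c4_0_373) (c4_0_374) rfl) rfl) rfl) (allR_glue (allR_glue (c4_0_375) (allR_glue (c4_0_376)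 (c4_0_377) rfl) rfl) (allR_glue (allR_glue (c4_0_378) (c4_0_379) rfl) (allR_glue (c4_0_380) (c4_0_381) rfl) rfl) rfl) rfl) rfl) rfl) (allR_glue (allR_glue (allR_glue (allR_glue (allR_glue (c4_0_382) (allR_glue (c4_0_383) (c4_0_384) rfl) rfl) (allR_glue (c4_0_385) (allR_glue (c4_0_386) (c4_0_387) rfl) rfl) rfl) (allR_glue (allR_glue (c4_0_388) (allR_glue (c4_0_389) (c4_0_390) rfl) rfl) (allR_glue (allR_glue (c4_0_391) (c4_0_392) rfl) (allR_glue (c4_0_393) (c4_0_394) rfl) rfl) rfl) rfl) (allR_glue (allR_glue (allR_glue (c4_0_395) (allR_glue (c4_0_396) (c4_0_397) rfl) rfl) (allR_glue (allR_glue (c4_0_398) (c4_0_399) rfl) (allR_glue (c4_0_400) (c4_0_401) rfl) rfl) rfl) (allR_glue (allR_glue (c4_0_402) (allR_glue (c4_0_403) (c4_0_404) rfl) rfl) (allR_glue (allR_glue (c4_0_405) (c4_0_406) rfl) (allR_glue (c4_0_407) (c4_0_408) rfl) rfl) rfl) rfl) rfl) (allR_glue (allR_glue (allR_glue (allR_glue (c4_0_409) (allR_glue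 (c4_0_410) (c4_0_411) rfl) rfl) (allR_glue (allR_glue (c4_0_412) (c4_0_413) rfl) (allR_glue (c4_0_414) (c4_0_415) rfl) rfl) rfl) (allR_glue (allR_glue (c4_0_416) (allR_glue (c4_0_417) (c4_0_418) rfl) rfl) (allR_glue (allR_glue (c4_0_419) (c4_0_420) rfl) (allR_glue (c4_0_421) (c4_0_422) rfl) rfl) rfl) rfl) (allR_glue (allR_glue (allR_glue (c4_0_423) (allR_glue (c4_0_424) (c4_0_425) rfl) rfl) (allR_glue (allR_glue (c4_0_426) (c4_0_427) rfl) (allR_glue (c4_0_428) (c4_0_429) rfl) rfl) rfl) (allR_glue (allR_glue (c4_0_430) (allR_glue (c4_0_431) (c4_0_432) rfl) rfl) (allR_glue (allR_glue (c4_0_433) (c4_0_434) rfl) (allR_glue (c4_0_435) (c4_0_436) rfl) rfl) rfl) rfl) rfl) rfl) rfl) rfl) rfl) rfl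

theorem all_c4_1 : ∀ x, x < N → (compatChk t1 l4) x = true :=
  of_chain (allR_glue (allR_glue (allR_glue (allR_glue (allR_glue (allR_glue (allR_glue (allR_glue (c4_1_0) (allR_glue (c4_1_1) (c4_1_2) rfl) rfl) (allR_glue (c4_1_3) (allR_glue (c4_1_4) (c4_1_5) rfl) rfl) rfl) (allR_glue (allR_glue (c4_1_6) (allR_glue (c4_1_7) (c4_1_8) rfl) rfl) (allR_glue (allR_glue (c4_1_9) (c4_1_10) rfl) (allR_glue (c4_1_11) (c4_1_12) rfl) rfl) rfl) rfl) (allR_glue (allR_glue (allR_glue (c4_1_13) (allR_glue (c4_1_14) (c4_1_15) rfl) rfl) (allR_glue (allR_glue (c4_1_16) (c4_1_17) rfl) (allR_glue (c4_1_18) (c4_1_19) rfl) rfl) rfl) (allR_glue (allR_glue (c4_1_20) (allR_glue (c4_1_21) (c4_1_22) rfl) rfl) (allR_glue (allR_glue (c4_1_23) (c4_1_24) rfl) (allR_glue (c4_1_25) (c4_1_26) rfl) rfl) rfl) rfl) rfl) (allR_glue (allR_glue (allR_glue (allR_glue (c4_1_27) (allR_glue (c4_1_28) (c4_1_29) rfl) rfl) (allR_glue (c4_1_30) (allR_glue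 (c4_1_31) (c4_1_32) rfl) rfl) rfl) (allR_glue (allR_glue (c4_1_33) (allR_glue (c4_1_34) (c4_1_35) rfl) rfl) (allR_glue (allR_glue (c4_1_36) (c4_1_37) rfl) (allR_glue (c4_1_38) (c4_1_39) rfl) rfl) rfl) rfl) (allR_glue (allR_glue (allR_glue (c4_1_40) (allR_glue (c4_1_41) (c4_1_42) rfl) rfl) (allR_glue (allR_glue (c4_1_43) (c4_1_44) rfl) (allR_glue (c4_1_45) (c4_1_46) rfl) rfl) rfl) (allR_glue (allR_glue (c4_1_47) (allR_glue (c4_1_48) (c4_1_49) rfl) rfl) (allR_glue (allR_glue (c4_1_50) (c4_1_51) rfl) (allR_glue (c4_1_52) (c4_1_53) rfl) rfl) rfl) rfl) rfl) rfl) (allR_glue (allR_glue (allR_glue (allR_glue (allR_glue (c4_1_54) (allR_glue (c4_1_55) (c4_1_56) rfl) rfl) (allR_glue (c4_1_57) (allR_glue (c4_1_58) (c4_1_59) rfl) rfl) rfl) (allR_glue (allR_glue (c4_1_60) (allR_glue (c4_1_61) (c4_1_62) rfl) rfl) (allR_glue (allR_glue (c4_1_63) (c4_1_64) rfl) (allR_glue (c4_1_65) (c4_1_66) rfl) rfl) rfl) rfl) (allR_glue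 (allR_glue (allR_glue (c4_1_67) (allR_glue (c4_1_68) (c4_1_69) rfl) rfl) (allR_glue (allR_glue (c4_1_70) (c4_1_71) rfl) (allR_glue (c4_1_72) (c4_1_73) rfl) rfl) rfl) (allR_glue (allR_glue (c4_1_74) (allR_glue (c4_1_75) (c4_1_76) rfl) rfl) (allR_glue (allR_glue (c4_1_77) (c4_1_78) rfl) (allR_glue (c4_1_79) (c4_1_80) rfl) rfl) rfl) rfl) rfl) (allR_glue (allR_glue (allR_glue (allR_glue (c4_1_81) (allR_glue (c4_1_82) (c4_1_83) rfl) rfl) (allR_glue (allR_glue (c4_1_84) (c4_1_85) rfl) (allR_glue (c4_1_86) (c4_1_87) rfl) rfl) rfl) (allR_glue (allR_glue (c4_1_88) (allR_glue (c4_1_89) (c4_1_90) rfl) rfl) (allR_glue (allR_glue (c4_1_91) (c4_1_92) rfl) (allR_glue (c4_1_93) (c4_1_94) rfl) rfl) rfl) rfl) (allR_glue (allR_glue (allR_glue (c4_1_95) (allR_glue (c4_1_96) (c4_1_97) rfl) rfl) (allR_glue (allR_glue (c4_1_98) (c4_1_99) rfl) (allR_glue (c4_1_100) (c4_1_101) rfl) rfl) rfl) (allR_glue (allR_glue (c4_1_102) (allR_glue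 (c4_1_103) (c4_1_104) rfl) rfl) (allR_glue (allR_glue (c4_1_105) (c4_1_106) rfl) (allR_glue (c4_1_107) (c4_1_108) rfl) rfl) rfl) rfl) rfl) rfl) rfl) (allR_glue (allR_glue (allR_glue (allR_glue (allR_glue (allR_glue (c4_1_109) (allR_glue (c4_1_110) (c4_1_111) rfl) rfl) (allR_glue (c4_1_112) (allR_glue (c4_1_113) (c4_1_114) rfl) rfl) rfl) (allR_glue (allR_glue (c4_1_115) (allR_glue (c4_1_116) (c4_1_117) rfl) rfl) (allR_glue (allR_glue (c4_1_118) (c4_1_119) rfl) (allR_glue (c4_1_120) (c4_1_121) rfl) rfl) rfl) rfl) (allR_glue (allR_glue (allR_glue (c4_1_122) (allR_glue (c4_1_123) (c4_1_124) rfl) rfl) (allR_glue (allR_glue (c4_1_125) (c4_1_126) rfl) (allR_glue (c4_1_127) (c4_1_128) rfl) rfl) rfl) (allR_glue (allR_glue (c4_1_129) (allR_glue (c4_1_130) (c4_1_131) rfl) rfl) (allR_glue (allR_glue (c4_1_132) (c4_1_133) rfl) (allR_glue (c4_1_134) (c4_1_135) rfl) rfl) rfl) rfl) rfl) (allR_glue (allR_glue (allR_glue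 (allR_glue (c4_1_136) (allR_glue (c4_1_137) (c4_1_138) rfl) rfl) (allR_glue (c4_1_139) (allR_glue (c4_1_140) (c4_1_141) rfl) rfl) rfl) (allR_glue (allR_glue (c4_1_142) (allR_glue (c4_1_143) (c4_1_144) rfl) rfl) (allR_glue (allR_glue (c4_1_145) (c4_1_146) rfl) (allR_glue (c4_1_147) (c4_1_148) rfl) rfl) rfl) rfl) (allR_glue (allR_glue (allR_glue (c4_1_149) (allR_glue (c4_1_150) (c4_1_151) rfl) rfl) (allR_glue (allR_glue (c4_1_152) (c4_1_153) rfl) (allR_glue (c4_1_154) (c4_1_155) rfl) rfl) rfl) (allR_glue (allR_glue (c4_1_156) (allR_glue (c4_1_157) (c4_1_158) rfl) rfl) (allR_glue (allR_glue (c4_1_159) (c4_1_160) rfl) (allR_glue (c4_1_161) (c4_1_162) rfl) rfl) rfl) rfl) rfl) rfl) (allR_glue (allR_glue (allR_glue (allR_glue (allR_glue (c4_1_163) (allR_glue (c4_1_164) (c4_1_165) rfl) rfl) (allR_glue (c4_1_166) (allR_glue (c4_1_167) (c4_1_168) rfl) rfl) rfl) (allR_glue (allR_glue (c4_1_169) (allR_glue (c4_1_170)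 (c4_1_171) rfl) rfl) (allR_glue (allR_glue (c4_1_172) (c4_1_173) rfl) (allR_glue (c4_1_174) (c4_1_175) rfl) rfl) rfl) rfl) (allR_glue (allR_glue (allR_glue (c4_1_176) (allR_glue (c4_1_177) (c4_1_178) rfl) rfl) (allR_glue (allR_glue (c4_1_179) (c4_1_180) rfl) (allR_glue (c4_1_181) (c4_1_182) rfl) rfl) rfl) (allR_glue (allR_glue (c4_1_183) (allR_glue (c4_1_184) (c4_1_185) rfl) rfl) (allR_glue (allR_glue (c4_1_186) (c4_1_187) rfl) (allR_glue (c4_1_188) (c4_1_189) rfl) rfl) rfl) rfl) rfl) (allR_glue (allR_glue (allR_glue (allR_glue (c4_1_190) (allR_glue (c4_1_191) (c4_1_192) rfl) rfl) (allR_glue (allR_glue (c4_1_193) (c4_1_194) rfl) (allR_glue (c4_1_195) (c4_1_196) rfl) rfl) rfl) (allR_glue (allR_glue (c4_1_197) (allR_glue (c4_1_198) (c4_1_199) rfl) rfl) (allR_glue (allR_glue (c4_1_200) (c4_1_201) rfl) (allR_glue (c4_1_202) (c4_1_203) rfl) rfl) rfl) rfl) (allR_glue (allR_glue (allR_glue (c4_1_204) (allR_glue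 (c4_1_205) (c4_1_206) rfl) rfl) (allR_glue (allR_glue (c4_1_207) (c4_1_208) rfl) (allR_glue (c4_1_209) (c4_1_210) rfl) rfl) rfl) (allR_glue (allR_glue (c4_1_211) (allR_glue (c4_1_212) (c4_1_213) rfl) rfl) (allR_glue (allR_glue (c4_1_214) (c4_1_215) rfl) (allR_glue (c4_1_216) (c4_1_217) rfl) rfl) rfl) rfl) rfl) rfl) rfl) rfl) (allR_glue (allR_glue (allR_glue (allR_glue (allR_glue (allR_glue (allR_glue (c4_1_218) (allR_glue (c4_1_219) (c4_1_220) rfl) rfl) (allR_glue (c4_1_221) (allR_glue (c4_1_222) (c4_1_223) rfl) rfl) rfl) (allR_glue (allR_glue (c4_1_224) (allR_glue (c4_1_225) (c4_1_226) rfl) rfl) (allR_glue (allR_glue (c4_1_227) (c4_1_228) rfl) (allR_glue (c4_1_229) (c4_1_230) rfl) rfl) rfl) rfl) (allR_glue (allR_glue (allR_glue (c4_1_231) (allR_glue (c4_1_232) (c4_1_233) rfl) rfl) (allR_glue (allR_glue (c4_1_234) (c4_1_235) rfl) (allR_glue (c4_1_236) (c4_1_237) rfl) rfl) rfl) (allR_glue (allR_glue (c4_1_238)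 (allR_glue (c4_1_239) (c4_1_240) rfl) rfl) (allR_glue (allR_glue (c4_1_241) (c4_1_242) rfl) (allR_glue (c4_1_243) (c4_1_244) rfl) rfl) rfl) rfl) rfl) (allR_glue (allR_glue (allR_glue (allR_glue (c4_1_245) (allR_glue (c4_1_246) (c4_1_247) rfl) rfl) (allR_glue (c4_1_248) (allR_glue (c4_1_249) (c4_1_250) rfl) rfl) rfl) (allR_glue (allR_glue (c4_1_251) (allR_glue (c4_1_252) (c4_1_253) rfl) rfl) (allR_glue (allR_glue (c4_1_254) (c4_1_255) rfl) (allR_glue (c4_1_256) (c4_1_257) rfl) rfl) rfl) rfl) (allR_glue (allR_glue (allR_glue (c4_1_258) (allR_glue (c4_1_259) (c4_1_260) rfl) rfl) (allR_glue (allR_glue (c4_1_261) (c4_1_262) rfl) (allR_glue (c4_1_263) (c4_1_264) rfl) rfl) rfl) (allR_glue (allR_glue (c4_1_265) (allR_glue (c4_1_266) (c4_1_267) rfl) rfl) (allR_glue (allR_glue (c4_1_268) (c4_1_269) rfl) (allR_glue (c4_1_270) (c4_1_271) rfl) rfl) rfl) rfl) rfl) rfl) (allR_glue (allR_glue (allR_glue (allR_glue (allR_glue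 (c4_1_272) (allR_glue (c4_1_273) (c4_1_274) rfl) rfl) (allR_glue (c4_1_275) (allR_glue (c4_1_276) (c4_1_277) rfl) rfl) rfl) (allR_glue (allR_glue (c4_1_278) (allR_glue (c4_1_279) (c4_1_280) rfl) rfl) (allR_glue (allR_glue (c4_1_281) (c4_1_282) rfl) (allR_glue (c4_1_283) (c4_1_284) rfl) rfl) rfl) rfl) (allR_glue (allR_glue (allR_glue (c4_1_285) (allR_glue (c4_1_286) (c4_1_287) rfl) rfl) (allR_glue (allR_glue (c4_1_288) (c4_1_289) rfl) (allR_glue (c4_1_290) (c4_1_291) rfl) rfl) rfl) (allR_glue (allR_glue (c4_1_292) (allR_glue (c4_1_293) (c4_1_294) rfl) rfl) (allR_glue (allR_glue (c4_1_295) (c4_1_296) rfl) (allR_glue (c4_1_297) (c4_1_298) rfl) rfl) rfl) rfl) rfl) (allR_glue (allR_glue (allR_glue (allR_glue (c4_1_299) (allR_glue (c4_1_300) (c4_1_301) rfl) rfl) (allR_glue (allR_glue (c4_1_302) (c4_1_303) rfl) (allR_glue (c4_1_304) (c4_1_305) rfl) rfl) rfl) (allR_glue (allR_glue (c4_1_306) (allR_glue (c4_1_307)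 (c4_1_308) rfl) rfl) (allR_glue (allR_glue (c4_1_309) (c4_1_310) rfl) (allR_glue (c4_1_311) (c4_1_312) rfl) rfl) rfl) rfl) (allR_glue (allR_glue (allR_glue (c4_1_313) (allR_glue (c4_1_314) (c4_1_315) rfl) rfl) (allR_glue (allR_glue (c4_1_316) (c4_1_317) rfl) (allR_glue (c4_1_318) (c4_1_319) rfl) rfl) rfl) (allR_glue (allR_glue (c4_1_320) (allR_glue (c4_1_321) (c4_1_322) rfl) rfl) (allR_glue (allR_glue (c4_1_323) (c4_1_324) rfl) (allR_glue (c4_1_325) (c4_1_326) rfl) rfl) rfl) rfl) rfl) rfl) rfl) (allR_glue (allR_glue (allR_glue (allR_glue (allR_glue (allR_glue (c4_1_327) (allR_glue (c4_1_328) (c4_1_329) rfl) rfl) (allR_glue (c4_1_330) (allR_glue (c4_1_331) (c4_1_332) rfl) rfl) rfl) (allR_glue (allR_glue (c4_1_333) (allR_glue (c4_1_334) (c4_1_335) rfl) rfl) (allR_glue (allR_glue (c4_1_336) (c4_1_337) rfl) (allR_glue (c4_1_338) (c4_1_339) rfl) rfl) rfl) rfl) (allR_glue (allR_glue (allR_glue (c4_1_340) (allR_glue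 (c4_1_341) (c4_1_342) rfl) rfl) (allR_glue (allR_glue (c4_1_343) (c4_1_344) rfl) (allR_glue (c4_1_345) (c4_1_346) rfl) rfl) rfl) (allR_glue (allR_glue (c4_1_347) (allR_glue (c4_1_348) (c4_1_349) rfl) rfl) (allR_glue (allR_glue (c4_1_350) (c4_1_351) rfl) (allR_glue (c4_1_352) (c4_1_353) rfl) rfl) rfl) rfl) rfl) (allR_glue (allR_glue (allR_glue (allR_glue (c4_1_354) (allR_glue (c4_1_355) (c4_1_356) rfl) rfl) (allR_glue (allR_glue (c4_1_357) (c4_1_358) rfl) (allR_glue (c4_1_359) (c4_1_360) rfl) rfl) rfl) (allR_glue (allR_glue (c4_1_361) (allR_glue (c4_1_362) (c4_1_363) rfl) rfl) (allR_glue (allR_glue (c4_1_364) (c4_1_365) rfl) (allR_glue (c4_1_366) (c4_1_367) rfl) rfl) rfl) rfl) (allR_glue (allR_glue (allR_glue (c4_1_368) (allR_glue (c4_1_369) (c4_1_370) rfl) rfl) (allR_glue (allR_glue (c4_1_371) (c4_1_372) rfl) (allR_glue (c4_1_373) (c4_1_374) rfl) rfl) rfl) (allR_glue (allR_glue (c4_1_375) (allR_glue (c4_1_376)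 (c4_1_377) rfl) rfl) (allR_glue (allR_glue (c4_1_378) (c4_1_379) rfl) (allR_glue (c4_1_380) (c4_1_381) rfl) rfl) rfl) rfl) rfl) rfl) (allR_glue (allR_glue (allR_glue (allR_glue (allR_glue (c4_1_382) (allR_glue (c4_1_383) (c4_1_384) rfl) rfl) (allR_glue (c4_1_385) (allR_glue (c4_1_386) (c4_1_387) rfl) rfl) rfl) (allR_glue (allR_glue (c4_1_388) (allR_glue (c4_1_389) (c4_1_390) rfl) rfl) (allR_glue (allR_glue (c4_1_391) (c4_1_392) rfl) (allR_glue (c4_1_393) (c4_1_394) rfl) rfl) rfl) rfl) (allR_glue (allR_glue (allR_glue (c4_1_395) (allR_glue (c4_1_396) (c4_1_397) rfl) rfl) (allR_glue (allR_glue (c4_1_398) (c4_1_399) rfl) (allR_glue (c4_1_400) (c4_1_401) rfl) rfl) rfl) (allR_glue (allR_glue (c4_1_402) (allR_glue (c4_1_403) (c4_1_404) rfl) rfl) (allR_glue (allR_glue (c4_1_405) (c4_1_406) rfl) (allR_glue (c4_1_407) (c4_1_408) rfl) rfl) rfl) rfl) rfl) (allR_glue (allR_glue (allR_glue (allR_glue (c4_1_409) (allR_glue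 (c4_1_410) (c4_1_411) rfl) rfl) (allR_glue (allR_glue (c4_1_412) (c4_1_413) rfl) (allR_glue (c4_1_414) (c4_1_415) rfl) rfl) rfl) (allR_glue (allR_glue (c4_1_416) (allR_glue (c4_1_417) (c4_1_418) rfl) rfl) (allR_glue (allR_glue (c4_1_419) (c4_1_420) rfl) (allR_glue (c4_1_421) (c4_1_422) rfl) rfl) rfl) rfl) (allR_glue (allR_glue (allR_glue (c4_1_423) (allR_glue (c4_1_424) (c4_1_425) rfl) rfl) (allR_glue (allR_glue (c4_1_426) (c4_1_427) rfl) (allR_glue (c4_1_428) (c4_1_429) rfl) rfl) rfl) (allR_glue (allR_glue (c4_1_430) (allR_glue (c4_1_431) (c4_1_432) rfl) rfl) (allR_glue (allR_glue (c4_1_433) (c4_1_434) rfl) (allR_glue (c4_1_435) (c4_1_436) rfl) rfl) rfl) rfl) rfl) rfl) rfl) rfl) rfl) rfl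

theorem all_c4_2 : ∀ x, x < N → (compatChk t2 l4) x = true :=
  of_chain (allR_glue (allR_glue (allR_glue (allR_glue (allR_glue (allR_glue (allR_glue (allR_glue (c4_2_0) (allR_glue (c4_2_1) (c4_2_2) rfl) rfl) (allR_glue (c4_2_3) (allR_glue (c4_2_4) (c4_2_5) rfl) rfl) rfl) (allR_glue (allR_glue (c4_2_6) (allR_glue (c4_2_7) (c4_2_8) rfl) rfl) (allR_glue (allR_glue (c4_2_9) (c4_2_10) rfl) (allR_glue (c4_2_11) (c4_2_12) rfl) rfl) rfl) rfl) (allR_glue (allR_glue (allR_glue (c4_2_13) (allR_glue (c4_2_14) (c4_2_15) rfl) rfl) (allR_glue (allR_glue (c4_2_16) (c4_2_17) rfl) (allR_glue (c4_2_18) (c4_2_19) rfl) rfl) rfl) (allR_glue (allR_glue (c4_2_20) (allR_glue (c4_2_21) (c4_2_22) rfl) rfl) (allR_glue (allR_glue (c4_2_23) (c4_2_24) rfl) (allR_glue (c4_2_25) (c4_2_26) rfl) rfl) rfl) rfl) rfl) (allR_glue (allR_glue (allR_glue (allR_glue (c4_2_27) (allR_glue (c4_2_28) (c4_2_29) rfl) rfl) (allR_glue (c4_2_30) (allR_glue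 (c4_2_31) (c4_2_32) rfl) rfl) rfl) (allR_glue (allR_glue (c4_2_33) (allR_glue (c4_2_34) (c4_2_35) rfl) rfl) (allR_glue (allR_glue (c4_2_36) (c4_2_37) rfl) (allR_glue (c4_2_38) (c4_2_39) rfl) rfl) rfl) rfl) (allR_glue (allR_glue (allR_glue (c4_2_40) (allR_glue (c4_2_41) (c4_2_42) rfl) rfl) (allR_glue (allR_glue (c4_2_43) (c4_2_44) rfl) (allR_glue (c4_2_45) (c4_2_46) rfl) rfl) rfl) (allR_glue (allR_glue (c4_2_47) (allR_glue (c4_2_48) (c4_2_49) rfl) rfl) (allR_glue (allR_glue (c4_2_50) (c4_2_51) rfl) (allR_glue (c4_2_52) (c4_2_53) rfl) rfl) rfl) rfl) rfl) rfl) (allR_glue (allR_glue (allR_glue (allR_glue (allR_glue (c4_2_54) (allR_glue (c4_2_55) (c4_2_56) rfl) rfl) (allR_glue (c4_2_57) (allR_glue (c4_2_58) (c4_2_59) rfl) rfl) rfl) (allR_glue (allR_glue (c4_2_60) (allR_glue (c4_2_61) (c4_2_62) rfl) rfl) (allR_glue (allR_glue (c4_2_63) (c4_2_64) rfl) (allR_glue (c4_2_65) (c4_2_66) rfl) rfl) rfl) rfl) (allR_glue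 (allR_glue (allR_glue (c4_2_67) (allR_glue (c4_2_68) (c4_2_69) rfl) rfl) (allR_glue (allR_glue (c4_2_70) (c4_2_71) rfl) (allR_glue (c4_2_72) (c4_2_73) rfl) rfl) rfl) (allR_glue (allR_glue (c4_2_74) (allR_glue (c4_2_75) (c4_2_76) rfl) rfl) (allR_glue (allR_glue (c4_2_77) (c4_2_78) rfl) (allR_glue (c4_2_79) (c4_2_80) rfl) rfl) rfl) rfl) rfl) (allR_glue (allR_glue (allR_glue (allR_glue (c4_2_81) (allR_glue (c4_2_82) (c4_2_83) rfl) rfl) (allR_glue (allR_glue (c4_2_84) (c4_2_85) rfl) (allR_glue (c4_2_86) (c4_2_87) rfl) rfl) rfl) (allR_glue (allR_glue (c4_2_88) (allR_glue (c4_2_89) (c4_2_90) rfl) rfl) (allR_glue (allR_glue (c4_2_91) (c4_2_92) rfl) (allR_glue (c4_2_93) (c4_2_94) rfl) rfl) rfl) rfl) (allR_glue (allR_glue (allR_glue (c4_2_95) (allR_glue (c4_2_96) (c4_2_97) rfl) rfl) (allR_glue (allR_glue (c4_2_98) (c4_2_99) rfl) (allR_glue (c4_2_100) (c4_2_101) rfl) rfl) rfl) (allR_glue (allR_glue (c4_2_102) (allR_glue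 (c4_2_103) (c4_2_104) rfl) rfl) (allR_glue (allR_glue (c4_2_105) (c4_2_106) rfl) (allR_glue (c4_2_107) (c4_2_108) rfl) rfl) rfl) rfl) rfl) rfl) rfl) (allR_glue (allR_glue (allR_glue (allR_glue (allR_glue (allR_glue (c4_2_109) (allR_glue (c4_2_110) (c4_2_111) rfl) rfl) (allR_glue (c4_2_112) (allR_glue (c4_2_113) (c4_2_114) rfl) rfl) rfl) (allR_glue (allR_glue (c4_2_115) (allR_glue (c4_2_116) (c4_2_117) rfl) rfl) (allR_glue (allR_glue (c4_2_118) (c4_2_119) rfl) (allR_glue (c4_2_120) (c4_2_121) rfl) rfl) rfl) rfl) (allR_glue (allR_glue (allR_glue (c4_2_122) (allR_glue (c4_2_123) (c4_2_124) rfl) rfl) (allR_glue (allR_glue (c4_2_125) (c4_2_126) rfl) (allR_glue (c4_2_127) (c4_2_128) rfl) rfl) rfl) (allR_glue (allR_glue (c4_2_129) (allR_glue (c4_2_130) (c4_2_131) rfl) rfl) (allR_glue (allR_glue (c4_2_132) (c4_2_133) rfl) (allR_glue (c4_2_134) (c4_2_135) rfl) rfl) rfl) rfl) rfl) (allR_glue (allR_glue (allR_glue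 (allR_glue (c4_2_136) (allR_glue (c4_2_137) (c4_2_138) rfl) rfl) (allR_glue (c4_2_139) (allR_glue (c4_2_140) (c4_2_141) rfl) rfl) rfl) (allR_glue (allR_glue (c4_2_142) (allR_glue (c4_2_143) (c4_2_144) rfl) rfl) (allR_glue (allR_glue (c4_2_145) (c4_2_146) rfl) (allR_glue (c4_2_147) (c4_2_148) rfl) rfl) rfl) rfl) (allR_glue (allR_glue (allR_glue (c4_2_149) (allR_glue (c4_2_150) (c4_2_151) rfl) rfl) (allR_glue (allR_glue (c4_2_152) (c4_2_153) rfl) (allR_glue (c4_2_154) (c4_2_155) rfl) rfl) rfl) (allR_glue (allR_glue (c4_2_156) (allR_glue (c4_2_157) (c4_2_158) rfl) rfl) (allR_glue (allR_glue (c4_2_159) (c4_2_160) rfl) (allR_glue (c4_2_161) (c4_2_162) rfl) rfl) rfl) rfl) rfl) rfl) (allR_glue (allR_glue (allR_glue (allR_glue (allR_glue (c4_2_163) (allR_glue (c4_2_164) (c4_2_165) rfl) rfl) (allR_glue (c4_2_166) (allR_glue (c4_2_167) (c4_2_168) rfl) rfl) rfl) (allR_glue (allR_glue (c4_2_169) (allR_glue (c4_2_170)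 (c4_2_171) rfl) rfl) (allR_glue (allR_glue (c4_2_172) (c4_2_173) rfl) (allR_glue (c4_2_174) (c4_2_175) rfl) rfl) rfl) rfl) (allR_glue (allR_glue (allR_glue (c4_2_176) (allR_glue (c4_2_177) (c4_2_178) rfl) rfl) (allR_glue (allR_glue (c4_2_179) (c4_2_180) rfl) (allR_glue (c4_2_181) (c4_2_182) rfl) rfl) rfl) (allR_glue (allR_glue (c4_2_183) (allR_glue (c4_2_184) (c4_2_185) rfl) rfl) (allR_glue (allR_glue (c4_2_186) (c4_2_187) rfl) (allR_glue (c4_2_188) (c4_2_189) rfl) rfl) rfl) rfl) rfl) (allR_glue (allR_glue (allR_glue (allR_glue (c4_2_190) (allR_glue (c4_2_191) (c4_2_192) rfl) rfl) (allR_glue (allR_glue (c4_2_193) (c4_2_194) rfl) (allR_glue (c4_2_195) (c4_2_196) rfl) rfl) rfl) (allR_glue (allR_glue (c4_2_197) (allR_glue (c4_2_198) (c4_2_199) rfl) rfl) (allR_glue (allR_glue (c4_2_200) (c4_2_201) rfl) (allR_glue (c4_2_202) (c4_2_203) rfl) rfl) rfl) rfl) (allR_glue (allR_glue (allR_glue (c4_2_204) (allR_glue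 (c4_2_205) (c4_2_206) rfl) rfl) (allR_glue (allR_glue (c4_2_207) (c4_2_208) rfl) (allR_glue (c4_2_209) (c4_2_210) rfl) rfl) rfl) (allR_glue (allR_glue (c4_2_211) (allR_glue (c4_2_212) (c4_2_213) rfl) rfl) (allR_glue (allR_glue (c4_2_214) (c4_2_215) rfl) (allR_glue (c4_2_216) (c4_2_217) rfl) rfl) rfl) rfl) rfl) rfl) rfl) rfl) (allR_glue (allR_glue (allR_glue (allR_glue (allR_glue (allR_glue (allR_glue (c4_2_218) (allR_glue (c4_2_219) (c4_2_220) rfl) rfl) (allR_glue (c4_2_221) (allR_glue (c4_2_222) (c4_2_223) rfl) rfl) rfl) (allR_glue (allR_glue (c4_2_224) (allR_glue (c4_2_225) (c4_2_226) rfl) rfl) (allR_glue (allR_glue (c4_2_227) (c4_2_228) rfl) (allR_glue (c4_2_229) (c4_2_230) rfl) rfl) rfl) rfl) (allR_glue (allR_glue (allR_glue (c4_2_231) (allR_glue (c4_2_232) (c4_2_233) rfl) rfl) (allR_glue (allR_glue (c4_2_234) (c4_2_235) rfl) (allR_glue (c4_2_236) (c4_2_237) rfl) rfl) rfl) (allR_glue (allR_glue (c4_2_238)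 (allR_glue (c4_2_239) (c4_2_240) rfl) rfl) (allR_glue (allR_glue (c4_2_241) (c4_2_242) rfl) (allR_glue (c4_2_243) (c4_2_244) rfl) rfl) rfl) rfl) rfl) (allR_glue (allR_glue (allR_glue (allR_glue (c4_2_245) (allR_glue (c4_2_246) (c4_2_247) rfl) rfl) (allR_glue (c4_2_248) (allR_glue (c4_2_249) (c4_2_250) rfl) rfl) rfl) (allR_glue (allR_glue (c4_2_251) (allR_glue (c4_2_252) (c4_2_253) rfl) rfl) (allR_glue (allR_glue (c4_2_254) (c4_2_255) rfl) (allR_glue (c4_2_256) (c4_2_257) rfl) rfl) rfl) rfl) (allR_glue (allR_glue (allR_glue (c4_2_258) (allR_glue (c4_2_259) (c4_2_260) rfl) rfl) (allR_glue (allR_glue (c4_2_261) (c4_2_262) rfl) (allR_glue (c4_2_263) (c4_2_264) rfl) rfl) rfl) (allR_glue (allR_glue (c4_2_265) (allR_glue (c4_2_266) (c4_2_267) rfl) rfl) (allR_glue (allR_glue (c4_2_268) (c4_2_269) rfl) (allR_glue (c4_2_270) (c4_2_271) rfl) rfl) rfl) rfl) rfl) rfl) (allR_glue (allR_glue (allR_glue (allR_glue (allR_glue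 (c4_2_272) (allR_glue (c4_2_273) (c4_2_274) rfl) rfl) (allR_glue (c4_2_275) (allR_glue (c4_2_276) (c4_2_277) rfl) rfl) rfl) (allR_glue (allR_glue (c4_2_278) (allR_glue (c4_2_279) (c4_2_280) rfl) rfl) (allR_glue (allR_glue (c4_2_281) (c4_2_282) rfl) (allR_glue (c4_2_283) (c4_2_284) rfl) rfl) rfl) rfl) (allR_glue (allR_glue (allR_glue (c4_2_285) (allR_glue (c4_2_286) (c4_2_287) rfl) rfl) (allR_glue (allR_glue (c4_2_288) (c4_2_289) rfl) (allR_glue (c4_2_290) (c4_2_291) rfl) rfl) rfl) (allR_glue (allR_glue (c4_2_292) (allR_glue (c4_2_293) (c4_2_294) rfl) rfl) (allR_glue (allR_glue (c4_2_295) (c4_2_296) rfl) (allR_glue (c4_2_297) (c4_2_298) rfl) rfl) rfl) rfl) rfl) (allR_glue (allR_glue (allR_glue (allR_glue (c4_2_299) (allR_glue (c4_2_300) (c4_2_301) rfl) rfl) (allR_glue (allR_glue (c4_2_302) (c4_2_303) rfl) (allR_glue (c4_2_304) (c4_2_305) rfl) rfl) rfl) (allR_glue (allR_glue (c4_2_306) (allR_glue (c4_2_307)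 (c4_2_308) rfl) rfl) (allR_glue (allR_glue (c4_2_309) (c4_2_310) rfl) (allR_glue (c4_2_311) (c4_2_312) rfl) rfl) rfl) rfl) (allR_glue (allR_glue (allR_glue (c4_2_313) (allR_glue (c4_2_314) (c4_2_315) rfl) rfl) (allR_glue (allR_glue (c4_2_316) (c4_2_317) rfl) (allR_glue (c4_2_318) (c4_2_319) rfl) rfl) rfl) (allR_glue (allR_glue (c4_2_320) (allR_glue (c4_2_321) (c4_2_322) rfl) rfl) (allR_glue (allR_glue (c4_2_323) (c4_2_324) rfl) (allR_glue (c4_2_325) (c4_2_326) rfl) rfl) rfl) rfl) rfl) rfl) rfl) (allR_glue (allR_glue (allR_glue (allR_glue (allR_glue (allR_glue (c4_2_327) (allR_glue (c4_2_328) (c4_2_329) rfl) rfl) (allR_glue (c4_2_330) (allR_glue (c4_2_331) (c4_2_332) rfl) rfl) rfl) (allR_glue (allR_glue (c4_2_333) (allR_glue (c4_2_334) (c4_2_335) rfl) rfl) (allR_glue (allR_glue (c4_2_336) (c4_2_337) rfl) (allR_glue (c4_2_338) (c4_2_339) rfl) rfl) rfl) rfl) (allR_glue (allR_glue (allR_glue (c4_2_340) (allR_glue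 (c4_2_341) (c4_2_342) rfl) rfl) (allR_glue (allR_glue (c4_2_343) (c4_2_344) rfl) (allR_glue (c4_2_345) (c4_2_346) rfl) rfl) rfl) (allR_glue (allR_glue (c4_2_347) (allR_glue (c4_2_348) (c4_2_349) rfl) rfl) (allR_glue (allR_glue (c4_2_350) (c4_2_351) rfl) (allR_glue (c4_2_352) (c4_2_353) rfl) rfl) rfl) rfl) rfl) (allR_glue (allR_glue (allR_glue (allR_glue (c4_2_354) (allR_glue (c4_2_355) (c4_2_356) rfl) rfl) (allR_glue (allR_glue (c4_2_357) (c4_2_358) rfl) (allR_glue (c4_2_359) (c4_2_360) rfl) rfl) rfl) (allR_glue (allR_glue (c4_2_361) (allR_glue (c4_2_362) (c4_2_363) rfl) rfl) (allR_glue (allR_glue (c4_2_364) (c4_2_365) rfl) (allR_glue (c4_2_366) (c4_2_367) rfl) rfl) rfl) rfl) (allR_glue (allR_glue (allR_glue (c4_2_368) (allR_glue (c4_2_369) (c4_2_370) rfl) rfl) (allR_glue (allR_glue (c4_2_371) (c4_2_372) rfl) (allR_glue (c4_2_373) (c4_2_374) rfl) rfl) rfl) (allR_glue (allR_glue (c4_2_375) (allR_glue (c4_2_376)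 (c4_2_377) rfl) rfl) (allR_glue (allR_glue (c4_2_378) (c4_2_379) rfl) (allR_glue (c4_2_380) (c4_2_381) rfl) rfl) rfl) rfl) rfl) rfl) (allR_glue (allR_glue (allR_glue (allR_glue (allR_glue (c4_2_382) (allR_glue (c4_2_383) (c4_2_384) rfl) rfl) (allR_glue (c4_2_385) (allR_glue (c4_2_386) (c4_2_387) rfl) rfl) rfl) (allR_glue (allR_glue (c4_2_388) (allR_glue (c4_2_389) (c4_2_390) rfl) rfl) (allR_glue (allR_glue (c4_2_391) (c4_2_392) rfl) (allR_glue (c4_2_393) (c4_2_394) rfl) rfl) rfl) rfl) (allR_glue (allR_glue (allR_glue (c4_2_395) (allR_glue (c4_2_396) (c4_2_397) rfl) rfl) (allR_glue (allR_glue (c4_2_398) (c4_2_399) rfl) (allR_glue (c4_2_400) (c4_2_401) rfl) rfl) rfl) (allR_glue (allR_glue (c4_2_402) (allR_glue (c4_2_403) (c4_2_404) rfl) rfl) (allR_glue (allR_glue (c4_2_405) (c4_2_406) rfl) (allR_glue (c4_2_407) (c4_2_408) rfl) rfl) rfl) rfl) rfl) (allR_glue (allR_glue (allR_glue (allR_glue (c4_2_409) (allR_glue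 (c4_2_410) (c4_2_411) rfl) rfl) (allR_glue (allR_glue (c4_2_412) (c4_2_413) rfl) (allR_glue (c4_2_414) (c4_2_415) rfl) rfl) rfl) (allR_glue (allR_glue (c4_2_416) (allR_glue (c4_2_417) (c4_2_418) rfl) rfl) (allR_glue (allR_glue (c4_2_419) (c4_2_420) rfl) (allR_glue (c4_2_421) (c4_2_422) rfl) rfl) rfl) rfl) (allR_glue (allR_glue (allR_glue (c4_2_423) (allR_glue (c4_2_424) (c4_2_425) rfl) rfl) (allR_glue (allR_glue (c4_2_426) (c4_2_427) rfl) (allR_glue (c4_2_428) (c4_2_429) rfl) rfl) rfl) (allR_glue (allR_glue (c4_2_430) (allR_glue (c4_2_431) (c4_2_432) rfl) rfl) (allR_glue (allR_glue (c4_2_433) (c4_2_434) rfl) (allR_glue (c4_2_435) (c4_2_436) rfl) rfl) rfl) rfl) rfl) rfl) rfl) rfl) rfl) rfl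

theorem all_c5_0 : ∀ x, x < N → (compatChk t0 l5) x = true :=
  of_chain (allR_glue (allR_glue (allR_glue (allR_glue (allR_glue (allR_glue (allR_glue (allR_glue (c5_0_0) (allR_glue (c5_0_1) (c5_0_2) rfl) rfl) (allR_glue (c5_0_3) (allR_glue (c5_0_4) (c5_0_5) rfl) rfl) rfl) (allR_glue (allR_glue (c5_0_6) (allR_glue (c5_0_7) (c5_0_8) rfl) rfl) (allR_glue (allR_glue (c5_0_9) (c5_0_10) rfl) (allR_glue (c5_0_11) (c5_0_12) rfl) rfl) rfl) rfl) (allR_glue (allR_glue (allR_glue (c5_0_13) (allR_glue (c5_0_14) (c5_0_15) rfl) rfl) (allR_glue (allR_glue (c5_0_16) (c5_0_17) rfl) (allR_glue (c5_0_18) (c5_0_19) rfl) rfl) rfl) (allR_glue (allR_glue (c5_0_20) (allR_glue (c5_0_21) (c5_0_22) rfl) rfl) (allR_glue (allR_glue (c5_0_23) (c5_0_24) rfl) (allR_glue (c5_0_25) (c5_0_26) rfl) rfl) rfl) rfl) rfl) (allR_glue (allR_glue (allR_glue (allR_glue (c5_0_27) (allR_glue (c5_0_28) (c5_0_29) rfl) rfl) (allR_glue (c5_0_30) (allR_glue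 (c5_0_31) (c5_0_32) rfl) rfl) rfl) (allR_glue (allR_glue (c5_0_33) (allR_glue (c5_0_34) (c5_0_35) rfl) rfl) (allR_glue (allR_glue (c5_0_36) (c5_0_37) rfl) (allR_glue (c5_0_38) (c5_0_39) rfl) rfl) rfl) rfl) (allR_glue (allR_glue (allR_glue (c5_0_40) (allR_glue (c5_0_41) (c5_0_42) rfl) rfl) (allR_glue (allR_glue (c5_0_43) (c5_0_44) rfl) (allR_glue (c5_0_45) (c5_0_46) rfl) rfl) rfl) (allR_glue (allR_glue (c5_0_47) (allR_glue (c5_0_48) (c5_0_49) rfl) rfl) (allR_glue (allR_glue (c5_0_50) (c5_0_51) rfl) (allR_glue (c5_0_52) (c5_0_53) rfl) rfl) rfl) rfl) rfl) rfl) (allR_glue (allR_glue (allR_glue (allR_glue (allR_glue (c5_0_54) (allR_glue (c5_0_55) (c5_0_56) rfl) rfl) (allR_glue (c5_0_57) (allR_glue (c5_0_58) (c5_0_59) rfl) rfl) rfl) (allR_glue (allR_glue (c5_0_60) (allR_glue (c5_0_61) (c5_0_62) rfl) rfl) (allR_glue (allR_glue (c5_0_63) (c5_0_64) rfl) (allR_glue (c5_0_65) (c5_0_66) rfl) rfl) rfl) rfl) (allR_glue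 (allR_glue (allR_glue (c5_0_67) (allR_glue (c5_0_68) (c5_0_69) rfl) rfl) (allR_glue (allR_glue (c5_0_70) (c5_0_71) rfl) (allR_glue (c5_0_72) (c5_0_73) rfl) rfl) rfl) (allR_glue (allR_glue (c5_0_74) (allR_glue (c5_0_75) (c5_0_76) rfl) rfl) (allR_glue (allR_glue (c5_0_77) (c5_0_78) rfl) (allR_glue (c5_0_79) (c5_0_80) rfl) rfl) rfl) rfl) rfl) (allR_glue (allR_glue (allR_glue (allR_glue (c5_0_81) (allR_glue (c5_0_82) (c5_0_83) rfl) rfl) (allR_glue (allR_glue (c5_0_84) (c5_0_85) rfl) (allR_glue (c5_0_86) (c5_0_87) rfl) rfl) rfl) (allR_glue (allR_glue (c5_0_88) (allR_glue (c5_0_89) (c5_0_90) rfl) rfl) (allR_glue (allR_glue (c5_0_91) (c5_0_92) rfl) (allR_glue (c5_0_93) (c5_0_94) rfl) rfl) rfl) rfl) (allR_glue (allR_glue (allR_glue (c5_0_95) (allR_glue (c5_0_96) (c5_0_97) rfl) rfl) (allR_glue (allR_glue (c5_0_98) (c5_0_99) rfl) (allR_glue (c5_0_100) (c5_0_101) rfl) rfl) rfl) (allR_glue (allR_glue (c5_0_102) (allR_glue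 (c5_0_103) (c5_0_104) rfl) rfl) (allR_glue (allR_glue (c5_0_105) (c5_0_106) rfl) (allR_glue (c5_0_107) (c5_0_108) rfl) rfl) rfl) rfl) rfl) rfl) rfl) (allR_glue (allR_glue (allR_glue (allR_glue (allR_glue (allR_glue (c5_0_109) (allR_glue (c5_0_110) (c5_0_111) rfl) rfl) (allR_glue (c5_0_112) (allR_glue (c5_0_113) (c5_0_114) rfl) rfl) rfl) (allR_glue (allR_glue (c5_0_115) (allR_glue (c5_0_116) (c5_0_117) rfl) rfl) (allR_glue (allR_glue (c5_0_118) (c5_0_119) rfl) (allR_glue (c5_0_120) (c5_0_121) rfl) rfl) rfl) rfl) (allR_glue (allR_glue (allR_glue (c5_0_122) (allR_glue (c5_0_123) (c5_0_124) rfl) rfl) (allR_glue (allR_glue (c5_0_125) (c5_0_126) rfl) (allR_glue (c5_0_127) (c5_0_128) rfl) rfl) rfl) (allR_glue (allR_glue (c5_0_129) (allR_glue (c5_0_130) (c5_0_131) rfl) rfl) (allR_glue (allR_glue (c5_0_132) (c5_0_133) rfl) (allR_glue (c5_0_134) (c5_0_135) rfl) rfl) rfl) rfl) rfl) (allR_glue (allR_glue (allR_glue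 (allR_glue (c5_0_136) (allR_glue (c5_0_137) (c5_0_138) rfl) rfl) (allR_glue (c5_0_139) (allR_glue (c5_0_140) (c5_0_141) rfl) rfl) rfl) (allR_glue (allR_glue (c5_0_142) (allR_glue (c5_0_143) (c5_0_144) rfl) rfl) (allR_glue (allR_glue (c5_0_145) (c5_0_146) rfl) (allR_glue (c5_0_147) (c5_0_148) rfl) rfl) rfl) rfl) (allR_glue (allR_glue (allR_glue (c5_0_149) (allR_glue (c5_0_150) (c5_0_151) rfl) rfl) (allR_glue (allR_glue (c5_0_152) (c5_0_153) rfl) (allR_glue (c5_0_154) (c5_0_155) rfl) rfl) rfl) (allR_glue (allR_glue (c5_0_156) (allR_glue (c5_0_157) (c5_0_158) rfl) rfl) (allR_glue (allR_glue (c5_0_159) (c5_0_160) rfl) (allR_glue (c5_0_161) (c5_0_162) rfl) rfl) rfl) rfl) rfl) rfl) (allR_glue (allR_glue (allR_glue (allR_glue (allR_glue (c5_0_163) (allR_glue (c5_0_164) (c5_0_165) rfl) rfl) (allR_glue (c5_0_166) (allR_glue (c5_0_167) (c5_0_168) rfl) rfl) rfl) (allR_glue (allR_glue (c5_0_169) (allR_glue (c5_0_170)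 (c5_0_171) rfl) rfl) (allR_glue (allR_glue (c5_0_172) (c5_0_173) rfl) (allR_glue (c5_0_174) (c5_0_175) rfl) rfl) rfl) rfl) (allR_glue (allR_glue (allR_glue (c5_0_176) (allR_glue (c5_0_177) (c5_0_178) rfl) rfl) (allR_glue (allR_glue (c5_0_179) (c5_0_180) rfl) (allR_glue (c5_0_181) (c5_0_182) rfl) rfl) rfl) (allR_glue (allR_glue (c5_0_183) (allR_glue (c5_0_184) (c5_0_185) rfl) rfl) (allR_glue (allR_glue (c5_0_186) (c5_0_187) rfl) (allR_glue (c5_0_188) (c5_0_189) rfl) rfl) rfl) rfl) rfl) (allR_glue (allR_glue (allR_glue (allR_glue (c5_0_190) (allR_glue (c5_0_191) (c5_0_192) rfl) rfl) (allR_glue (allR_glue (c5_0_193) (c5_0_194) rfl) (allR_glue (c5_0_195) (c5_0_196) rfl) rfl) rfl) (allR_glue (allR_glue (c5_0_197) (allR_glue (c5_0_198) (c5_0_199) rfl) rfl) (allR_glue (allR_glue (c5_0_200) (c5_0_201) rfl) (allR_glue (c5_0_202) (c5_0_203) rfl) rfl) rfl) rfl) (allR_glue (allR_glue (allR_glue (c5_0_204) (allR_glue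 (c5_0_205) (c5_0_206) rfl) rfl) (allR_glue (allR_glue (c5_0_207) (c5_0_208) rfl) (allR_glue (c5_0_209) (c5_0_210) rfl) rfl) rfl) (allR_glue (allR_glue (c5_0_211) (allR_glue (c5_0_212) (c5_0_213) rfl) rfl) (allR_glue (allR_glue (c5_0_214) (c5_0_215) rfl) (allR_glue (c5_0_216) (c5_0_217) rfl) rfl) rfl) rfl) rfl) rfl) rfl) rfl) (allR_glue (allR_glue (allR_glue (allR_glue (allR_glue (allR_glue (allR_glue (c5_0_218) (allR_glue (c5_0_219) (c5_0_220) rfl) rfl) (allR_glue (c5_0_221) (allR_glue (c5_0_222) (c5_0_223) rfl) rfl) rfl) (allR_glue (allR_glue (c5_0_224) (allR_glue (c5_0_225) (c5_0_226) rfl) rfl) (allR_glue (allR_glue (c5_0_227) (c5_0_228) rfl) (allR_glue (c5_0_229) (c5_0_230) rfl) rfl) rfl) rfl) (allR_glue (allR_glue (allR_glue (c5_0_231) (allR_glue (c5_0_232) (c5_0_233) rfl) rfl) (allR_glue (allR_glue (c5_0_234) (c5_0_235) rfl) (allR_glue (c5_0_236) (c5_0_237) rfl) rfl) rfl) (allR_glue (allR_glue (c5_0_238)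 (allR_glue (c5_0_239) (c5_0_240) rfl) rfl) (allR_glue (allR_glue (c5_0_241) (c5_0_242) rfl) (allR_glue (c5_0_243) (c5_0_244) rfl) rfl) rfl) rfl) rfl) (allR_glue (allR_glue (allR_glue (allR_glue (c5_0_245) (allR_glue (c5_0_246) (c5_0_247) rfl) rfl) (allR_glue (c5_0_248) (allR_glue (c5_0_249) (c5_0_250) rfl) rfl) rfl) (allR_glue (allR_glue (c5_0_251) (allR_glue (c5_0_252) (c5_0_253) rfl) rfl) (allR_glue (allR_glue (c5_0_254) (c5_0_255) rfl) (allR_glue (c5_0_256) (c5_0_257) rfl) rfl) rfl) rfl) (allR_glue (allR_glue (allR_glue (c5_0_258) (allR_glue (c5_0_259) (c5_0_260) rfl) rfl) (allR_glue (allR_glue (c5_0_261) (c5_0_262) rfl) (allR_glue (c5_0_263) (c5_0_264) rfl) rfl) rfl) (allR_glue (allR_glue (c5_0_265) (allR_glue (c5_0_266) (c5_0_267) rfl) rfl) (allR_glue (allR_glue (c5_0_268) (c5_0_269) rfl) (allR_glue (c5_0_270) (c5_0_271) rfl) rfl) rfl) rfl) rfl) rfl) (allR_glue (allR_glue (allR_glue (allR_glue (allR_glue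 (c5_0_272) (allR_glue (c5_0_273) (c5_0_274) rfl) rfl) (allR_glue (c5_0_275) (allR_glue (c5_0_276) (c5_0_277) rfl) rfl) rfl) (allR_glue (allR_glue (c5_0_278) (allR_glue (c5_0_279) (c5_0_280) rfl) rfl) (allR_glue (allR_glue (c5_0_281) (c5_0_282) rfl) (allR_glue (c5_0_283) (c5_0_284) rfl) rfl) rfl) rfl) (allR_glue (allR_glue (allR_glue (c5_0_285) (allR_glue (c5_0_286) (c5_0_287) rfl) rfl) (allR_glue (allR_glue (c5_0_288) (c5_0_289) rfl) (allR_glue (c5_0_290) (c5_0_291) rfl) rfl) rfl) (allR_glue (allR_glue (c5_0_292) (allR_glue (c5_0_293) (c5_0_294) rfl) rfl) (allR_glue (allR_glue (c5_0_295) (c5_0_296) rfl) (allR_glue (c5_0_297) (c5_0_298) rfl) rfl) rfl) rfl) rfl) (allR_glue (allR_glue (allR_glue (allR_glue (c5_0_299) (allR_glue (c5_0_300) (c5_0_301) rfl) rfl) (allR_glue (allR_glue (c5_0_302) (c5_0_303) rfl) (allR_glue (c5_0_304) (c5_0_305) rfl) rfl) rfl) (allR_glue (allR_glue (c5_0_306) (allR_glue (c5_0_307)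 (c5_0_308) rfl) rfl) (allR_glue (allR_glue (c5_0_309) (c5_0_310) rfl) (allR_glue (c5_0_311) (c5_0_312) rfl) rfl) rfl) rfl) (allR_glue (allR_glue (allR_glue (c5_0_313) (allR_glue (c5_0_314) (c5_0_315) rfl) rfl) (allR_glue (allR_glue (c5_0_316) (c5_0_317) rfl) (allR_glue (c5_0_318) (c5_0_319) rfl) rfl) rfl) (allR_glue (allR_glue (c5_0_320) (allR_glue (c5_0_321) (c5_0_322) rfl) rfl) (allR_glue (allR_glue (c5_0_323) (c5_0_324) rfl) (allR_glue (c5_0_325) (c5_0_326) rfl) rfl) rfl) rfl) rfl) rfl) rfl) (allR_glue (allR_glue (allR_glue (allR_glue (allR_glue (allR_glue (c5_0_327) (allR_glue (c5_0_328) (c5_0_329) rfl) rfl) (allR_glue (c5_0_330) (allR_glue (c5_0_331) (c5_0_332) rfl) rfl) rfl) (allR_glue (allR_glue (c5_0_333) (allR_glue (c5_0_334) (c5_0_335) rfl) rfl) (allR_glue (allR_glue (c5_0_336) (c5_0_337) rfl) (allR_glue (c5_0_338) (c5_0_339) rfl) rfl) rfl) rfl) (allR_glue (allR_glue (allR_glue (c5_0_340) (allR_glue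 (c5_0_341) (c5_0_342) rfl) rfl) (allR_glue (allR_glue (c5_0_343) (c5_0_344) rfl) (allR_glue (c5_0_345) (c5_0_346) rfl) rfl) rfl) (allR_glue (allR_glue (c5_0_347) (allR_glue (c5_0_348) (c5_0_349) rfl) rfl) (allR_glue (allR_glue (c5_0_350) (c5_0_351) rfl) (allR_glue (c5_0_352) (c5_0_353) rfl) rfl) rfl) rfl) rfl) (allR_glue (allR_glue (allR_glue (allR_glue (c5_0_354) (allR_glue (c5_0_355) (c5_0_356) rfl) rfl) (allR_glue (allR_glue (c5_0_357) (c5_0_358) rfl) (allR_glue (c5_0_359) (c5_0_360) rfl) rfl) rfl) (allR_glue (allR_glue (c5_0_361) (allR_glue (c5_0_362) (c5_0_363) rfl) rfl) (allR_glue (allR_glue (c5_0_364) (c5_0_365) rfl) (allR_glue (c5_0_366) (c5_0_367) rfl) rfl) rfl) rfl) (allR_glue (allR_glue (allR_glue (c5_0_368) (allR_glue (c5_0_369) (c5_0_370) rfl) rfl) (allR_glue (allR_glue (c5_0_371) (c5_0_372) rfl) (allR_glue (c5_0_373) (c5_0_374) rfl) rfl) rfl) (allR_glue (allR_glue (c5_0_375) (allR_glue (c5_0_376)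 (c5_0_377) rfl) rfl) (allR_glue (allR_glue (c5_0_378) (c5_0_379) rfl) (allR_glue (c5_0_380) (c5_0_381) rfl) rfl) rfl) rfl) rfl) rfl) (allR_glue (allR_glue (allR_glue (allR_glue (allR_glue (c5_0_382) (allR_glue (c5_0_383) (c5_0_384) rfl) rfl) (allR_glue (c5_0_385) (allR_glue (c5_0_386) (c5_0_387) rfl) rfl) rfl) (allR_glue (allR_glue (c5_0_388) (allR_glue (c5_0_389) (c5_0_390) rfl) rfl) (allR_glue (allR_glue (c5_0_391) (c5_0_392) rfl) (allR_glue (c5_0_393) (c5_0_394) rfl) rfl) rfl) rfl) (allR_glue (allR_glue (allR_glue (c5_0_395) (allR_glue (c5_0_396) (c5_0_397) rfl) rfl) (allR_glue (allR_glue (c5_0_398) (c5_0_399) rfl) (allR_glue (c5_0_400) (c5_0_401) rfl) rfl) rfl) (allR_glue (allR_glue (c5_0_402) (allR_glue (c5_0_403) (c5_0_404) rfl) rfl) (allR_glue (allR_glue (c5_0_405) (c5_0_406) rfl) (allR_glue (c5_0_407) (c5_0_408) rfl) rfl) rfl) rfl) rfl) (allR_glue (allR_glue (allR_glue (allR_glue (c5_0_409) (allR_glue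 (c5_0_410) (c5_0_411) rfl) rfl) (allR_glue (allR_glue (c5_0_412) (c5_0_413) rfl) (allR_glue (c5_0_414) (c5_0_415) rfl) rfl) rfl) (allR_glue (allR_glue (c5_0_416) (allR_glue (c5_0_417) (c5_0_418) rfl) rfl) (allR_glue (allR_glue (c5_0_419) (c5_0_420) rfl) (allR_glue (c5_0_421) (c5_0_422) rfl) rfl) rfl) rfl) (allR_glue (allR_glue (allR_glue (c5_0_423) (allR_glue (c5_0_424) (c5_0_425) rfl) rfl) (allR_glue (allR_glue (c5_0_426) (c5_0_427) rfl) (allR_glue (c5_0_428) (c5_0_429) rfl) rfl) rfl) (allR_glue (allR_glue (c5_0_430) (allR_glue (c5_0_431) (c5_0_432) rfl) rfl) (allR_glue (allR_glue (c5_0_433) (c5_0_434) rfl) (allR_glue (c5_0_435) (c5_0_436) rfl) rfl) rfl) rfl) rfl) rfl) rfl) rfl) rfl) rfl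

theorem all_c5_1 : ∀ x, x < N → (compatChk t1 l5) x = true :=
  of_chain (allR_glue (allR_glue (allR_glue (allR_glue (allR_glue (allR_glue (allR_glue (allR_glue (c5_1_0) (allR_glue (c5_1_1) (c5_1_2) rfl) rfl) (allR_glue (c5_1_3) (allR_glue (c5_1_4) (c5_1_5) rfl) rfl) rfl) (allR_glue (allR_glue (c5_1_6) (allR_glue (c5_1_7) (c5_1_8) rfl) rfl) (allR_glue (allR_glue (c5_1_9) (c5_1_10) rfl) (allR_glue (c5_1_11) (c5_1_12) rfl) rfl) rfl) rfl) (allR_glue (allR_glue (allR_glue (c5_1_13) (allR_glue (c5_1_14) (c5_1_15) rfl) rfl) (allR_glue (allR_glue (c5_1_16) (c5_1_17) rfl) (allR_glue (c5_1_18) (c5_1_19) rfl) rfl) rfl) (allR_glue (allR_glue (c5_1_20) (allR_glue (c5_1_21) (c5_1_22) rfl) rfl) (allR_glue (allR_glue (c5_1_23) (c5_1_24) rfl) (allR_glue (c5_1_25) (c5_1_26) rfl) rfl) rfl) rfl) rfl) (allR_glue (allR_glue (allR_glue (allR_glue (c5_1_27) (allR_glue (c5_1_28) (c5_1_29) rfl) rfl) (allR_glue (c5_1_30) (allR_glue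 (c5_1_31) (c5_1_32) rfl) rfl) rfl) (allR_glue (allR_glue (c5_1_33) (allR_glue (c5_1_34) (c5_1_35) rfl) rfl) (allR_glue (allR_glue (c5_1_36) (c5_1_37) rfl) (allR_glue (c5_1_38) (c5_1_39) rfl) rfl) rfl) rfl) (allR_glue (allR_glue (allR_glue (c5_1_40) (allR_glue (c5_1_41) (c5_1_42) rfl) rfl) (allR_glue (allR_glue (c5_1_43) (c5_1_44) rfl) (allR_glue (c5_1_45) (c5_1_46) rfl) rfl) rfl) (allR_glue (allR_glue (c5_1_47) (allR_glue (c5_1_48) (c5_1_49) rfl) rfl) (allR_glue (allR_glue (c5_1_50) (c5_1_51) rfl) (allR_glue (c5_1_52) (c5_1_53) rfl) rfl) rfl) rfl) rfl) rfl) (allR_glue (allR_glue (allR_glue (allR_glue (allR_glue (c5_1_54) (allR_glue (c5_1_55) (c5_1_56) rfl) rfl) (allR_glue (c5_1_57) (allR_glue (c5_1_58) (c5_1_59) rfl) rfl) rfl) (allR_glue (allR_glue (c5_1_60) (allR_glue (c5_1_61) (c5_1_62) rfl) rfl) (allR_glue (allR_glue (c5_1_63) (c5_1_64) rfl) (allR_glue (c5_1_65) (c5_1_66) rfl) rfl) rfl) rfl) (allR_glue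 (allR_glue (allR_glue (c5_1_67) (allR_glue (c5_1_68) (c5_1_69) rfl) rfl) (allR_glue (allR_glue (c5_1_70) (c5_1_71) rfl) (allR_glue (c5_1_72) (c5_1_73) rfl) rfl) rfl) (allR_glue (allR_glue (c5_1_74) (allR_glue (c5_1_75) (c5_1_76) rfl) rfl) (allR_glue (allR_glue (c5_1_77) (c5_1_78) rfl) (allR_glue (c5_1_79) (c5_1_80) rfl) rfl) rfl) rfl) rfl) (allR_glue (allR_glue (allR_glue (allR_glue (c5_1_81) (allR_glue (c5_1_82) (c5_1_83) rfl) rfl) (allR_glue (allR_glue (c5_1_84) (c5_1_85) rfl) (allR_glue (c5_1_86) (c5_1_87) rfl) rfl) rfl) (allR_glue (allR_glue (c5_1_88) (allR_glue (c5_1_89) (c5_1_90) rfl) rfl) (allR_glue (allR_glue (c5_1_91) (c5_1_92) rfl) (allR_glue (c5_1_93) (c5_1_94) rfl) rfl) rfl) rfl) (allR_glue (allR_glue (allR_glue (c5_1_95) (allR_glue (c5_1_96) (c5_1_97) rfl) rfl) (allR_glue (allR_glue (c5_1_98) (c5_1_99) rfl) (allR_glue (c5_1_100) (c5_1_101) rfl) rfl) rfl) (allR_glue (allR_glue (c5_1_102) (allR_glue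 (c5_1_103) (c5_1_104) rfl) rfl) (allR_glue (allR_glue (c5_1_105) (c5_1_106) rfl) (allR_glue (c5_1_107) (c5_1_108) rfl) rfl) rfl) rfl) rfl) rfl) rfl) (allR_glue (allR_glue (allR_glue (allR_glue (allR_glue (allR_glue (c5_1_109) (allR_glue (c5_1_110) (c5_1_111) rfl) rfl) (allR_glue (c5_1_112) (allR_glue (c5_1_113) (c5_1_114) rfl) rfl) rfl) (allR_glue (allR_glue (c5_1_115) (allR_glue (c5_1_116) (c5_1_117) rfl) rfl) (allR_glue (allR_glue (c5_1_118) (c5_1_119) rfl) (allR_glue (c5_1_120) (c5_1_121) rfl) rfl) rfl) rfl) (allR_glue (allR_glue (allR_glue (c5_1_122) (allR_glue (c5_1_123) (c5_1_124) rfl) rfl) (allR_glue (allR_glue (c5_1_125) (c5_1_126) rfl) (allR_glue (c5_1_127) (c5_1_128) rfl) rfl) rfl) (allR_glue (allR_glue (c5_1_129) (allR_glue (c5_1_130) (c5_1_131) rfl) rfl) (allR_glue (allR_glue (c5_1_132) (c5_1_133) rfl) (allR_glue (c5_1_134) (c5_1_135) rfl) rfl) rfl) rfl) rfl) (allR_glue (allR_glue (allR_glue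 (allR_glue (c5_1_136) (allR_glue (c5_1_137) (c5_1_138) rfl) rfl) (allR_glue (c5_1_139) (allR_glue (c5_1_140) (c5_1_141) rfl) rfl) rfl) (allR_glue (allR_glue (c5_1_142) (allR_glue (c5_1_143) (c5_1_144) rfl) rfl) (allR_glue (allR_glue (c5_1_145) (c5_1_146) rfl) (allR_glue (c5_1_147) (c5_1_148) rfl) rfl) rfl) rfl) (allR_glue (allR_glue (allR_glue (c5_1_149) (allR_glue (c5_1_150) (c5_1_151) rfl) rfl) (allR_glue (allR_glue (c5_1_152) (c5_1_153) rfl) (allR_glue (c5_1_154) (c5_1_155) rfl) rfl) rfl) (allR_glue (allR_glue (c5_1_156) (allR_glue (c5_1_157) (c5_1_158) rfl) rfl) (allR_glue (allR_glue (c5_1_159) (c5_1_160) rfl) (allR_glue (c5_1_161) (c5_1_162) rfl) rfl) rfl) rfl) rfl) rfl) (allR_glue (allR_glue (allR_glue (allR_glue (allR_glue (c5_1_163) (allR_glue (c5_1_164) (c5_1_165) rfl) rfl) (allR_glue (c5_1_166) (allR_glue (c5_1_167) (c5_1_168) rfl) rfl) rfl) (allR_glue (allR_glue (c5_1_169) (allR_glue (c5_1_170)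 (c5_1_171) rfl) rfl) (allR_glue (allR_glue (c5_1_172) (c5_1_173) rfl) (allR_glue (c5_1_174) (c5_1_175) rfl) rfl) rfl) rfl) (allR_glue (allR_glue (allR_glue (c5_1_176) (allR_glue (c5_1_177) (c5_1_178) rfl) rfl) (allR_glue (allR_glue (c5_1_179) (c5_1_180) rfl) (allR_glue (c5_1_181) (c5_1_182) rfl) rfl) rfl) (allR_glue (allR_glue (c5_1_183) (allR_glue (c5_1_184) (c5_1_185) rfl) rfl) (allR_glue (allR_glue (c5_1_186) (c5_1_187) rfl) (allR_glue (c5_1_188) (c5_1_189) rfl) rfl) rfl) rfl) rfl) (allR_glue (allR_glue (allR_glue (allR_glue (c5_1_190) (allR_glue (c5_1_191) (c5_1_192) rfl) rfl) (allR_glue (allR_glue (c5_1_193) (c5_1_194) rfl) (allR_glue (c5_1_195) (c5_1_196) rfl) rfl) rfl) (allR_glue (allR_glue (c5_1_197) (allR_glue (c5_1_198) (c5_1_199) rfl) rfl) (allR_glue (allR_glue (c5_1_200) (c5_1_201) rfl) (allR_glue (c5_1_202) (c5_1_203) rfl) rfl) rfl) rfl) (allR_glue (allR_glue (allR_glue (c5_1_204) (allR_glue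 (c5_1_205) (c5_1_206) rfl) rfl) (allR_glue (allR_glue (c5_1_207) (c5_1_208) rfl) (allR_glue (c5_1_209) (c5_1_210) rfl) rfl) rfl) (allR_glue (allR_glue (c5_1_211) (allR_glue (c5_1_212) (c5_1_213) rfl) rfl) (allR_glue (allR_glue (c5_1_214) (c5_1_215) rfl) (allR_glue (c5_1_216) (c5_1_217) rfl) rfl) rfl) rfl) rfl) rfl) rfl) rfl) (allR_glue (allR_glue (allR_glue (allR_glue (allR_glue (allR_glue (allR_glue (c5_1_218) (allR_glue (c5_1_219) (c5_1_220) rfl) rfl) (allR_glue (c5_1_221) (allR_glue (c5_1_222) (c5_1_223) rfl) rfl) rfl) (allR_glue (allR_glue (c5_1_224) (allR_glue (c5_1_225) (c5_1_226) rfl) rfl) (allR_glue (allR_glue (c5_1_227) (c5_1_228) rfl) (allR_glue (c5_1_229) (c5_1_230) rfl) rfl) rfl) rfl) (allR_glue (allR_glue (allR_glue (c5_1_231) (allR_glue (c5_1_232) (c5_1_233) rfl) rfl) (allR_glue (allR_glue (c5_1_234) (c5_1_235) rfl) (allR_glue (c5_1_236) (c5_1_237) rfl) rfl) rfl) (allR_glue (allR_glue (c5_1_238)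 (allR_glue (c5_1_239) (c5_1_240) rfl) rfl) (allR_glue (allR_glue (c5_1_241) (c5_1_242) rfl) (allR_glue (c5_1_243) (c5_1_244) rfl) rfl) rfl) rfl) rfl) (allR_glue (allR_glue (allR_glue (allR_glue (c5_1_245) (allR_glue (c5_1_246) (c5_1_247) rfl) rfl) (allR_glue (c5_1_248) (allR_glue (c5_1_249) (c5_1_250) rfl) rfl) rfl) (allR_glue (allR_glue (c5_1_251) (allR_glue (c5_1_252) (c5_1_253) rfl) rfl) (allR_glue (allR_glue (c5_1_254) (c5_1_255) rfl) (allR_glue (c5_1_256) (c5_1_257) rfl) rfl) rfl) rfl) (allR_glue (allR_glue (allR_glue (c5_1_258) (allR_glue (c5_1_259) (c5_1_260) rfl) rfl) (allR_glue (allR_glue (c5_1_261) (c5_1_262) rfl) (allR_glue (c5_1_263) (c5_1_264) rfl) rfl) rfl) (allR_glue (allR_glue (c5_1_265) (allR_glue (c5_1_266) (c5_1_267) rfl) rfl) (allR_glue (allR_glue (c5_1_268) (c5_1_269) rfl) (allR_glue (c5_1_270) (c5_1_271) rfl) rfl) rfl) rfl) rfl) rfl) (allR_glue (allR_glue (allR_glue (allR_glue (allR_glue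 (c5_1_272) (allR_glue (c5_1_273) (c5_1_274) rfl) rfl) (allR_glue (c5_1_275) (allR_glue (c5_1_276) (c5_1_277) rfl) rfl) rfl) (allR_glue (allR_glue (c5_1_278) (allR_glue (c5_1_279) (c5_1_280) rfl) rfl) (allR_glue (allR_glue (c5_1_281) (c5_1_282) rfl) (allR_glue (c5_1_283) (c5_1_284) rfl) rfl) rfl) rfl) (allR_glue (allR_glue (allR_glue (c5_1_285) (allR_glue (c5_1_286) (c5_1_287) rfl) rfl) (allR_glue (allR_glue (c5_1_288) (c5_1_289) rfl) (allR_glue (c5_1_290) (c5_1_291) rfl) rfl) rfl) (allR_glue (allR_glue (c5_1_292) (allR_glue (c5_1_293) (c5_1_294) rfl) rfl) (allR_glue (allR_glue (c5_1_295) (c5_1_296) rfl) (allR_glue (c5_1_297) (c5_1_298) rfl) rfl) rfl) rfl) rfl) (allR_glue (allR_glue (allR_glue (allR_glue (c5_1_299) (allR_glue (c5_1_300) (c5_1_301) rfl) rfl) (allR_glue (allR_glue (c5_1_302) (c5_1_303) rfl) (allR_glue (c5_1_304) (c5_1_305) rfl) rfl) rfl) (allR_glue (allR_glue (c5_1_306) (allR_glue (c5_1_307)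 (c5_1_308) rfl) rfl) (allR_glue (allR_glue (c5_1_309) (c5_1_310) rfl) (allR_glue (c5_1_311) (c5_1_312) rfl) rfl) rfl) rfl) (allR_glue (allR_glue (allR_glue (c5_1_313) (allR_glue (c5_1_314) (c5_1_315) rfl) rfl) (allR_glue (allR_glue (c5_1_316) (c5_1_317) rfl) (allR_glue (c5_1_318) (c5_1_319) rfl) rfl) rfl) (allR_glue (allR_glue (c5_1_320) (allR_glue (c5_1_321) (c5_1_322) rfl) rfl) (allR_glue (allR_glue (c5_1_323) (c5_1_324) rfl) (allR_glue (c5_1_325) (c5_1_326) rfl) rfl) rfl) rfl) rfl) rfl) rfl) (allR_glue (allR_glue (allR_glue (allR_glue (allR_glue (allR_glue (c5_1_327) (allR_glue (c5_1_328) (c5_1_329) rfl) rfl) (allR_glue (c5_1_330) (allR_glue (c5_1_331) (c5_1_332) rfl) rfl) rfl) (allR_glue (allR_glue (c5_1_333) (allR_glue (c5_1_334) (c5_1_335) rfl) rfl) (allR_glue (allR_glue (c5_1_336) (c5_1_337) rfl) (allR_glue (c5_1_338) (c5_1_339) rfl) rfl) rfl) rfl) (allR_glue (allR_glue (allR_glue (c5_1_340) (allR_glue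 (c5_1_341) (c5_1_342) rfl) rfl) (allR_glue (allR_glue (c5_1_343) (c5_1_344) rfl) (allR_glue (c5_1_345) (c5_1_346) rfl) rfl) rfl) (allR_glue (allR_glue (c5_1_347) (allR_glue (c5_1_348) (c5_1_349) rfl) rfl) (allR_glue (allR_glue (c5_1_350) (c5_1_351) rfl) (allR_glue (c5_1_352) (c5_1_353) rfl) rfl) rfl) rfl) rfl) (allR_glue (allR_glue (allR_glue (allR_glue (c5_1_354) (allR_glue (c5_1_355) (c5_1_356) rfl) rfl) (allR_glue (allR_glue (c5_1_357) (c5_1_358) rfl) (allR_glue (c5_1_359) (c5_1_360) rfl) rfl) rfl) (allR_glue (allR_glue (c5_1_361) (allR_glue (c5_1_362) (c5_1_363) rfl) rfl) (allR_glue (allR_glue (c5_1_364) (c5_1_365) rfl) (allR_glue (c5_1_366) (c5_1_367) rfl) rfl) rfl) rfl) (allR_glue (allR_glue (allR_glue (c5_1_368) (allR_glue (c5_1_369) (c5_1_370) rfl) rfl) (allR_glue (allR_glue (c5_1_371) (c5_1_372) rfl) (allR_glue (c5_1_373) (c5_1_374) rfl) rfl) rfl) (allR_glue (allR_glue (c5_1_375) (allR_glue (c5_1_376)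 (c5_1_377) rfl) rfl) (allR_glue (allR_glue (c5_1_378) (c5_1_379) rfl) (allR_glue (c5_1_380) (c5_1_381) rfl) rfl) rfl) rfl) rfl) rfl) (allR_glue (allR_glue (allR_glue (allR_glue (allR_glue (c5_1_382) (allR_glue (c5_1_383) (c5_1_384) rfl) rfl) (allR_glue (c5_1_385) (allR_glue (c5_1_386) (c5_1_387) rfl) rfl) rfl) (allR_glue (allR_glue (c5_1_388) (allR_glue (c5_1_389) (c5_1_390) rfl) rfl) (allR_glue (allR_glue (c5_1_391) (c5_1_392) rfl) (allR_glue (c5_1_393) (c5_1_394) rfl) rfl) rfl) rfl) (allR_glue (allR_glue (allR_glue (c5_1_395) (allR_glue (c5_1_396) (c5_1_397) rfl) rfl) (allR_glue (allR_glue (c5_1_398) (c5_1_399) rfl) (allR_glue (c5_1_400) (c5_1_401) rfl) rfl) rfl) (allR_glue (allR_glue (c5_1_402) (allR_glue (c5_1_403) (c5_1_404) rfl) rfl) (allR_glue (allR_glue (c5_1_405) (c5_1_406) rfl) (allR_glue (c5_1_407) (c5_1_408) rfl) rfl) rfl) rfl) rfl) (allR_glue (allR_glue (allR_glue (allR_glue (c5_1_409) (allR_glue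 (c5_1_410) (c5_1_411) rfl) rfl) (allR_glue (allR_glue (c5_1_412) (c5_1_413) rfl) (allR_glue (c5_1_414) (c5_1_415) rfl) rfl) rfl) (allR_glue (allR_glue (c5_1_416) (allR_glue (c5_1_417) (c5_1_418) rfl) rfl) (allR_glue (allR_glue (c5_1_419) (c5_1_420) rfl) (allR_glue (c5_1_421) (c5_1_422) rfl) rfl) rfl) rfl) (allR_glue (allR_glue (allR_glue (c5_1_423) (allR_glue (c5_1_424) (c5_1_425) rfl) rfl) (allR_glue (allR_glue (c5_1_426) (c5_1_427) rfl) (allR_glue (c5_1_428) (c5_1_429) rfl) rfl) rfl) (allR_glue (allR_glue (c5_1_430) (allR_glue (c5_1_431) (c5_1_432) rfl) rfl) (allR_glue (allR_glue (c5_1_433) (c5_1_434) rfl) (allR_glue (c5_1_435) (c5_1_436) rfl) rfl) rfl) rfl) rfl) rfl) rfl) rfl) rfl) rfl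

theorem all_c5_2 : ∀ x, x < N → (compatChk t2 l5) x = true :=
  of_chain (allR_glue (allR_glue (allR_glue (allR_glue (allR_glue (allR_glue (allR_glue (allR_glue (c5_2_0) (allR_glue (c5_2_1) (c5_2_2) rfl) rfl) (allR_glue (c5_2_3) (allR_glue (c5_2_4) (c5_2_5) rfl) rfl) rfl) (allR_glue (allR_glue (c5_2_6) (allR_glue (c5_2_7) (c5_2_8) rfl) rfl) (allR_glue (allR_glue (c5_2_9) (c5_2_10) rfl) (allR_glue (c5_2_11) (c5_2_12) rfl) rfl) rfl) rfl) (allR_glue (allR_glue (allR_glue (c5_2_13) (allR_glue (c5_2_14) (c5_2_15) rfl) rfl) (allR_glue (allR_glue (c5_2_16) (c5_2_17) rfl) (allR_glue (c5_2_18) (c5_2_19) rfl) rfl) rfl) (allR_glue (allR_glue (c5_2_20) (allR_glue (c5_2_21) (c5_2_22) rfl) rfl) (allR_glue (allR_glue (c5_2_23) (c5_2_24) rfl) (allR_glue (c5_2_25) (c5_2_26) rfl) rfl) rfl) rfl) rfl) (allR_glue (allR_glue (allR_glue (allR_glue (c5_2_27) (allR_glue (c5_2_28) (c5_2_29) rfl) rfl) (allR_glue (c5_2_30) (allR_glue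 (c5_2_31) (c5_2_32) rfl) rfl) rfl) (allR_glue (allR_glue (c5_2_33) (allR_glue (c5_2_34) (c5_2_35) rfl) rfl) (allR_glue (allR_glue (c5_2_36) (c5_2_37) rfl) (allR_glue (c5_2_38) (c5_2_39) rfl) rfl) rfl) rfl) (allR_glue (allR_glue (allR_glue (c5_2_40) (allR_glue (c5_2_41) (c5_2_42) rfl) rfl) (allR_glue (allR_glue (c5_2_43) (c5_2_44) rfl) (allR_glue (c5_2_45) (c5_2_46) rfl) rfl) rfl) (allR_glue (allR_glue (c5_2_47) (allR_glue (c5_2_48) (c5_2_49) rfl) rfl) (allR_glue (allR_glue (c5_2_50) (c5_2_51) rfl) (allR_glue (c5_2_52) (c5_2_53) rfl) rfl) rfl) rfl) rfl) rfl) (allR_glue (allR_glue (allR_glue (allR_glue (allR_glue (c5_2_54) (allR_glue (c5_2_55) (c5_2_56) rfl) rfl) (allR_glue (c5_2_57) (allR_glue (c5_2_58) (c5_2_59) rfl) rfl) rfl) (allR_glue (allR_glue (c5_2_60) (allR_glue (c5_2_61) (c5_2_62) rfl) rfl) (allR_glue (allR_glue (c5_2_63) (c5_2_64) rfl) (allR_glue (c5_2_65) (c5_2_66) rfl) rfl) rfl) rfl) (allR_glue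 (allR_glue (allR_glue (c5_2_67) (allR_glue (c5_2_68) (c5_2_69) rfl) rfl) (allR_glue (allR_glue (c5_2_70) (c5_2_71) rfl) (allR_glue (c5_2_72) (c5_2_73) rfl) rfl) rfl) (allR_glue (allR_glue (c5_2_74) (allR_glue (c5_2_75) (c5_2_76) rfl) rfl) (allR_glue (allR_glue (c5_2_77) (c5_2_78) rfl) (allR_glue (c5_2_79) (c5_2_80) rfl) rfl) rfl) rfl) rfl) (allR_glue (allR_glue (allR_glue (allR_glue (c5_2_81) (allR_glue (c5_2_82) (c5_2_83) rfl) rfl) (allR_glue (allR_glue (c5_2_84) (c5_2_85) rfl) (allR_glue (c5_2_86) (c5_2_87) rfl) rfl) rfl) (allR_glue (allR_glue (c5_2_88) (allR_glue (c5_2_89) (c5_2_90) rfl) rfl) (allR_glue (allR_glue (c5_2_91) (c5_2_92) rfl) (allR_glue (c5_2_93) (c5_2_94) rfl) rfl) rfl) rfl) (allR_glue (allR_glue (allR_glue (c5_2_95) (allR_glue (c5_2_96) (c5_2_97) rfl) rfl) (allR_glue (allR_glue (c5_2_98) (c5_2_99) rfl) (allR_glue (c5_2_100) (c5_2_101) rfl) rfl) rfl) (allR_glue (allR_glue (c5_2_102) (allR_glue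 (c5_2_103) (c5_2_104) rfl) rfl) (allR_glue (allR_glue (c5_2_105) (c5_2_106) rfl) (allR_glue (c5_2_107) (c5_2_108) rfl) rfl) rfl) rfl) rfl) rfl) rfl) (allR_glue (allR_glue (allR_glue (allR_glue (allR_glue (allR_glue (c5_2_109) (allR_glue (c5_2_110) (c5_2_111) rfl) rfl) (allR_glue (c5_2_112) (allR_glue (c5_2_113) (c5_2_114) rfl) rfl) rfl) (allR_glue (allR_glue (c5_2_115) (allR_glue (c5_2_116) (c5_2_117) rfl) rfl) (allR_glue (allR_glue (c5_2_118) (c5_2_119) rfl) (allR_glue (c5_2_120) (c5_2_121) rfl) rfl) rfl) rfl) (allR_glue (allR_glue (allR_glue (c5_2_122) (allR_glue (c5_2_123) (c5_2_124) rfl) rfl) (allR_glue (allR_glue (c5_2_125) (c5_2_126) rfl) (allR_glue (c5_2_127) (c5_2_128) rfl) rfl) rfl) (allR_glue (allR_glue (c5_2_129) (allR_glue (c5_2_130) (c5_2_131) rfl) rfl) (allR_glue (allR_glue (c5_2_132) (c5_2_133) rfl) (allR_glue (c5_2_134) (c5_2_135) rfl) rfl) rfl) rfl) rfl) (allR_glue (allR_glue (allR_glue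 (allR_glue (c5_2_136) (allR_glue (c5_2_137) (c5_2_138) rfl) rfl) (allR_glue (c5_2_139) (allR_glue (c5_2_140) (c5_2_141) rfl) rfl) rfl) (allR_glue (allR_glue (c5_2_142) (allR_glue (c5_2_143) (c5_2_144) rfl) rfl) (allR_glue (allR_glue (c5_2_145) (c5_2_146) rfl) (allR_glue (c5_2_147) (c5_2_148) rfl) rfl) rfl) rfl) (allR_glue (allR_glue (allR_glue (c5_2_149) (allR_glue (c5_2_150) (c5_2_151) rfl) rfl) (allR_glue (allR_glue (c5_2_152) (c5_2_153) rfl) (allR_glue (c5_2_154) (c5_2_155) rfl) rfl) rfl) (allR_glue (allR_glue (c5_2_156) (allR_glue (c5_2_157) (c5_2_158) rfl) rfl) (allR_glue (allR_glue (c5_2_159) (c5_2_160) rfl) (allR_glue (c5_2_161) (c5_2_162) rfl) rfl) rfl) rfl) rfl) rfl) (allR_glue (allR_glue (allR_glue (allR_glue (allR_glue (c5_2_163) (allR_glue (c5_2_164) (c5_2_165) rfl) rfl) (allR_glue (c5_2_166) (allR_glue (c5_2_167) (c5_2_168) rfl) rfl) rfl) (allR_glue (allR_glue (c5_2_169) (allR_glue (c5_2_170)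 (c5_2_171) rfl) rfl) (allR_glue (allR_glue (c5_2_172) (c5_2_173) rfl) (allR_glue (c5_2_174) (c5_2_175) rfl) rfl) rfl) rfl) (allR_glue (allR_glue (allR_glue (c5_2_176) (allR_glue (c5_2_177) (c5_2_178) rfl) rfl) (allR_glue (allR_glue (c5_2_179) (c5_2_180) rfl) (allR_glue (c5_2_181) (c5_2_182) rfl) rfl) rfl) (allR_glue (allR_glue (c5_2_183) (allR_glue (c5_2_184) (c5_2_185) rfl) rfl) (allR_glue (allR_glue (c5_2_186) (c5_2_187) rfl) (allR_glue (c5_2_188) (c5_2_189) rfl) rfl) rfl) rfl) rfl) (allR_glue (allR_glue (allR_glue (allR_glue (c5_2_190) (allR_glue (c5_2_191) (c5_2_192) rfl) rfl) (allR_glue (allR_glue (c5_2_193) (c5_2_194) rfl) (allR_glue (c5_2_195) (c5_2_196) rfl) rfl) rfl) (allR_glue (allR_glue (c5_2_197) (allR_glue (c5_2_198) (c5_2_199) rfl) rfl) (allR_glue (allR_glue (c5_2_200) (c5_2_201) rfl) (allR_glue (c5_2_202) (c5_2_203) rfl) rfl) rfl) rfl) (allR_glue (allR_glue (allR_glue (c5_2_204) (allR_glue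 (c5_2_205) (c5_2_206) rfl) rfl) (allR_glue (allR_glue (c5_2_207) (c5_2_208) rfl) (allR_glue (c5_2_209) (c5_2_210) rfl) rfl) rfl) (allR_glue (allR_glue (c5_2_211) (allR_glue (c5_2_212) (c5_2_213) rfl) rfl) (allR_glue (allR_glue (c5_2_214) (c5_2_215) rfl) (allR_glue (c5_2_216) (c5_2_217) rfl) rfl) rfl) rfl) rfl) rfl) rfl) rfl) (allR_glue (allR_glue (allR_glue (allR_glue (allR_glue (allR_glue (allR_glue (c5_2_218) (allR_glue (c5_2_219) (c5_2_220) rfl) rfl) (allR_glue (c5_2_221) (allR_glue (c5_2_222) (c5_2_223) rfl) rfl) rfl) (allR_glue (allR_glue (c5_2_224) (allR_glue (c5_2_225) (c5_2_226) rfl) rfl) (allR_glue (allR_glue (c5_2_227) (c5_2_228) rfl) (allR_glue (c5_2_229) (c5_2_230) rfl) rfl) rfl) rfl) (allR_glue (allR_glue (allR_glue (c5_2_231) (allR_glue (c5_2_232) (c5_2_233) rfl) rfl) (allR_glue (allR_glue (c5_2_234) (c5_2_235) rfl) (allR_glue (c5_2_236) (c5_2_237) rfl) rfl) rfl) (allR_glue (allR_glue (c5_2_238)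 (allR_glue (c5_2_239) (c5_2_240) rfl) rfl) (allR_glue (allR_glue (c5_2_241) (c5_2_242) rfl) (allR_glue (c5_2_243) (c5_2_244) rfl) rfl) rfl) rfl) rfl) (allR_glue (allR_glue (allR_glue (allR_glue (c5_2_245) (allR_glue (c5_2_246) (c5_2_247) rfl) rfl) (allR_glue (c5_2_248) (allR_glue (c5_2_249) (c5_2_250) rfl) rfl) rfl) (allR_glue (allR_glue (c5_2_251) (allR_glue (c5_2_252) (c5_2_253) rfl) rfl) (allR_glue (allR_glue (c5_2_254) (c5_2_255) rfl) (allR_glue (c5_2_256) (c5_2_257) rfl) rfl) rfl) rfl) (allR_glue (allR_glue (allR_glue (c5_2_258) (allR_glue (c5_2_259) (c5_2_260) rfl) rfl) (allR_glue (allR_glue (c5_2_261) (c5_2_262) rfl) (allR_glue (c5_2_263) (c5_2_264) rfl) rfl) rfl) (allR_glue (allR_glue (c5_2_265) (allR_glue (c5_2_266) (c5_2_267) rfl) rfl) (allR_glue (allR_glue (c5_2_268) (c5_2_269) rfl) (allR_glue (c5_2_270) (c5_2_271) rfl) rfl) rfl) rfl) rfl) rfl) (allR_glue (allR_glue (allR_glue (allR_glue (allR_glue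 (c5_2_272) (allR_glue (c5_2_273) (c5_2_274) rfl) rfl) (allR_glue (c5_2_275) (allR_glue (c5_2_276) (c5_2_277) rfl) rfl) rfl) (allR_glue (allR_glue (c5_2_278) (allR_glue (c5_2_279) (c5_2_280) rfl) rfl) (allR_glue (allR_glue (c5_2_281) (c5_2_282) rfl) (allR_glue (c5_2_283) (c5_2_284) rfl) rfl) rfl) rfl) (allR_glue (allR_glue (allR_glue (c5_2_285) (allR_glue (c5_2_286) (c5_2_287) rfl) rfl) (allR_glue (allR_glue (c5_2_288) (c5_2_289) rfl) (allR_glue (c5_2_290) (c5_2_291) rfl) rfl) rfl) (allR_glue (allR_glue (c5_2_292) (allR_glue (c5_2_293) (c5_2_294) rfl) rfl) (allR_glue (allR_glue (c5_2_295) (c5_2_296) rfl) (allR_glue (c5_2_297) (c5_2_298) rfl) rfl) rfl) rfl) rfl) (allR_glue (allR_glue (allR_glue (allR_glue (c5_2_299) (allR_glue (c5_2_300) (c5_2_301) rfl) rfl) (allR_glue (allR_glue (c5_2_302) (c5_2_303) rfl) (allR_glue (c5_2_304) (c5_2_305) rfl) rfl) rfl) (allR_glue (allR_glue (c5_2_306) (allR_glue (c5_2_307)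 (c5_2_308) rfl) rfl) (allR_glue (allR_glue (c5_2_309) (c5_2_310) rfl) (allR_glue (c5_2_311) (c5_2_312) rfl) rfl) rfl) rfl) (allR_glue (allR_glue (allR_glue (c5_2_313) (allR_glue (c5_2_314) (c5_2_315) rfl) rfl) (allR_glue (allR_glue (c5_2_316) (c5_2_317) rfl) (allR_glue (c5_2_318) (c5_2_319) rfl) rfl) rfl) (allR_glue (allR_glue (c5_2_320) (allR_glue (c5_2_321) (c5_2_322) rfl) rfl) (allR_glue (allR_glue (c5_2_323) (c5_2_324) rfl) (allR_glue (c5_2_325) (c5_2_326) rfl) rfl) rfl) rfl) rfl) rfl) rfl) (allR_glue (allR_glue (allR_glue (allR_glue (allR_glue (allR_glue (c5_2_327) (allR_glue (c5_2_328) (c5_2_329) rfl) rfl) (allR_glue (c5_2_330) (allR_glue (c5_2_331) (c5_2_332) rfl) rfl) rfl) (allR_glue (allR_glue (c5_2_333) (allR_glue (c5_2_334) (c5_2_335) rfl) rfl) (allR_glue (allR_glue (c5_2_336) (c5_2_337) rfl) (allR_glue (c5_2_338) (c5_2_339) rfl) rfl) rfl) rfl) (allR_glue (allR_glue (allR_glue (c5_2_340) (allR_glue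 (c5_2_341) (c5_2_342) rfl) rfl) (allR_glue (allR_glue (c5_2_343) (c5_2_344) rfl) (allR_glue (c5_2_345) (c5_2_346) rfl) rfl) rfl) (allR_glue (allR_glue (c5_2_347) (allR_glue (c5_2_348) (c5_2_349) rfl) rfl) (allR_glue (allR_glue (c5_2_350) (c5_2_351) rfl) (allR_glue (c5_2_352) (c5_2_353) rfl) rfl) rfl) rfl) rfl) (allR_glue (allR_glue (allR_glue (allR_glue (c5_2_354) (allR_glue (c5_2_355) (c5_2_356) rfl) rfl) (allR_glue (allR_glue (c5_2_357) (c5_2_358) rfl) (allR_glue (c5_2_359) (c5_2_360) rfl) rfl) rfl) (allR_glue (allR_glue (c5_2_361) (allR_glue (c5_2_362) (c5_2_363) rfl) rfl) (allR_glue (allR_glue (c5_2_364) (c5_2_365) rfl) (allR_glue (c5_2_366) (c5_2_367) rfl) rfl) rfl) rfl) (allR_glue (allR_glue (allR_glue (c5_2_368) (allR_glue (c5_2_369) (c5_2_370) rfl) rfl) (allR_glue (allR_glue (c5_2_371) (c5_2_372) rfl) (allR_glue (c5_2_373) (c5_2_374) rfl) rfl) rfl) (allR_glue (allR_glue (c5_2_375) (allR_glue (c5_2_376)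 (c5_2_377) rfl) rfl) (allR_glue (allR_glue (c5_2_378) (c5_2_379) rfl) (allR_glue (c5_2_380) (c5_2_381) rfl) rfl) rfl) rfl) rfl) rfl) (allR_glue (allR_glue (allR_glue (allR_glue (allR_glue (c5_2_382) (allR_glue (c5_2_383) (c5_2_384) rfl) rfl) (allR_glue (c5_2_385) (allR_glue (c5_2_386) (c5_2_387) rfl) rfl) rfl) (allR_glue (allR_glue (c5_2_388) (allR_glue (c5_2_389) (c5_2_390) rfl) rfl) (allR_glue (allR_glue (c5_2_391) (c5_2_392) rfl) (allR_glue (c5_2_393) (c5_2_394) rfl) rfl) rfl) rfl) (allR_glue (allR_glue (allR_glue (c5_2_395) (allR_glue (c5_2_396) (c5_2_397) rfl) rfl) (allR_glue (allR_glue (c5_2_398) (c5_2_399) rfl) (allR_glue (c5_2_400) (c5_2_401) rfl) rfl) rfl) (allR_glue (allR_glue (c5_2_402) (allR_glue (c5_2_403) (c5_2_404) rfl) rfl) (allR_glue (allR_glue (c5_2_405) (c5_2_406) rfl) (allR_glue (c5_2_407) (c5_2_408) rfl) rfl) rfl) rfl) rfl) (allR_glue (allR_glue (allR_glue (allR_glue (c5_2_409) (allR_glue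 (c5_2_410) (c5_2_411) rfl) rfl) (allR_glue (allR_glue (c5_2_412) (c5_2_413) rfl) (allR_glue (c5_2_414) (c5_2_415) rfl) rfl) rfl) (allR_glue (allR_glue (c5_2_416) (allR_glue (c5_2_417) (c5_2_418) rfl) rfl) (allR_glue (allR_glue (c5_2_419) (c5_2_420) rfl) (allR_glue (c5_2_421) (c5_2_422) rfl) rfl) rfl) rfl) (allR_glue (allR_glue (allR_glue (c5_2_423) (allR_glue (c5_2_424) (c5_2_425) rfl) rfl) (allR_glue (allR_glue (c5_2_426) (c5_2_427) rfl) (allR_glue (c5_2_428) (c5_2_429) rfl) rfl) rfl) (allR_glue (allR_glue (c5_2_430) (allR_glue (c5_2_431) (c5_2_432) rfl) rfl) (allR_glue (allR_glue (c5_2_433) (c5_2_434) rfl) (allR_glue (c5_2_435) (c5_2_436) rfl) rfl) rfl) rfl) rfl) rfl) rfl) rfl) rfl) rfl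

theorem all_step : ∀ x, x < N → (stepChk tt cc hi N rk rT term) x = true :=
  of_chain (allR_glue (allR_glue (allR_glue (allR_glue (allR_glue (allR_glue (allR_glue (allR_glue (allR_glue (allR_glue (step_0) (step_1) rfl) (allR_glue (step_2) (step_3) rfl) rfl) (allR_glue (allR_glue (step_4) (step_5) rfl) (allR_glue (step_6) (step_7) rfl) rfl) rfl) (allR_glue (allR_glue (allR_glue (step_8) (step_9) rfl) (allR_glue (step_10) (step_11) rfl) rfl) (allR_glue (allR_glue (step_12) (step_13) rfl) (allR_glue (step_14) (allR_glue (step_15) (step_16) rfl) rfl) rfl) rfl) rfl) (allR_glue (allR_glue (allR_glue (allR_glue (step_17) (step_18) rfl) (allR_glue (step_19) (step_20) rfl) rfl) (allR_glue (allR_glue (step_21) (step_22) rfl) (allR_glue (step_23) (step_24) rfl) rfl) rfl) (allR_glue (allR_glue (allR_glue (step_25) (step_26) rfl) (allR_glue (step_27) (step_28) rfl) rfl) (allR_glue (allR_glue (step_29) (step_30) rfl)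 (allR_glue (step_31) (allR_glue (step_32) (step_33) rfl) rfl) rfl) rfl) rfl) rfl) (allR_glue (allR_glue (allR_glue (allR_glue (allR_glue (step_34) (step_35) rfl) (allR_glue (step_36) (step_37) rfl) rfl) (allR_glue (allR_glue (step_38) (step_39) rfl) (allR_glue (step_40) (step_41) rfl) rfl) rfl) (allR_glue (allR_glue (allR_glue (step_42) (step_43) rfl) (allR_glue (step_44) (step_45) rfl) rfl) (allR_glue (allR_glue (step_46) (step_47) rfl) (allR_glue (step_48) (allR_glue (step_49) (step_50) rfl) rfl) rfl) rfl) rfl) (allR_glue (allR_glue (allR_glue (allR_glue (step_51) (step_52) rfl) (allR_glue (step_53) (step_54) rfl) rfl) (allR_glue (allR_glue (step_55) (step_56) rfl) (allR_glue (step_57) (step_58) rfl) rfl) rfl) (allR_glue (allR_glue (allR_glue (step_59) (step_60) rfl) (allR_glue (step_61) (step_62) rfl) rfl) (allR_glue (allR_glue (step_63) (step_64) rfl) (allR_glue (step_65) (allR_glue (step_66) (step_67)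 rfl) rfl) rfl) rfl) rfl) rfl) rfl) (allR_glue (allR_glue (allR_glue (allR_glue (allR_glue (allR_glue (step_68) (step_69) rfl) (allR_glue (step_70) (step_71) rfl) rfl) (allR_glue (allR_glue (step_72) (step_73) rfl) (allR_glue (step_74) (step_75) rfl) rfl) rfl) (allR_glue (allR_glue (allR_glue (step_76) (step_77) rfl) (allR_glue (step_78) (step_79) rfl) rfl) (allR_glue (allR_glue (step_80) (step_81) rfl) (allR_glue (step_82) (allR_glue (step_83) (step_84) rfl) rfl) rfl) rfl) rfl) (allR_glue (allR_glue (allR_glue (allR_glue (step_85) (step_86) rfl) (allR_glue (step_87) (step_88) rfl) rfl) (allR_glue (allR_glue (step_89) (step_90) rfl) (allR_glue (step_91) (step_92) rfl) rfl) rfl) (allR_glue (allR_glue (allR_glue (step_93) (step_94) rfl) (allR_glue (step_95) (step_96) rfl) rfl) (allR_glue (allR_glue (step_97) (step_98) rfl) (allR_glue (step_99) (allR_glue (step_100) (step_101) rfl) rfl) rfl) rfl) rfl) rfl)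 (allR_glue (allR_glue (allR_glue (allR_glue (allR_glue (step_102) (step_103) rfl) (allR_glue (step_104) (step_105) rfl) rfl) (allR_glue (allR_glue (step_106) (step_107) rfl) (allR_glue (step_108) (step_109) rfl) rfl) rfl) (allR_glue (allR_glue (allR_glue (step_110) (step_111) rfl) (allR_glue (step_112) (step_113) rfl) rfl) (allR_glue (allR_glue (step_114) (step_115) rfl) (allR_glue (step_116) (allR_glue (step_117) (step_118) rfl) rfl) rfl) rfl) rfl) (allR_glue (allR_glue (allR_glue (allR_glue (step_119) (step_120) rfl) (allR_glue (step_121) (step_122) rfl) rfl) (allR_glue (allR_glue (step_123) (step_124) rfl) (allR_glue (step_125) (step_126) rfl) rfl) rfl) (allR_glue (allR_glue (allR_glue (step_127) (step_128) rfl) (allR_glue (step_129) (step_130) rfl) rfl) (allR_glue (allR_glue (step_131) (step_132) rfl) (allR_glue (step_133) (allR_glue (step_134) (step_135) rfl) rfl) rfl) rfl) rfl) rfl) rfl) rfl) (allR_glue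 (allR_glue (allR_glue (allR_glue (allR_glue (allR_glue (allR_glue (step_136) (step_137) rfl) (allR_glue (step_138) (step_139) rfl) rfl) (allR_glue (allR_glue (step_140) (step_141) rfl) (allR_glue (step_142) (step_143) rfl) rfl) rfl) (allR_glue (allR_glue (allR_glue (step_144) (step_145) rfl) (allR_glue (step_146) (step_147) rfl) rfl) (allR_glue (allR_glue (step_148) (step_149) rfl) (allR_glue (step_150) (allR_glue (step_151) (step_152) rfl) rfl) rfl) rfl) rfl) (allR_glue (allR_glue (allR_glue (allR_glue (step_153) (step_154) rfl) (allR_glue (step_155) (step_156) rfl) rfl) (allR_glue (allR_glue (step_157) (step_158) rfl) (allR_glue (step_159) (step_160) rfl) rfl) rfl) (allR_glue (allR_glue (allR_glue (step_161) (step_162) rfl) (allR_glue (step_163) (step_164) rfl) rfl) (allR_glue (allR_glue (step_165) (step_166) rfl) (allR_glue (step_167) (allR_glue (step_168) (step_169) rfl) rfl) rfl) rfl) rfl) rfl) (allR_glue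 (allR_glue (allR_glue (allR_glue (allR_glue (step_170) (step_171) rfl) (allR_glue (step_172) (step_173) rfl) rfl) (allR_glue (allR_glue (step_174) (step_175) rfl) (allR_glue (step_176) (step_177) rfl) rfl) rfl) (allR_glue (allR_glue (allR_glue (step_178) (step_179) rfl) (allR_glue (step_180) (step_181) rfl) rfl) (allR_glue (allR_glue (step_182) (step_183) rfl) (allR_glue (step_184) (allR_glue (step_185) (step_186) rfl) rfl) rfl) rfl) rfl) (allR_glue (allR_glue (allR_glue (allR_glue (step_187) (step_188) rfl) (allR_glue (step_189) (step_190) rfl) rfl) (allR_glue (allR_glue (step_191) (step_192) rfl) (allR_glue (step_193) (step_194) rfl) rfl) rfl) (allR_glue (allR_glue (allR_glue (step_195) (step_196) rfl) (allR_glue (step_197) (step_198) rfl) rfl) (allR_glue (allR_glue (step_199) (step_200) rfl) (allR_glue (step_201) (allR_glue (step_202) (step_203) rfl) rfl) rfl) rfl) rfl) rfl) rfl) (allR_glue (allR_glue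 (allR_glue (allR_glue (allR_glue (allR_glue (step_204) (step_205) rfl) (allR_glue (step_206) (step_207) rfl) rfl) (allR_glue (allR_glue (step_208) (step_209) rfl) (allR_glue (step_210) (step_211) rfl) rfl) rfl) (allR_glue (allR_glue (allR_glue (step_212) (step_213) rfl) (allR_glue (step_214) (step_215) rfl) rfl) (allR_glue (allR_glue (step_216) (step_217) rfl) (allR_glue (step_218) (allR_glue (step_219) (step_220) rfl) rfl) rfl) rfl) rfl) (allR_glue (allR_glue (allR_glue (allR_glue (step_221) (step_222) rfl) (allR_glue (step_223) (step_224) rfl) rfl) (allR_glue (allR_glue (step_225) (step_226) rfl) (allR_glue (step_227) (step_228) rfl) rfl) rfl) (allR_glue (allR_glue (allR_glue (step_229) (step_230) rfl) (allR_glue (step_231) (step_232) rfl) rfl) (allR_glue (allR_glue (step_233) (step_234) rfl) (allR_glue (step_235) (allR_glue (step_236) (step_237) rfl) rfl) rfl) rfl) rfl) rfl) (allR_glue (allR_glue (allR_glue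 (allR_glue (allR_glue (step_238) (step_239) rfl) (allR_glue (step_240) (step_241) rfl) rfl) (allR_glue (allR_glue (step_242) (step_243) rfl) (allR_glue (step_244) (step_245) rfl) rfl) rfl) (allR_glue (allR_glue (allR_glue (step_246) (step_247) rfl) (allR_glue (step_248) (step_249) rfl) rfl) (allR_glue (allR_glue (step_250) (step_251) rfl) (allR_glue (step_252) (allR_glue (step_253) (step_254) rfl) rfl) rfl) rfl) rfl) (allR_glue (allR_glue (allR_glue (allR_glue (step_255) (step_256) rfl) (allR_glue (step_257) (step_258) rfl) rfl) (allR_glue (allR_glue (step_259) (step_260) rfl) (allR_glue (step_261) (allR_glue (step_262) (step_263) rfl) rfl) rfl) rfl) (allR_glue (allR_glue (allR_glue (step_264) (step_265) rfl) (allR_glue (step_266) (step_267) rfl) rfl) (allR_glue (allR_glue (step_268) (step_269) rfl) (allR_glue (step_270) (allR_glue (step_271) (step_272) rfl) rfl) rfl) rfl) rfl) rfl) rfl) rfl) rfl) (allR_glue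 (allR_glue (allR_glue (allR_glue (allR_glue (allR_glue (allR_glue (allR_glue (step_273) (step_274) rfl) (allR_glue (step_275) (step_276) rfl) rfl) (allR_glue (allR_glue (step_277) (step_278) rfl) (allR_glue (step_279) (step_280) rfl) rfl) rfl) (allR_glue (allR_glue (allR_glue (step_281) (step_282) rfl) (allR_glue (step_283) (step_284) rfl) rfl) (allR_glue (allR_glue (step_285) (step_286) rfl) (allR_glue (step_287) (allR_glue (step_288) (step_289) rfl) rfl) rfl) rfl) rfl) (allR_glue (allR_glue (allR_glue (allR_glue (step_290) (step_291) rfl) (allR_glue (step_292) (step_293) rfl) rfl) (allR_glue (allR_glue (step_294) (step_295) rfl) (allR_glue (step_296) (step_297) rfl) rfl) rfl) (allR_glue (allR_glue (allR_glue (step_298) (step_299) rfl) (allR_glue (step_300) (step_301) rfl) rfl) (allR_glue (allR_glue (step_302) (step_303) rfl) (allR_glue (step_304) (allR_glue (step_305) (step_306) rfl) rfl) rfl) rfl) rfl)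 rfl) (allR_glue (allR_glue (allR_glue (allR_glue (allR_glue (step_307) (step_308) rfl) (allR_glue (step_309) (step_310) rfl) rfl) (allR_glue (allR_glue (step_311) (step_312) rfl) (allR_glue (step_313) (step_314) rfl) rfl) rfl) (allR_glue (allR_glue (allR_glue (step_315) (step_316) rfl) (allR_glue (step_317) (step_318) rfl) rfl) (allR_glue (allR_glue (step_319) (step_320) rfl) (allR_glue (step_321) (allR_glue (step_322) (step_323) rfl) rfl) rfl) rfl) rfl) (allR_glue (allR_glue (allR_glue (allR_glue (step_324) (step_325) rfl) (allR_glue (step_326) (step_327) rfl) rfl) (allR_glue (allR_glue (step_328) (step_329) rfl) (allR_glue (step_330) (step_331) rfl) rfl) rfl) (allR_glue (allR_glue (allR_glue (step_332) (step_333) rfl) (allR_glue (step_334) (step_335) rfl) rfl) (allR_glue (allR_glue (step_336) (step_337) rfl) (allR_glue (step_338) (allR_glue (step_339) (step_340) rfl) rfl) rfl) rfl) rfl) rfl) rfl) (allR_glue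 (allR_glue (allR_glue (allR_glue (allR_glue (allR_glue (step_341) (step_342) rfl) (allR_glue (step_343) (step_344) rfl) rfl) (allR_glue (allR_glue (step_345) (step_346) rfl) (allR_glue (step_347) (step_348) rfl) rfl) rfl) (allR_glue (allR_glue (allR_glue (step_349) (step_350) rfl) (allR_glue (step_351) (step_352) rfl) rfl) (allR_glue (allR_glue (step_353) (step_354) rfl) (allR_glue (step_355) (allR_glue (step_356) (step_357) rfl) rfl) rfl) rfl) rfl) (allR_glue (allR_glue (allR_glue (allR_glue (step_358) (step_359) rfl) (allR_glue (step_360) (step_361) rfl) rfl) (allR_glue (allR_glue (step_362) (step_363) rfl) (allR_glue (step_364) (step_365) rfl) rfl) rfl) (allR_glue (allR_glue (allR_glue (step_366) (step_367) rfl) (allR_glue (step_368) (step_369) rfl) rfl) (allR_glue (allR_glue (step_370) (step_371) rfl) (allR_glue (step_372) (allR_glue (step_373) (step_374) rfl) rfl) rfl) rfl) rfl) rfl) (allR_glue (allR_glue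 (allR_glue (allR_glue (allR_glue (step_375) (step_376) rfl) (allR_glue (step_377) (step_378) rfl) rfl) (allR_glue (allR_glue (step_379) (step_380) rfl) (allR_glue (step_381) (step_382) rfl) rfl) rfl) (allR_glue (allR_glue (allR_glue (step_383) (step_384) rfl) (allR_glue (step_385) (step_386) rfl) rfl) (allR_glue (allR_glue (step_387) (step_388) rfl) (allR_glue (step_389) (allR_glue (step_390) (step_391) rfl) rfl) rfl) rfl) rfl) (allR_glue (allR_glue (allR_glue (allR_glue (step_392) (step_393) rfl) (allR_glue (step_394) (step_395) rfl) rfl) (allR_glue (allR_glue (step_396) (step_397) rfl) (allR_glue (step_398) (step_399) rfl) rfl) rfl) (allR_glue (allR_glue (allR_glue (step_400) (step_401) rfl) (allR_glue (step_402) (step_403) rfl) rfl) (allR_glue (allR_glue (step_404) (step_405) rfl) (allR_glue (step_406) (allR_glue (step_407) (step_408) rfl) rfl) rfl) rfl) rfl) rfl) rfl) rfl) (allR_glue (allR_glue (allR_glue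 (allR_glue (allR_glue (allR_glue (allR_glue (step_409) (step_410) rfl) (allR_glue (step_411) (step_412) rfl) rfl) (allR_glue (allR_glue (step_413) (step_414) rfl) (allR_glue (step_415) (step_416) rfl) rfl) rfl) (allR_glue (allR_glue (allR_glue (step_417) (step_418) rfl) (allR_glue (step_419) (step_420) rfl) rfl) (allR_glue (allR_glue (step_421) (step_422) rfl) (allR_glue (step_423) (allR_glue (step_424) (step_425) rfl) rfl) rfl) rfl) rfl) (allR_glue (allR_glue (allR_glue (allR_glue (step_426) (step_427) rfl) (allR_glue (step_428) (step_429) rfl) rfl) (allR_glue (allR_glue (step_430) (step_431) rfl) (allR_glue (step_432) (step_433) rfl) rfl) rfl) (allR_glue (allR_glue (allR_glue (step_434) (step_435) rfl) (allR_glue (step_436) (step_437) rfl) rfl) (allR_glue (allR_glue (step_438) (step_439) rfl) (allR_glue (step_440) (allR_glue (step_441) (step_442) rfl) rfl) rfl) rfl) rfl) rfl) (allR_glue (allR_glue (allR_glue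 (allR_glue (allR_glue (step_443) (step_444) rfl) (allR_glue (step_445) (step_446) rfl) rfl) (allR_glue (allR_glue (step_447) (step_448) rfl) (allR_glue (step_449) (step_450) rfl) rfl) rfl) (allR_glue (allR_glue (allR_glue (step_451) (step_452) rfl) (allR_glue (step_453) (step_454) rfl) rfl) (allR_glue (allR_glue (step_455) (step_456) rfl) (allR_glue (step_457) (allR_glue (step_458) (step_459) rfl) rfl) rfl) rfl) rfl) (allR_glue (allR_glue (allR_glue (allR_glue (step_460) (step_461) rfl) (allR_glue (step_462) (step_463) rfl) rfl) (allR_glue (allR_glue (step_464) (step_465) rfl) (allR_glue (step_466) (step_467) rfl) rfl) rfl) (allR_glue (allR_glue (allR_glue (step_468) (step_469) rfl) (allR_glue (step_470) (step_471) rfl) rfl) (allR_glue (allR_glue (step_472) (step_473) rfl) (allR_glue (step_474) (allR_glue (step_475) (step_476) rfl) rfl) rfl) rfl) rfl) rfl) rfl) (allR_glue (allR_glue (allR_glue (allR_glue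 (allR_glue (allR_glue (step_477) (step_478) rfl) (allR_glue (step_479) (step_480) rfl) rfl) (allR_glue (allR_glue (step_481) (step_482) rfl) (allR_glue (step_483) (step_484) rfl) rfl) rfl) (allR_glue (allR_glue (allR_glue (step_485) (step_486) rfl) (allR_glue (step_487) (step_488) rfl) rfl) (allR_glue (allR_glue (step_489) (step_490) rfl) (allR_glue (step_491) (allR_glue (step_492) (step_493) rfl) rfl) rfl) rfl) rfl) (allR_glue (allR_glue (allR_glue (allR_glue (step_494) (step_495) rfl) (allR_glue (step_496) (step_497) rfl) rfl) (allR_glue (allR_glue (step_498) (step_499) rfl) (allR_glue (step_500) (step_501) rfl) rfl) rfl) (allR_glue (allR_glue (allR_glue (step_502) (step_503) rfl) (allR_glue (step_504) (step_505) rfl) rfl) (allR_glue (allR_glue (step_506) (step_507) rfl) (allR_glue (step_508) (allR_glue (step_509) (step_510) rfl) rfl) rfl) rfl) rfl) rfl) (allR_glue (allR_glue (allR_glue (allR_glue (allR_glue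 (step_511) (step_512) rfl) (allR_glue (step_513) (step_514) rfl) rfl) (allR_glue (allR_glue (step_515) (step_516) rfl) (allR_glue (step_517) (step_518) rfl) rfl) rfl) (allR_glue (allR_glue (allR_glue (step_519) (step_520) rfl) (allR_glue (step_521) (step_522) rfl) rfl) (allR_glue (allR_glue (step_523) (step_524) rfl) (allR_glue (step_525) (allR_glue (step_526) (step_527) rfl) rfl) rfl) rfl) rfl) (allR_glue (allR_glue (allR_glue (allR_glue (step_528) (step_529) rfl) (allR_glue (step_530) (step_531) rfl) rfl) (allR_glue (allR_glue (step_532) (step_533) rfl) (allR_glue (step_534) (allR_glue (step_535) (step_536) rfl) rfl) rfl) rfl) (allR_glue (allR_glue (allR_glue (step_537) (step_538) rfl) (allR_glue (step_539) (step_540) rfl) rfl) (allR_glue (allR_glue (step_541) (step_542) rfl) (allR_glue (step_543) (allR_glue (step_544) (step_545) rfl) rfl) rfl) rfl) rfl) rfl) rfl) rfl) rfl) rfl) (allR_glue (allR_glue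 (allR_glue (allR_glue (allR_glue (allR_glue (allR_glue (allR_glue (allR_glue (step_546) (step_547) rfl) (allR_glue (step_548) (step_549) rfl) rfl) (allR_glue (allR_glue (step_550) (step_551) rfl) (allR_glue (step_552) (step_553) rfl) rfl) rfl) (allR_glue (allR_glue (allR_glue (step_554) (step_555) rfl) (allR_glue (step_556) (step_557) rfl) rfl) (allR_glue (allR_glue (step_558) (step_559) rfl) (allR_glue (step_560) (allR_glue (step_561) (step_562) rfl) rfl) rfl) rfl) rfl) (allR_glue (allR_glue (allR_glue (allR_glue (step_563) (step_564) rfl) (allR_glue (step_565) (step_566) rfl) rfl) (allR_glue (allR_glue (step_567) (step_568) rfl) (allR_glue (step_569) (step_570) rfl) rfl) rfl) (allR_glue (allR_glue (allR_glue (step_571) (step_572) rfl) (allR_glue (step_573) (step_574) rfl) rfl) (allR_glue (allR_glue (step_575) (step_576) rfl) (allR_glue (step_577) (allR_glue (step_578) (step_579) rfl) rfl) rfl) rfl) rfl)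 rfl) (allR_glue (allR_glue (allR_glue (allR_glue (allR_glue (step_580) (step_581) rfl) (allR_glue (step_582) (step_583) rfl) rfl) (allR_glue (allR_glue (step_584) (step_585) rfl) (allR_glue (step_586) (step_587) rfl) rfl) rfl) (allR_glue (allR_glue (allR_glue (step_588) (step_589) rfl) (allR_glue (step_590) (step_591) rfl) rfl) (allR_glue (allR_glue (step_592) (step_593) rfl) (allR_glue (step_594) (allR_glue (step_595) (step_596) rfl) rfl) rfl) rfl) rfl) (allR_glue (allR_glue (allR_glue (allR_glue (step_597) (step_598) rfl) (allR_glue (step_599) (step_600) rfl) rfl) (allR_glue (allR_glue (step_601) (step_602) rfl) (allR_glue (step_603) (step_604) rfl) rfl) rfl) (allR_glue (allR_glue (allR_glue (step_605) (step_606) rfl) (allR_glue (step_607) (step_608) rfl) rfl) (allR_glue (allR_glue (step_609) (step_610) rfl) (allR_glue (step_611) (allR_glue (step_612) (step_613) rfl) rfl) rfl) rfl) rfl) rfl) rfl) (allR_glue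 (allR_glue (allR_glue (allR_glue (allR_glue (allR_glue (step_614) (step_615) rfl) (allR_glue (step_616) (step_617) rfl) rfl) (allR_glue (allR_glue (step_618) (step_619) rfl) (allR_glue (step_620) (step_621) rfl) rfl) rfl) (allR_glue (allR_glue (allR_glue (step_622) (step_623) rfl) (allR_glue (step_624) (step_625) rfl) rfl) (allR_glue (allR_glue (step_626) (step_627) rfl) (allR_glue (step_628) (allR_glue (step_629) (step_630) rfl) rfl) rfl) rfl) rfl) (allR_glue (allR_glue (allR_glue (allR_glue (step_631) (step_632) rfl) (allR_glue (step_633) (step_634) rfl) rfl) (allR_glue (allR_glue (step_635) (step_636) rfl) (allR_glue (step_637) (step_638) rfl) rfl) rfl) (allR_glue (allR_glue (allR_glue (step_639) (step_640) rfl) (allR_glue (step_641) (step_642) rfl) rfl) (allR_glue (allR_glue (step_643) (step_644) rfl) (allR_glue (step_645) (allR_glue (step_646) (step_647) rfl) rfl) rfl) rfl) rfl) rfl) (allR_glue (allR_glue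 (allR_glue (allR_glue (allR_glue (step_648) (step_649) rfl) (allR_glue (step_650) (step_651) rfl) rfl) (allR_glue (allR_glue (step_652) (step_653) rfl) (allR_glue (step_654) (step_655) rfl) rfl) rfl) (allR_glue (allR_glue (allR_glue (step_656) (step_657) rfl) (allR_glue (step_658) (step_659) rfl) rfl) (allR_glue (allR_glue (step_660) (step_661) rfl) (allR_glue (step_662) (allR_glue (step_663) (step_664) rfl) rfl) rfl) rfl) rfl) (allR_glue (allR_glue (allR_glue (allR_glue (step_665) (step_666) rfl) (allR_glue (step_667) (step_668) rfl) rfl) (allR_glue (allR_glue (step_669) (step_670) rfl) (allR_glue (step_671) (step_672) rfl) rfl) rfl) (allR_glue (allR_glue (allR_glue (step_673) (step_674) rfl) (allR_glue (step_675) (step_676) rfl) rfl) (allR_glue (allR_glue (step_677) (step_678) rfl) (allR_glue (step_679) (allR_glue (step_680) (step_681) rfl) rfl) rfl) rfl) rfl) rfl) rfl) rfl) (allR_glue (allR_glue (allR_glue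 (allR_glue (allR_glue (allR_glue (allR_glue (step_682) (step_683) rfl) (allR_glue (step_684) (step_685) rfl) rfl) (allR_glue (allR_glue (step_686) (step_687) rfl) (allR_glue (step_688) (step_689) rfl) rfl) rfl) (allR_glue (allR_glue (allR_glue (step_690) (step_691) rfl) (allR_glue (step_692) (step_693) rfl) rfl) (allR_glue (allR_glue (step_694) (step_695) rfl) (allR_glue (step_696) (allR_glue (step_697) (step_698) rfl) rfl) rfl) rfl) rfl) (allR_glue (allR_glue (allR_glue (allR_glue (step_699) (step_700) rfl) (allR_glue (step_701) (step_702) rfl) rfl) (allR_glue (allR_glue (step_703) (step_704) rfl) (allR_glue (step_705) (step_706) rfl) rfl) rfl) (allR_glue (allR_glue (allR_glue (step_707) (step_708) rfl) (allR_glue (step_709) (step_710) rfl) rfl) (allR_glue (allR_glue (step_711) (step_712) rfl) (allR_glue (step_713) (allR_glue (step_714) (step_715) rfl) rfl) rfl) rfl) rfl) rfl) (allR_glue (allR_glue (allR_glue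 (allR_glue (allR_glue (step_716) (step_717) rfl) (allR_glue (step_718) (step_719) rfl) rfl) (allR_glue (allR_glue (step_720) (step_721) rfl) (allR_glue (step_722) (step_723) rfl) rfl) rfl) (allR_glue (allR_glue (allR_glue (step_724) (step_725) rfl) (allR_glue (step_726) (step_727) rfl) rfl) (allR_glue (allR_glue (step_728) (step_729) rfl) (allR_glue (step_730) (allR_glue (step_731) (step_732) rfl) rfl) rfl) rfl) rfl) (allR_glue (allR_glue (allR_glue (allR_glue (step_733) (step_734) rfl) (allR_glue (step_735) (step_736) rfl) rfl) (allR_glue (allR_glue (step_737) (step_738) rfl) (allR_glue (step_739) (step_740) rfl) rfl) rfl) (allR_glue (allR_glue (allR_glue (step_741) (step_742) rfl) (allR_glue (step_743) (step_744) rfl) rfl) (allR_glue (allR_glue (step_745) (step_746) rfl) (allR_glue (step_747) (allR_glue (step_748) (step_749) rfl) rfl) rfl) rfl) rfl) rfl) rfl) (allR_glue (allR_glue (allR_glue (allR_glue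 (allR_glue (allR_glue (step_750) (step_751) rfl) (allR_glue (step_752) (step_753) rfl) rfl) (allR_glue (allR_glue (step_754) (step_755) rfl) (allR_glue (step_756) (step_757) rfl) rfl) rfl) (allR_glue (allR_glue (allR_glue (step_758) (step_759) rfl) (allR_glue (step_760) (step_761) rfl) rfl) (allR_glue (allR_glue (step_762) (step_763) rfl) (allR_glue (step_764) (allR_glue (step_765) (step_766) rfl) rfl) rfl) rfl) rfl) (allR_glue (allR_glue (allR_glue (allR_glue (step_767) (step_768) rfl) (allR_glue (step_769) (step_770) rfl) rfl) (allR_glue (allR_glue (step_771) (step_772) rfl) (allR_glue (step_773) (step_774) rfl) rfl) rfl) (allR_glue (allR_glue (allR_glue (step_775) (step_776) rfl) (allR_glue (step_777) (step_778) rfl) rfl) (allR_glue (allR_glue (step_779) (step_780) rfl) (allR_glue (step_781) (allR_glue (step_782) (step_783) rfl) rfl) rfl) rfl) rfl) rfl) (allR_glue (allR_glue (allR_glue (allR_glue (allR_glue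 (step_784) (step_785) rfl) (allR_glue (step_786) (step_787) rfl) rfl) (allR_glue (allR_glue (step_788) (step_789) rfl) (allR_glue (step_790) (step_791) rfl) rfl) rfl) (allR_glue (allR_glue (allR_glue (step_792) (step_793) rfl) (allR_glue (step_794) (step_795) rfl) rfl) (allR_glue (allR_glue (step_796) (step_797) rfl) (allR_glue (step_798) (allR_glue (step_799) (step_800) rfl) rfl) rfl) rfl) rfl) (allR_glue (allR_glue (allR_glue (allR_glue (step_801) (step_802) rfl) (allR_glue (step_803) (step_804) rfl) rfl) (allR_glue (allR_glue (step_805) (step_806) rfl) (allR_glue (step_807) (allR_glue (step_808) (step_809) rfl) rfl) rfl) rfl) (allR_glue (allR_glue (allR_glue (step_810) (step_811) rfl) (allR_glue (step_812) (step_813) rfl) rfl) (allR_glue (allR_glue (step_814) (step_815) rfl) (allR_glue (step_816) (allR_glue (step_817) (step_818) rfl) rfl) rfl) rfl) rfl) rfl) rfl) rfl) rfl) (allR_glue (allR_glue (allR_glue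 (allR_glue (allR_glue (allR_glue (allR_glue (allR_glue (step_819) (step_820) rfl) (allR_glue (step_821) (step_822) rfl) rfl) (allR_glue (allR_glue (step_823) (step_824) rfl) (allR_glue (step_825) (step_826) rfl) rfl) rfl) (allR_glue (allR_glue (allR_glue (step_827) (step_828) rfl) (allR_glue (step_829) (step_830) rfl) rfl) (allR_glue (allR_glue (step_831) (step_832) rfl) (allR_glue (step_833) (allR_glue (step_834) (step_835) rfl) rfl) rfl) rfl) rfl) (allR_glue (allR_glue (allR_glue (allR_glue (step_836) (step_837) rfl) (allR_glue (step_838) (step_839) rfl) rfl) (allR_glue (allR_glue (step_840) (step_841) rfl) (allR_glue (step_842) (step_843) rfl) rfl) rfl) (allR_glue (allR_glue (allR_glue (step_844) (step_845) rfl) (allR_glue (step_846) (step_847) rfl) rfl) (allR_glue (allR_glue (step_848) (step_849) rfl) (allR_glue (step_850) (allR_glue (step_851) (step_852) rfl) rfl) rfl) rfl) rfl) rfl) (allR_glue (allR_glue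 (allR_glue (allR_glue (allR_glue (step_853) (step_854) rfl) (allR_glue (step_855) (step_856) rfl) rfl) (allR_glue (allR_glue (step_857) (step_858) rfl) (allR_glue (step_859) (step_860) rfl) rfl) rfl) (allR_glue (allR_glue (allR_glue (step_861) (step_862) rfl) (allR_glue (step_863) (step_864) rfl) rfl) (allR_glue (allR_glue (step_865) (step_866) rfl) (allR_glue (step_867) (allR_glue (step_868) (step_869) rfl) rfl) rfl) rfl) rfl) (allR_glue (allR_glue (allR_glue (allR_glue (step_870) (step_871) rfl) (allR_glue (step_872) (step_873) rfl) rfl) (allR_glue (allR_glue (step_874) (step_875) rfl) (allR_glue (step_876) (step_877) rfl) rfl) rfl) (allR_glue (allR_glue (allR_glue (step_878) (step_879) rfl) (allR_glue (step_880) (step_881) rfl) rfl) (allR_glue (allR_glue (step_882) (step_883) rfl) (allR_glue (step_884) (allR_glue (step_885) (step_886) rfl) rfl) rfl) rfl) rfl) rfl) rfl) (allR_glue (allR_glue (allR_glue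 (allR_glue (allR_glue (allR_glue (step_887) (step_888) rfl) (allR_glue (step_889) (step_890) rfl) rfl) (allR_glue (allR_glue (step_891) (step_892) rfl) (allR_glue (step_893) (step_894) rfl) rfl) rfl) (allR_glue (allR_glue (allR_glue (step_895) (step_896) rfl) (allR_glue (step_897) (step_898) rfl) rfl) (allR_glue (allR_glue (step_899) (step_900) rfl) (allR_glue (step_901) (allR_glue (step_902) (step_903) rfl) rfl) rfl) rfl) rfl) (allR_glue (allR_glue (allR_glue (allR_glue (step_904) (step_905) rfl) (allR_glue (step_906) (step_907) rfl) rfl) (allR_glue (allR_glue (step_908) (step_909) rfl) (allR_glue (step_910) (step_911) rfl) rfl) rfl) (allR_glue (allR_glue (allR_glue (step_912) (step_913) rfl) (allR_glue (step_914) (step_915) rfl) rfl) (allR_glue (allR_glue (step_916) (step_917) rfl) (allR_glue (step_918) (allR_glue (step_919) (step_920) rfl) rfl) rfl) rfl) rfl) rfl) (allR_glue (allR_glue (allR_glue (allR_glue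 (allR_glue (step_921) (step_922) rfl) (allR_glue (step_923) (step_924) rfl) rfl) (allR_glue (allR_glue (step_925) (step_926) rfl) (allR_glue (step_927) (step_928) rfl) rfl) rfl) (allR_glue (allR_glue (allR_glue (step_929) (step_930) rfl) (allR_glue (step_931) (step_932) rfl) rfl) (allR_glue (allR_glue (step_933) (step_934) rfl) (allR_glue (step_935) (allR_glue (step_936) (step_937) rfl) rfl) rfl) rfl) rfl) (allR_glue (allR_glue (allR_glue (allR_glue (step_938) (step_939) rfl) (allR_glue (step_940) (step_941) rfl) rfl) (allR_glue (allR_glue (step_942) (step_943) rfl) (allR_glue (step_944) (step_945) rfl) rfl) rfl) (allR_glue (allR_glue (allR_glue (step_946) (step_947) rfl) (allR_glue (step_948) (step_949) rfl) rfl) (allR_glue (allR_glue (step_950) (step_951) rfl) (allR_glue (step_952) (allR_glue (step_953) (step_954) rfl) rfl) rfl) rfl) rfl) rfl) rfl) rfl) (allR_glue (allR_glue (allR_glue (allR_glue (allR_glue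 (allR_glue (allR_glue (step_955) (step_956) rfl) (allR_glue (step_957) (step_958) rfl) rfl) (allR_glue (allR_glue (step_959) (step_960) rfl) (allR_glue (step_961) (step_962) rfl) rfl) rfl) (allR_glue (allR_glue (allR_glue (step_963) (step_964) rfl) (allR_glue (step_965) (step_966) rfl) rfl) (allR_glue (allR_glue (step_967) (step_968) rfl) (allR_glue (step_969) (allR_glue (step_970) (step_971) rfl) rfl) rfl) rfl) rfl) (allR_glue (allR_glue (allR_glue (allR_glue (step_972) (step_973) rfl) (allR_glue (step_974) (step_975) rfl) rfl) (allR_glue (allR_glue (step_976) (step_977) rfl) (allR_glue (step_978) (step_979) rfl) rfl) rfl) (allR_glue (allR_glue (allR_glue (step_980) (step_981) rfl) (allR_glue (step_982) (step_983) rfl) rfl) (allR_glue (allR_glue (step_984) (step_985) rfl) (allR_glue (step_986) (allR_glue (step_987) (step_988) rfl) rfl) rfl) rfl) rfl) rfl) (allR_glue (allR_glue (allR_glue (allR_glue (allR_glue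 (step_989) (step_990) rfl) (allR_glue (step_991) (step_992) rfl) rfl) (allR_glue (allR_glue (step_993) (step_994) rfl) (allR_glue (step_995) (step_996) rfl) rfl) rfl) (allR_glue (allR_glue (allR_glue (step_997) (step_998) rfl) (allR_glue (step_999) (step_1000) rfl) rfl) (allR_glue (allR_glue (step_1001) (step_1002) rfl) (allR_glue (step_1003) (allR_glue (step_1004) (step_1005) rfl) rfl) rfl) rfl) rfl) (allR_glue (allR_glue (allR_glue (allR_glue (step_1006) (step_1007) rfl) (allR_glue (step_1008) (step_1009) rfl) rfl) (allR_glue (allR_glue (step_1010) (step_1011) rfl) (allR_glue (step_1012) (step_1013) rfl) rfl) rfl) (allR_glue (allR_glue (allR_glue (step_1014) (step_1015) rfl) (allR_glue (step_1016) (step_1017) rfl) rfl) (allR_glue (allR_glue (step_1018) (step_1019) rfl) (allR_glue (step_1020) (allR_glue (step_1021) (step_1022) rfl) rfl) rfl) rfl) rfl) rfl) rfl) (allR_glue (allR_glue (allR_glue (allR_glue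 (allR_glue (allR_glue (step_1023) (step_1024) rfl) (allR_glue (step_1025) (step_1026) rfl) rfl) (allR_glue (allR_glue (step_1027) (step_1028) rfl) (allR_glue (step_1029) (step_1030) rfl) rfl) rfl) (allR_glue (allR_glue (allR_glue (step_1031) (step_1032) rfl) (allR_glue (step_1033) (step_1034) rfl) rfl) (allR_glue (allR_glue (step_1035) (step_1036) rfl) (allR_glue (step_1037) (allR_glue (step_1038) (step_1039) rfl) rfl) rfl) rfl) rfl) (allR_glue (allR_glue (allR_glue (allR_glue (step_1040) (step_1041) rfl) (allR_glue (step_1042) (step_1043) rfl) rfl) (allR_glue (allR_glue (step_1044) (step_1045) rfl) (allR_glue (step_1046) (step_1047) rfl) rfl) rfl) (allR_glue (allR_glue (allR_glue (step_1048) (step_1049) rfl) (allR_glue (step_1050) (step_1051) rfl) rfl) (allR_glue (allR_glue (step_1052) (step_1053) rfl) (allR_glue (step_1054) (allR_glue (step_1055) (step_1056) rfl) rfl) rfl) rfl) rfl) rfl) (allR_glue (allR_glue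 (allR_glue (allR_glue (allR_glue (step_1057) (step_1058) rfl) (allR_glue (step_1059) (step_1060) rfl) rfl) (allR_glue (allR_glue (step_1061) (step_1062) rfl) (allR_glue (step_1063) (step_1064) rfl) rfl) rfl) (allR_glue (allR_glue (allR_glue (step_1065) (step_1066) rfl) (allR_glue (step_1067) (step_1068) rfl) rfl) (allR_glue (allR_glue (step_1069) (step_1070) rfl) (allR_glue (step_1071) (allR_glue (step_1072) (step_1073) rfl) rfl) rfl) rfl) rfl) (allR_glue (allR_glue (allR_glue (allR_glue (step_1074) (step_1075) rfl) (allR_glue (step_1076) (step_1077) rfl) rfl) (allR_glue (allR_glue (step_1078) (step_1079) rfl) (allR_glue (step_1080) (allR_glue (step_1081) (step_1082) rfl) rfl) rfl) rfl) (allR_glue (allR_glue (allR_glue (step_1083) (step_1084) rfl) (allR_glue (step_1085) (step_1086) rfl) rfl) (allR_glue (allR_glue (step_1087) (step_1088) rfl) (allR_glue (step_1089) (allR_glue (step_1090) (step_1091) rfl)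 rfl) rfl) rfl) rfl) rfl) rfl) rfl) rfl) rfl) rfl) rfl

end Vale.Agent.P183L.Tab
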