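import Vale.Agent.P183L.Tab

/-! b3 -/

namespace Vale.Agent.P183L.Tab

theorem b3_0 : allR (blockChk (leK 3) Z3) 0 500 = true := by decide +kernel
theorem b3_1 : allR (blockChk (leK 3) Z3) 500 500 = true := by decide +kernel
theorem b3_2 : allR (blockChk (leK 3) Z3) 1000 500 = true := by decide +kernel
theorem b3_3 : allR (blockChk (leK 3) Z3) 1500 500 = true := by decide +kernel
theorem b3_4 : allR (blockChk (leK 3) Z3) 2000 500 = true := by decide +kernel
theorem b3_5 : allR (blockChk (leK 3) Z3) 2500 500 = true := by decide +kernel
theorem b3_6 : allR (blockChk (leK 3) Z3) 3000 500 = true := by decide +kernel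
theorem b3_7 : allR (blockChk (leK 3) Z3) 3500 500 = true := by decide +kernel
theorem b3_8 : allR (blockChk (leK 3) Z3) 4000 500 = true := by decide +kernel
theorem b3_9 : allR (blockChk (leK 3) Z3) 4500 500 = true := by decide +kernel
theorem b3_10 : allR (blockChk (leK 3) Z3) 5000 500 = true := by decide +kernel
theorem b3_11 : allR (blockChk (leK 3) Z3) 5500 500 = true := by decide +kernel
theorem b3_12 : allR (blockChk (leK 3) Z3) 6000 500 = true := by decide +kernel
theorem b3_13 : allR (blockChk (leK 3) Z3) 6500 500 = true := by decide +kernel
theorem b3_14 : allR (blockChk (leK 3) Z3) 7000 500 = true := by decide +kernel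
theorem b3_15 : allR (blockChk (leK 3) Z3) 7500 500 = true := by decide +kernel
theorem b3_16 : allR (blockChk (leK 3) Z3) 8000 500 = true := by decide +kernel
theorem b3_17 : allR (blockChk (leK 3) Z3) 8500 500 = true := by decide +kernel
theorem b3_18 : allR (blockChk (leK 3) Z3) 9000 500 = true := by decide +kernel
theorem b3_19 : allR (blockChk (leK 3) Z3) 9500 500 = true := by decide +kernel
theorem b3_20 : allR (blockChk (leK 3) Z3) 10000 500 = true := by decide +kernel
theorem b3_21 : allR (blockChk (leK 3) Z3) 10500 500 = true := by decide +kernel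
theorem b3_22 : allR (blockChk (leK 3) Z3) 11000 500 = true := by decide +kernel
theorem b3_23 : allR (blockChk (leK 3) Z3) 11500 500 = true := by decide +kernel
theorem b3_24 : allR (blockChk (leK 3) Z3) 12000 500 = true := by decide +kernel
theorem b3_25 : allR (blockChk (leK 3) Z3) 12500 500 = true := by decide +kernel
theorem b3_26 : allR (blockChk (leK 3) Z3) 13000 500 = true := by decide +kernel
theorem b3_27 : allR (blockChk (leK 3) Z3) 13500 500 = true := by decide +kernel
theorem b3_28 : allR (blockChk (leK 3) Z3) 14000 500 = true := by decide +kernel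
theorem b3_29 : allR (blockChk (leK 3) Z3) 14500 500 = true := by decide +kernel
theorem b3_30 : allR (blockChk (leK 3) Z3) 15000 500 = true := by decide +kernel
theorem b3_31 : allR (blockChk (leK 3) Z3) 15500 500 = true := by decide +kernel
theorem b3_32 : allR (blockChk (leK 3) Z3) 16000 500 = true := by decide +kernel
theorem b3_33 : allR (blockChk (leK 3) Z3) 16500 500 = true := by decide +kernel
theorem b3_34 : allR (blockChk (leK 3) Z3) 17000 500 = true := by decide +kernel
theorem b3_35 : allR (blockChk (leK 3) Z3) 17500 500 = true := by decide +kernel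
theorem b3_36 : allR (blockChk (leK 3) Z3) 18000 500 = true := by decide +kernel
theorem b3_37 : allR (blockChk (leK 3) Z3) 18500 500 = true := by decide +kernel
theorem b3_38 : allR (blockChk (leK 3) Z3) 19000 500 = true := by decide +kernel
theorem b3_39 : allR (blockChk (leK 3) Z3) 19500 500 = true := by decide +kernel
theorem b3_40 : allR (blockChk (leK 3) Z3) 20000 500 = true := by decide +kernel
theorem b3_41 : allR (blockChk (leK 3) Z3) 20500 500 = true := by decide +kernel
theorem b3_42 : allR (blockChk (leK 3) Z3) 21000 500 = true := by decide +kernel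
theorem b3_43 : allR (blockChk (leK 3) Z3) 21500 500 = true := by decide +kernel
theorem b3_44 : allR (blockChk (leK 3) Z3) 22000 500 = true := by decide +kernel
theorem b3_45 : allR (blockChk (leK 3) Z3) 22500 500 = true := by decide +kernel
theorem b3_46 : allR (blockChk (leK 3) Z3) 23000 500 = true := by decide +kernel
theorem b3_47 : allR (blockChk (leK 3) Z3) 23500 500 = true := by decide +kernel
theorem b3_48 : allR (blockChk (leK 3) Z3) 24000 500 = true := by decide +kernel
theorem b3_49 : allR (blockChk (leK 3) Z3) 24500 500 = true := by decide +kernel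
theorem b3_50 : allR (blockChk (leK 3) Z3) 25000 500 = true := by decide +kernel
theorem b3_51 : allR (blockChk (leK 3) Z3) 25500 500 = true := by decide +kernel
theorem b3_52 : allR (blockChk (leK 3) Z3) 26000 500 = true := by decide +kernel
theorem b3_53 : allR (blockChk (leK 3) Z3) 26500 500 = true := by decide +kernel
theorem b3_54 : allR (blockChk (leK 3) Z3) 27000 500 = true := by decide +kernel
theorem b3_55 : allR (blockChk (leK 3) Z3) 27500 500 = true := by decide +kernel
theorem b3_56 : allR (blockChk (leK 3) Z3) 28000 500 = true := by decide +kernel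
theorem b3_57 : allR (blockChk (leK 3) Z3) 28500 500 = true := by decide +kernel
theorem b3_58 : allR (blockChk (leK 3) Z3) 29000 500 = true := by decide +kernel
theorem b3_59 : allR (blockChk (leK 3) Z3) 29500 500 = true := by decide +kernel
theorem b3_60 : allR (blockChk (leK 3) Z3) 30000 500 = true := by decide +kernel
theorem b3_61 : allR (blockChk (leK 3) Z3) 30500 500 = true := by decide +kernel
theorem b3_62 : allR (blockChk (leK 3) Z3) 31000 500 = true := by decide +kernel
theorem b3_63 : allR (blockChk (leK 3) Z3) 31500 500 = true := by decide +kernel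
theorem b3_64 : allR (blockChk (leK 3) Z3) 32000 500 = true := by decide +kernel
theorem b3_65 : allR (blockChk (leK 3) Z3) 32500 500 = true := by decide +kernel
theorem b3_66 : allR (blockChk (leK 3) Z3) 33000 500 = true := by decide +kernel
theorem b3_67 : allR (blockChk (leK 3) Z3) 33500 500 = true := by decide +kernel
theorem b3_68 : allR (blockChk (leK 3) Z3) 34000 500 = true := by decide +kernel
theorem b3_69 : allR (blockChk (leK 3) Z3) 34500 500 = true := by decide +kernel
theorem b3_70 : allR (blockChk (leK 3) Z3) 35000 500 = true := by decide +kernel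
theorem b3_71 : allR (blockChk (leK 3) Z3) 35500 500 = true := by decide +kernel
theorem b3_72 : allR (blockChk (leK 3) Z3) 36000 500 = true := by decide +kernel
theorem b3_73 : allR (blockChk (leK 3) Z3) 36500 500 = true := by decide +kernel
theorem b3_74 : allR (blockChk (leK 3) Z3) 37000 500 = true := by decide +kernel
theorem b3_75 : allR (blockChk (leK 3) Z3) 37500 500 = true := by decide +kernel
theorem b3_76 : allR (blockChk (leK 3) Z3) 38000 500 = true := by decide +kernel
theorem b3_77 : allR (blockChk (leK 3) Z3) 38500 500 = true := by decide +kernel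
theorem b3_78 : allR (blockChk (leK 3) Z3) 39000 500 = true := by decide +kernel
theorem b3_79 : allR (blockChk (leK 3) Z3) 39500 500 = true := by decide +kernel
theorem b3_80 : allR (blockChk (leK 3) Z3) 40000 500 = true := by decide +kernel
theorem b3_81 : allR (blockChk (leK 3) Z3) 40500 500 = true := by decide +kernel
theorem b3_82 : allR (blockChk (leK 3) Z3) 41000 500 = true := by decide +kernel
theorem b3_83 : allR (blockChk (leK 3) Z3) 41500 500 = true := by decide +kernel
theorem b3_84 : allR (blockChk (leK 3) Z3) 42000 500 = true := by decide +kernel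
theorem b3_85 : allR (blockChk (leK 3) Z3) 42500 500 = true := by decide +kernel
theorem b3_86 : allR (blockChk (leK 3) Z3) 43000 500 = true := by decide +kernel
theorem b3_87 : allR (blockChk (leK 3) Z3) 43500 180 = true := by decide +kernel

end Vale.Agent.P183L.Tab
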