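import Vale.Agent.P183L.Tab

/-! gen0 -/

namespace Vale.Agent.P183L.Tab

theorem gen0_0 : allR (genChk t0 N) 0 250 = true := by decide +kernel
theorem gen0_1 : allR (genChk t0 N) 250 250 = true := by decide +kernel
theorem gen0_2 : allR (genChk t0 N) 500 250 = true := by decide +kernel
theorem gen0_3 : allR (genChk t0 N) 750 250 = true := by decide +kernel
theorem gen0_4 : allR (genChk t0 N) 1000 250 = true := by decide +kernel
theorem gen0_5 : allR (genChk t0 N) 1250 250 = true := by decide +kernel
theorem gen0_6 : allR (genChk t0 N) 1500 250 = true := by decide +kernel
theorem gen0_7 : allR (genChk t0 N) 1750 250 = true := by decide +kernel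
theorem gen0_8 : allR (genChk t0 N) 2000 250 = true := by decide +kernel
theorem gen0_9 : allR (genChk t0 N) 2250 250 = true := by decide +kernel
theorem gen0_10 : allR (genChk t0 N) 2500 250 = true := by decide +kernel
theorem gen0_11 : allR (genChk t0 N) 2750 250 = true := by decide +kernel
theorem gen0_12 : allR (genChk t0 N) 3000 250 = true := by decide +kernel
theorem gen0_13 : allR (genChk t0 N) 3250 250 = true := by decide +kernel
theorem gen0_14 : allR (genChk t0 N) 3500 250 = true := by decide +kernel
theorem gen0_15 : allR (genChk t0 N) 3750 250 = true := by decide +kernel
theorem gen0_16 : allR (genChk t0 N) 4000 250 = true := by decide +kernel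
theorem gen0_17 : allR (genChk t0 N) 4250 250 = true := by decide +kernel
theorem gen0_18 : allR (genChk t0 N) 4500 250 = true := by decide +kernel
theorem gen0_19 : allR (genChk t0 N) 4750 250 = true := by decide +kernel
theorem gen0_20 : allR (genChk t0 N) 5000 250 = true := by decide +kernel
theorem gen0_21 : allR (genChk t0 N) 5250 250 = true := by decide +kernel
theorem gen0_22 : allR (genChk t0 N) 5500 250 = true := by decide +kernel
theorem gen0_23 : allR (genChk t0 N) 5750 250 = true := by decide +kernel
theorem gen0_24 : allR (genChk t0 N) 6000 250 = true := by decide +kernel
theorem gen0_25 : allR (genChk t0 N) 6250 250 = true := by decide +kernel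
theorem gen0_26 : allR (genChk t0 N) 6500 250 = true := by decide +kernel
theorem gen0_27 : allR (genChk t0 N) 6750 250 = true := by decide +kernel
theorem gen0_28 : allR (genChk t0 N) 7000 250 = true := by decide +kernel
theorem gen0_29 : allR (genChk t0 N) 7250 250 = true := by decide +kernel
theorem gen0_30 : allR (genChk t0 N) 7500 250 = true := by decide +kernel
theorem gen0_31 : allR (genChk t0 N) 7750 250 = true := by decide +kernel
theorem gen0_32 : allR (genChk t0 N) 8000 250 = true := by decide +kernel
theorem gen0_33 : allR (genChk t0 N) 8250 250 = true := by decide +kernel
theorem gen0_34 : allR (genChk t0 N) 8500 250 = true := by decide +kernel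
theorem gen0_35 : allR (genChk t0 N) 8750 250 = true := by decide +kernel
theorem gen0_36 : allR (genChk t0 N) 9000 250 = true := by decide +kernel
theorem gen0_37 : allR (genChk t0 N) 9250 250 = true := by decide +kernel
theorem gen0_38 : allR (genChk t0 N) 9500 250 = true := by decide +kernel
theorem gen0_39 : allR (genChk t0 N) 9750 250 = true := by decide +kernel
theorem gen0_40 : allR (genChk t0 N) 10000 250 = true := by decide +kernel
theorem gen0_41 : allR (genChk t0 N) 10250 250 = true := by decide +kernel
theorem gen0_42 : allR (genChk t0 N) 10500 250 = true := by decide +kernel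
theorem gen0_43 : allR (genChk t0 N) 10750 250 = true := by decide +kernel
theorem gen0_44 : allR (genChk t0 N) 11000 250 = true := by decide +kernel
theorem gen0_45 : allR (genChk t0 N) 11250 250 = true := by decide +kernel
theorem gen0_46 : allR (genChk t0 N) 11500 250 = true := by decide +kernel
theorem gen0_47 : allR (genChk t0 N) 11750 250 = true := by decide +kernel
theorem gen0_48 : allR (genChk t0 N) 12000 250 = true := by decide +kernel
theorem gen0_49 : allR (genChk t0 N) 12250 250 = true := by decide +kernel
theorem gen0_50 : allR (genChk t0 N) 12500 250 = true := by decide +kernel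
theorem gen0_51 : allR (genChk t0 N) 12750 250 = true := by decide +kernel
theorem gen0_52 : allR (genChk t0 N) 13000 250 = true := by decide +kernel
theorem gen0_53 : allR (genChk t0 N) 13250 250 = true := by decide +kernel
theorem gen0_54 : allR (genChk t0 N) 13500 250 = true := by decide +kernel
theorem gen0_55 : allR (genChk t0 N) 13750 250 = true := by decide +kernel
theorem gen0_56 : allR (genChk t0 N) 14000 250 = true := by decide +kernel
theorem gen0_57 : allR (genChk t0 N) 14250 250 = true := by decide +kernel
theorem gen0_58 : allR (genChk t0 N) 14500 250 = true := by decide +kernel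
theorem gen0_59 : allR (genChk t0 N) 14750 250 = true := by decide +kernel
theorem gen0_60 : allR (genChk t0 N) 15000 250 = true := by decide +kernel
theorem gen0_61 : allR (genChk t0 N) 15250 250 = true := by decide +kernel
theorem gen0_62 : allR (genChk t0 N) 15500 250 = true := by decide +kernel
theorem gen0_63 : allR (genChk t0 N) 15750 250 = true := by decide +kernel
theorem gen0_64 : allR (genChk t0 N) 16000 250 = true := by decide +kernel
theorem gen0_65 : allR (genChk t0 N) 16250 250 = true := by decide +kernel
theorem gen0_66 : allR (genChk t0 N) 16500 250 = true := by decide +kernel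
theorem gen0_67 : allR (genChk t0 N) 16750 250 = true := by decide +kernel
theorem gen0_68 : allR (genChk t0 N) 17000 250 = true := by decide +kernel
theorem gen0_69 : allR (genChk t0 N) 17250 250 = true := by decide +kernel
theorem gen0_70 : allR (genChk t0 N) 17500 250 = true := by decide +kernel
theorem gen0_71 : allR (genChk t0 N) 17750 250 = true := by decide +kernel
theorem gen0_72 : allR (genChk t0 N) 18000 250 = true := by decide +kernel
theorem gen0_73 : allR (genChk t0 N) 18250 250 = true := by decide +kernel
theorem gen0_74 : allR (genChk t0 N) 18500 250 = true := by decide +kernel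
theorem gen0_75 : allR (genChk t0 N) 18750 250 = true := by decide +kernel
theorem gen0_76 : allR (genChk t0 N) 19000 250 = true := by decide +kernel
theorem gen0_77 : allR (genChk t0 N) 19250 250 = true := by decide +kernel
theorem gen0_78 : allR (genChk t0 N) 19500 250 = true := by decide +kernel
theorem gen0_79 : allR (genChk t0 N) 19750 250 = true := by decide +kernel
theorem gen0_80 : allR (genChk t0 N) 20000 250 = true := by decide +kernel
theorem gen0_81 : allR (genChk t0 N) 20250 250 = true := by decide +kernel
theorem gen0_82 : allR (genChk t0 N) 20500 250 = true := by decide +kernel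
theorem gen0_83 : allR (genChk t0 N) 20750 250 = true := by decide +kernel
theorem gen0_84 : allR (genChk t0 N) 21000 250 = true := by decide +kernel
theorem gen0_85 : allR (genChk t0 N) 21250 250 = true := by decide +kernel
theorem gen0_86 : allR (genChk t0 N) 21500 250 = true := by decide +kernel
theorem gen0_87 : allR (genChk t0 N) 21750 250 = true := by decide +kernel
theorem gen0_88 : allR (genChk t0 N) 22000 250 = true := by decide +kernel
theorem gen0_89 : allR (genChk t0 N) 22250 250 = true := by decide +kernel
theorem gen0_90 : allR (genChk t0 N) 22500 250 = true := by decide +kernel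
theorem gen0_91 : allR (genChk t0 N) 22750 250 = true := by decide +kernel
theorem gen0_92 : allR (genChk t0 N) 23000 250 = true := by decide +kernel
theorem gen0_93 : allR (genChk t0 N) 23250 250 = true := by decide +kernel
theorem gen0_94 : allR (genChk t0 N) 23500 250 = true := by decide +kernel
theorem gen0_95 : allR (genChk t0 N) 23750 250 = true := by decide +kernel
theorem gen0_96 : allR (genChk t0 N) 24000 250 = true := by decide +kernel
theorem gen0_97 : allR (genChk t0 N) 24250 250 = true := by decide +kernel
theorem gen0_98 : allR (genChk t0 N) 24500 250 = true := by decide +kernel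
theorem gen0_99 : allR (genChk t0 N) 24750 250 = true := by decide +kernel
theorem gen0_100 : allR (genChk t0 N) 25000 250 = true := by decide +kernel
theorem gen0_101 : allR (genChk t0 N) 25250 250 = true := by decide +kernel
theorem gen0_102 : allR (genChk t0 N) 25500 250 = true := by decide +kernel
theorem gen0_103 : allR (genChk t0 N) 25750 250 = true := by decide +kernel
theorem gen0_104 : allR (genChk t0 N) 26000 250 = true := by decide +kernel
theorem gen0_105 : allR (genChk t0 N) 26250 250 = true := by decide +kernel
theorem gen0_106 : allR (genChk t0 N) 26500 250 = true := by decide +kernel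
theorem gen0_107 : allR (genChk t0 N) 26750 250 = true := by decide +kernel
theorem gen0_108 : allR (genChk t0 N) 27000 250 = true := by decide +kernel
theorem gen0_109 : allR (genChk t0 N) 27250 250 = true := by decide +kernel
theorem gen0_110 : allR (genChk t0 N) 27500 250 = true := by decide +kernel
theorem gen0_111 : allR (genChk t0 N) 27750 250 = true := by decide +kernel
theorem gen0_112 : allR (genChk t0 N) 28000 250 = true := by decide +kernel
theorem gen0_113 : allR (genChk t0 N) 28250 250 = true := by decide +kernel
theorem gen0_114 : allR (genChk t0 N) 28500 250 = true := by decide +kernel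
theorem gen0_115 : allR (genChk t0 N) 28750 250 = true := by decide +kernel
theorem gen0_116 : allR (genChk t0 N) 29000 250 = true := by decide +kernel
theorem gen0_117 : allR (genChk t0 N) 29250 250 = true := by decide +kernel
theorem gen0_118 : allR (genChk t0 N) 29500 250 = true := by decide +kernel
theorem gen0_119 : allR (genChk t0 N) 29750 250 = true := by decide +kernel
theorem gen0_120 : allR (genChk t0 N) 30000 250 = true := by decide +kernel
theorem gen0_121 : allR (genChk t0 N) 30250 250 = true := by decide +kernel
theorem gen0_122 : allR (genChk t0 N) 30500 250 = true := by decide +kernel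
theorem gen0_123 : allR (genChk t0 N) 30750 250 = true := by decide +kernel
theorem gen0_124 : allR (genChk t0 N) 31000 250 = true := by decide +kernel
theorem gen0_125 : allR (genChk t0 N) 31250 250 = true := by decide +kernel
theorem gen0_126 : allR (genChk t0 N) 31500 250 = true := by decide +kernel
theorem gen0_127 : allR (genChk t0 N) 31750 250 = true := by decide +kernel
theorem gen0_128 : allR (genChk t0 N) 32000 250 = true := by decide +kernel
theorem gen0_129 : allR (genChk t0 N) 32250 250 = true := by decide +kernel
theorem gen0_130 : allR (genChk t0 N) 32500 250 = true := by decide +kernel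
theorem gen0_131 : allR (genChk t0 N) 32750 250 = true := by decide +kernel
theorem gen0_132 : allR (genChk t0 N) 33000 250 = true := by decide +kernel
theorem gen0_133 : allR (genChk t0 N) 33250 250 = true := by decide +kernel
theorem gen0_134 : allR (genChk t0 N) 33500 250 = true := by decide +kernel
theorem gen0_135 : allR (genChk t0 N) 33750 250 = true := by decide +kernel
theorem gen0_136 : allR (genChk t0 N) 34000 250 = true := by decide +kernel
theorem gen0_137 : allR (genChk t0 N) 34250 250 = true := by decide +kernel
theorem gen0_138 : allR (genChk t0 N) 34500 250 = true := by decide +kernel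
theorem gen0_139 : allR (genChk t0 N) 34750 250 = true := by decide +kernel
theorem gen0_140 : allR (genChk t0 N) 35000 250 = true := by decide +kernel
theorem gen0_141 : allR (genChk t0 N) 35250 250 = true := by decide +kernel
theorem gen0_142 : allR (genChk t0 N) 35500 250 = true := by decide +kernel
theorem gen0_143 : allR (genChk t0 N) 35750 250 = true := by decide +kernel
theorem gen0_144 : allR (genChk t0 N) 36000 250 = true := by decide +kernel
theorem gen0_145 : allR (genChk t0 N) 36250 250 = true := by decide +kernel
theorem gen0_146 : allR (genChk t0 N) 36500 250 = true := by decide +kernel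
theorem gen0_147 : allR (genChk t0 N) 36750 250 = true := by decide +kernel
theorem gen0_148 : allR (genChk t0 N) 37000 250 = true := by decide +kernel
theorem gen0_149 : allR (genChk t0 N) 37250 250 = true := by decide +kernel
theorem gen0_150 : allR (genChk t0 N) 37500 250 = true := by decide +kernel
theorem gen0_151 : allR (genChk t0 N) 37750 250 = true := by decide +kernel
theorem gen0_152 : allR (genChk t0 N) 38000 250 = true := by decide +kernel
theorem gen0_153 : allR (genChk t0 N) 38250 250 = true := by decide +kernel
theorem gen0_154 : allR (genChk t0 N) 38500 250 = true := by decide +kernel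
theorem gen0_155 : allR (genChk t0 N) 38750 250 = true := by decide +kernel
theorem gen0_156 : allR (genChk t0 N) 39000 250 = true := by decide +kernel
theorem gen0_157 : allR (genChk t0 N) 39250 250 = true := by decide +kernel
theorem gen0_158 : allR (genChk t0 N) 39500 250 = true := by decide +kernel
theorem gen0_159 : allR (genChk t0 N) 39750 250 = true := by decide +kernel
theorem gen0_160 : allR (genChk t0 N) 40000 250 = true := by decide +kernel
theorem gen0_161 : allR (genChk t0 N) 40250 250 = true := by decide +kernel
theorem gen0_162 : allR (genChk t0 N) 40500 250 = true := by decide +kernel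
theorem gen0_163 : allR (genChk t0 N) 40750 250 = true := by decide +kernel
theorem gen0_164 : allR (genChk t0 N) 41000 250 = true := by decide +kernel
theorem gen0_165 : allR (genChk t0 N) 41250 250 = true := by decide +kernel
theorem gen0_166 : allR (genChk t0 N) 41500 250 = true := by decide +kernel
theorem gen0_167 : allR (genChk t0 N) 41750 250 = true := by decide +kernel
theorem gen0_168 : allR (genChk t0 N) 42000 250 = true := by decide +kernel
theorem gen0_169 : allR (genChk t0 N) 42250 250 = true := by decide +kernel
theorem gen0_170 : allR (genChk t0 N) 42500 250 = true := by decide +kernel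
theorem gen0_171 : allR (genChk t0 N) 42750 250 = true := by decide +kernel
theorem gen0_172 : allR (genChk t0 N) 43000 250 = true := by decide +kernel
theorem gen0_173 : allR (genChk t0 N) 43250 250 = true := by decide +kernel
theorem gen0_174 : allR (genChk t0 N) 43500 180 = true := by decide +kernel

end Vale.Agent.P183L.Tab
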